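import Mathlib

namespace Vale.Agent.Helper18.Exp

open Finset

variable {V : Type*} [DecidableEq V]

/-- The walks of length `r` from `s` with respect to a successor function, recorded as the list
of the vertices visited after `s`. -/
def walks (succ : V → Finset V) : ℕ → V → Finset (List V)
  | 0, _ => {[]}
  | r + 1, s => (succ s).biUnion (fun s' => (walks succ r s').image (fun l => s' :: l))

/-- The `i`-th vertex of the walk `s :: l` (the last vertex is repeated past the end). -/
def nth : V → List V → ℕ → V
  | s, [], _ => s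
  | s, _ :: _, 0 => s
  | _, a :: l, i + 1 => nth a l i

omit [DecidableEq V] in
theorem nth_zero (s : V) (l : List V) : nth s l 0 = s := by
  cases l <;> rfl

omit [DecidableEq V] in
theorem nth_mem (s : V) (l : List V) (j : ℕ) (h1 : 1 ≤ j) (h2 : j ≤ l.length) : nth s l j ∈ l := by
  induction l generalizing s j with
  | nil => simp at h2; omega
  | cons a l ih =>
    obtain ⟨j', rfl⟩ : ∃ j', j = j' + 1 := ⟨j - 1, by omega⟩
    show nth a l j' ∈ a :: l
    rcases Nat.eq_zero_or_pos j' with rfl | hj
    · rw [nth_zero]; exact List.mem_cons_self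
    · exact List.mem_cons_of_mem _ (ih a j' hj (by simpa using h2))

omit [DecidableEq V] in
theorem nth_ext (s s' : V) (l l' : List V) (hlen : l.length = l'.length)
    (h : ∀ i, 1 ≤ i → i ≤ l.length → nth s l i = nth s' l' i) : l = l' := by
  induction l generalizing s s' l' with
  | nil =>
    cases l' with
    | nil => rfl
    | cons b l' => simp at hlen
  | cons a l ih =>
    cases l' with
    | nil => simp at hlen
    | cons b l' =>
      have h1 := h 1 (le_refl _) (by simp)
      have hab : a = b := by
        have : nth a l 0 = nth b l' 0 := h1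
        rwa [nth_zero, nth_zero] at this
      subst hab
      congr 1
      apply ih a a l' (by simpa using hlen)
      intro i hi1 hi2
      exact h (i + 1) (by omega) (by simp; omega)

/-- The last vertex of the walk `s :: l`. -/
def wend (s : V) (l : List V) : V := nth s l l.length

omit [DecidableEq V] in
theorem wend_cons (s a : V) (l : List V) : wend s (a :: l) = wend a l := rfl

omit [DecidableEq V] in
theorem wend_nil (s : V) : wend s [] = s := rfl

theorem sum_walks_succ (succ : V → Finset V) (r : ℕ) (s : V) (F : List V → ℝ) :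
    ∑ l ∈ walks succ (r + 1) s, F l = ∑ s' ∈ succ s, ∑ l ∈ walks succ r s', F (s' :: l) := by
  show ∑ l ∈ (succ s).biUnion (fun s' => (walks succ r s').image (fun l => s' :: l)), F l = _
  rw [Finset.sum_biUnion]
  · apply Finset.sum_congr rfl
    intro s' _
    rw [Finset.sum_image]
    intro a _ b _ h
    exact List.tail_eq_of_cons_eq h
  · intro a _ b _ hab
    show Disjoint _ _
    rw [Finset.disjoint_left]
    intro l hl hl'
    simp only [mem_image] at hl hl'
    obtain ⟨l1, -, rfl⟩ := hl
    obtain ⟨l2, -, h2⟩ := hl'
    exact hab (List.head_eq_of_cons_eq h2).symm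

theorem mem_walks_elim (succ : V → Finset V) (r : ℕ) (s : V) (l : List V)
    (h : l ∈ walks succ r s) :
    l.length = r ∧ ∀ i, i < r → nth s l (i + 1) ∈ succ (nth s l i) := by
  induction r generalizing s l with
  | zero =>
    have : l = [] := by simpa [walks] using h
    subst this
    exact ⟨rfl, fun i hi => absurd hi (by omega)⟩
  | succ r ih =>
    have h' : l ∈ (succ s).biUnion (fun s' => (walks succ r s').image (fun l => s' :: l)) := h
    simp only [mem_biUnion, mem_image] at h'
    obtain ⟨s', hs', l', hl', rfl⟩ := h'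
    obtain ⟨h1, h2⟩ := ih s' l' hl'
    refine ⟨by simp [h1], ?_⟩
    intro i hi
    rcases Nat.eq_zero_or_pos i with rfl | hi0
    · show nth s' l' 0 ∈ succ (nth s (s' :: l') 0)
      rw [nth_zero, nth_zero]
      exact hs'
    · obtain ⟨i', rfl⟩ : ∃ i', i = i' + 1 := ⟨i - 1, by omega⟩
      show nth s' l' (i' + 1) ∈ succ (nth s' l' i')
      exact h2 i' (by omega)

theorem mem_walks_intro (succ : V → Finset V) (r : ℕ) (q : ℕ → V)
    (h : ∀ i, i < r → q (i + 1) ∈ succ (q i)) :
    (List.range r).map (fun i => q (i + 1)) ∈ walks succ r (q 0) := by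
  induction r generalizing q with
  | zero => simp [walks]
  | succ r ih =>
    show _ ∈ (succ (q 0)).biUnion (fun s' => (walks succ r s').image (fun l => s' :: l))
    simp only [mem_biUnion, mem_image]
    refine ⟨q 1, h 0 (by omega), (List.range r).map (fun i => q (i + 1 + 1)), ?_, ?_⟩
    · exact ih (fun i => q (i + 1)) (fun i hi => h (i + 1) (by omega))
    · rw [List.range_succ_eq_map]
      simp [Function.comp_def]

theorem card_walks_le (succ : V → Finset V) (d : ℕ) (hd : ∀ s, (succ s).card ≤ d) (r : ℕ) (s : V) :
    (walks succ r s).card ≤ d ^ r := by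
  induction r generalizing s with
  | zero => simp [walks]
  | succ r ih =>
    show ((succ s).biUnion (fun s' => (walks succ r s').image (fun l => s' :: l))).card ≤ _
    calc _ ≤ ∑ s' ∈ succ s, ((walks succ r s').image (fun l => s' :: l)).card :=
          Finset.card_biUnion_le
      _ ≤ ∑ s' ∈ succ s, d ^ r := by
          apply Finset.sum_le_sum
          intro s' _
          exact le_trans Finset.card_image_le (ih s')
      _ = (succ s).card * d ^ r := by rw [Finset.sum_const, smul_eq_mul]
      _ ≤ d * d ^ r := Nat.mul_le_mul_right _ (hd s)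
      _ = d ^ (r + 1) := by ring

variable [Fintype V]

/-- The number of walks of length `r` from `s` ending at `c`. -/
noncomputable def cnt (succ : V → Finset V) : ℕ → V → V → ℝ
  | 0, s, c => if s = c then 1 else 0
  | r + 1, s, c => ∑ s' ∈ succ s, cnt succ r s' c

omit [Fintype V] in
theorem cnt_nonneg (succ : V → Finset V) (r : ℕ) (s c : V) : 0 ≤ cnt succ r s c := by
  induction r generalizing s with
  | zero => show 0 ≤ (if s = c then (1:ℝ) else 0); split_ifs <;> norm_num
  | succ r ih => exact Finset.sum_nonneg (fun s' _ => ih s')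

theorem sum_wend (succ : V → Finset V) (r : ℕ) (s : V) (F : V → ℝ) :
    ∑ l ∈ walks succ r s, F (wend s l) = ∑ c, cnt succ r s c * F c := by
  induction r generalizing s with
  | zero =>
    show ∑ l ∈ ({[]} : Finset (List V)), F (wend s l) = ∑ c, (if s = c then (1:ℝ) else 0) * F c
    simp [wend_nil]
  | succ r ih =>
    rw [sum_walks_succ]
    have : ∀ s' ∈ succ s, ∑ l ∈ walks succ r s', F (wend s (s' :: l)) = ∑ c, cnt succ r s' c * F c := by
      intro s' _
      simp only [wend_cons]
      exact ih s'
    rw [Finset.sum_congr rfl this, Finset.sum_comm]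
    apply Finset.sum_congr rfl
    intro c _
    show _ = (∑ s' ∈ succ s, cnt succ r s' c) * F c
    rw [Finset.sum_mul]

theorem cnt_succ_last (succ : V → Finset V) (r : ℕ) (s c' : V) :
    cnt succ (r + 1) s c' = ∑ c, cnt succ r s c * (if c' ∈ succ c then 1 else 0) := by
  induction r generalizing s with
  | zero =>
    have h1 : ∑ s' ∈ succ s, (if s' = c' then (1:ℝ) else 0) = if c' ∈ succ s then 1 else 0 :=
      Finset.sum_ite_eq' (succ s) c' (fun _ => 1)
    have h2 : ∑ c, (if s = c then (1:ℝ) else 0) * (if c' ∈ succ c then (1:ℝ) else 0)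
        = if c' ∈ succ s then 1 else 0 := by
      simp only [ite_mul, one_mul, zero_mul]
      rw [Finset.sum_ite_eq]
      simp
    show ∑ s' ∈ succ s, (if s' = c' then (1:ℝ) else 0)
      = ∑ c, (if s = c then (1:ℝ) else 0) * (if c' ∈ succ c then (1:ℝ) else 0)
    rw [h1, h2]
  | succ r ih =>
    show ∑ s' ∈ succ s, cnt succ (r + 1) s' c' = ∑ c, (∑ s' ∈ succ s, cnt succ r s' c) * _
    rw [Finset.sum_congr rfl (fun s' _ => ih s'), Finset.sum_comm]
    apply Finset.sum_congr rfl
    intro c _
    rw [Finset.sum_mul]

theorem sum_cnt_le (succ : V → Finset V) (d : ℕ) (hd : ∀ s, (succ s).card ≤ d) (r : ℕ) (s : V) :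
    ∑ c, cnt succ r s c ≤ (d : ℝ) ^ r := by
  have h := sum_wend succ r s (fun _ => 1)
  simp only [mul_one, Finset.sum_const, nsmul_eq_mul] at h
  rw [← h]
  exact_mod_cast card_walks_le succ d hd r s

end Vale.Agent.Helper18.Exp
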