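import Mathlib
import Vale.Agent.Helper18.ExpWalks

namespace Vale.Agent.Helper18.Exp

open Finset

variable {V : Type*} [DecidableEq V] [Fintype V]

/-- The successors of `s`: the partners `x` (under the involution `τ`) of the neighbours of `s`
that are not fixed by `τ`. -/
def sc (G : SimpleGraph V) [DecidableRel G.Adj] (τ : V → V) (s : V) : Finset V :=
  univ.filter (fun x => τ x ≠ x ∧ G.Adj s (τ x))

/-- The spectral hypothesis in variational form. -/
def Spec (G : SimpleGraph V) [DecidableRel G.Adj] (d : ℕ) (lam : ℝ) : Prop :=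
  ∀ f : V → ℝ,
    ∑ x, (∑ y ∈ G.neighborFinset x, f y - (d : ℝ) / (Fintype.card V : ℝ) * ∑ y, f y) ^ 2
      ≤ lam ^ 2 * ∑ x, (f x - (∑ y, f y) / (Fintype.card V : ℝ)) ^ 2

/-- The sum of the squared deviations from the mean. -/
noncomputable def Ef (f : V → ℝ) : ℝ := ∑ x, (f x - (∑ y, f y) / (Fintype.card V : ℝ)) ^ 2

omit [DecidableEq V] in
theorem Ef_nonneg (f : V → ℝ) : 0 ≤ Ef f := Finset.sum_nonneg (fun _ _ => sq_nonneg _)

omit [DecidableEq V] in
theorem Ef_le_sum_sq_sub (hN : 0 < Fintype.card V) (f : V → ℝ) (a : ℝ) :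
    Ef f ≤ ∑ x, (f x - a) ^ 2 := by
  have hN' : (0 : ℝ) < (Fintype.card V : ℝ) := by exact_mod_cast hN
  set μ : ℝ := (∑ y, f y) / (Fintype.card V : ℝ) with hμ
  have h0 : ∑ x, (f x - μ) = 0 := by
    rw [Finset.sum_sub_distrib, Finset.sum_const, card_univ, nsmul_eq_mul, hμ]
    field_simp
    ring
  have h1 : ∀ x, (f x - a) ^ 2 = (f x - μ) ^ 2 + (2 * (μ - a) * (f x - μ) + (μ - a) ^ 2) := by
    intro x; ring
  have h2 : ∑ x, (f x - a) ^ 2 = Ef f + (Fintype.card V : ℝ) * (μ - a) ^ 2 := by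
    simp_rw [h1]
    rw [Finset.sum_add_distrib, Finset.sum_add_distrib, ← Finset.mul_sum, h0, Finset.sum_const,
      card_univ, nsmul_eq_mul]
    simp [Ef, hμ]
  rw [h2]
  have : 0 ≤ (Fintype.card V : ℝ) * (μ - a) ^ 2 := by positivity
  linarith

variable (G : SimpleGraph V) [DecidableRel G.Adj] (τ : V → V) (d : ℕ)

theorem sc_card_le (hreg : ∀ v, G.degree v = d) (hinv : ∀ x, τ (τ x) = x) (s : V) :
    (sc G τ s).card ≤ d := by
  rw [← hreg s, ← SimpleGraph.card_neighborFinset_eq_degree]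
  apply Finset.card_le_card_of_injOn τ
  · intro x hx
    simp only [sc, coe_filter, mem_univ, true_and, Set.mem_ofPred_eq] at hx
    simp [hx.2]
  · intro x _ y _ h
    have := congrArg τ h
    rwa [hinv, hinv] at this

theorem sc_card_ge (hreg : ∀ v, G.degree v = d) (hinv : ∀ x, τ (τ x) = x)
    (hfix : (univ.filter (fun x => τ x = x)).card ≤ 2) (s : V) :
    d ≤ (sc G τ s).card + 2 := by
  have h1 : (G.neighborFinset s \ univ.filter (fun x => τ x = x)).card ≤ (sc G τ s).card := by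
    apply Finset.card_le_card_of_injOn τ
    · intro y hy
      simp only [coe_sdiff, Set.mem_sdiff, mem_coe, SimpleGraph.mem_neighborFinset, mem_filter,
        mem_univ, true_and] at hy
      simp only [sc, coe_filter, mem_univ, true_and, Set.mem_ofPred_eq]
      rw [hinv]
      refine ⟨fun h => hy.2 h.symm, hy.1⟩
    · intro x _ y _ h
      have := congrArg τ h
      rwa [hinv, hinv] at this
  have h2 := Finset.le_card_sdiff (univ.filter (fun x => τ x = x)) (G.neighborFinset s)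
  rw [SimpleGraph.card_neighborFinset_eq_degree, hreg] at h2
  omega

theorem sc_indeg (hreg : ∀ v, G.degree v = d) (s' : V) :
    (univ.filter (fun c => s' ∈ sc G τ c)).card ≤ d := by
  rw [← hreg (τ s'), ← SimpleGraph.card_neighborFinset_eq_degree]
  apply Finset.card_le_card
  intro c hc
  simp only [sc, mem_filter, mem_univ, true_and] at hc
  simp [hc.2.symm]

theorem sum_cnt_le_pow (hreg : ∀ v, G.degree v = d) (hinv : ∀ x, τ (τ x) = x) (r : ℕ) (s : V) :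
    ∑ c, cnt (sc G τ) r s c ≤ (d : ℝ) ^ r :=
  sum_cnt_le (sc G τ) d (sc_card_le G τ d hreg hinv) r s

theorem sum_cnt_nonneg (r : ℕ) (s : V) : 0 ≤ ∑ c, cnt (sc G τ) r s c :=
  Finset.sum_nonneg (fun c _ => cnt_nonneg _ r s c)

theorem sum_cnt_ge_pow (hreg : ∀ v, G.degree v = d) (hinv : ∀ x, τ (τ x) = x)
    (hfix : (univ.filter (fun x => τ x = x)).card ≤ 2) (hd : 2 ≤ d) (r : ℕ) (s : V) :
    ((d : ℝ) - 2) ^ r ≤ ∑ c, cnt (sc G τ) r s c := by
  have hd' : (0 : ℝ) ≤ (d : ℝ) - 2 := by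
    have : (2 : ℝ) ≤ (d : ℝ) := by exact_mod_cast hd
    linarith
  induction r generalizing s with
  | zero =>
    show _ ≤ ∑ c, (if s = c then (1 : ℝ) else 0)
    simp
  | succ r ih =>
    show _ ≤ ∑ c, ∑ s' ∈ sc G τ s, cnt (sc G τ) r s' c
    rw [Finset.sum_comm]
    have h1 : ((sc G τ s).card : ℝ) * ((d : ℝ) - 2) ^ r
        ≤ ∑ s' ∈ sc G τ s, ∑ c, cnt (sc G τ) r s' c := by
      rw [← nsmul_eq_mul, ← Finset.sum_const]
      exact Finset.sum_le_sum (fun s' _ => ih s')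
    have h2 : (d : ℝ) - 2 ≤ ((sc G τ s).card : ℝ) := by
      have := sc_card_ge G τ d hreg hinv hfix s
      have h3 : (d : ℝ) ≤ ((sc G τ s).card : ℝ) + 2 := by exact_mod_cast this
      linarith
    calc ((d : ℝ) - 2) ^ (r + 1) = ((d : ℝ) - 2) * ((d : ℝ) - 2) ^ r := by ring
      _ ≤ ((sc G τ s).card : ℝ) * ((d : ℝ) - 2) ^ r :=
          mul_le_mul_of_nonneg_right h2 (pow_nonneg hd' r)
      _ ≤ _ := h1

theorem step_eq (f : V → ℝ) (c' : V) :
    ∑ c, f c * (if c' ∈ sc G τ c then (1 : ℝ) else 0)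
      = if τ c' ≠ c' then ∑ c ∈ G.neighborFinset (τ c'), f c else 0 := by
  split_ifs with h
  · simp only [mul_ite, mul_one, mul_zero]
    rw [← Finset.sum_filter]
    apply Finset.sum_congr _ (fun _ _ => rfl)
    ext c
    simp [sc, h, SimpleGraph.adj_comm]
  · apply Finset.sum_eq_zero
    intro c _
    have : c' ∉ sc G τ c := by
      simp only [sc, mem_filter, mem_univ, true_and, not_and]
      intro h'
      exact absurd h' h
    simp [this]

theorem Ef_step (lam : ℝ) (hN : 0 < Fintype.card V) (hspec : Spec G d lam)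
    (hinv : ∀ x, τ (τ x) = x) (hfix : (univ.filter (fun x => τ x = x)).card ≤ 2) (f : V → ℝ) :
    Ef (fun c' => ∑ c, f c * (if c' ∈ sc G τ c then (1 : ℝ) else 0))
      ≤ lam ^ 2 * Ef f + 2 * ((d : ℝ) / (Fintype.card V : ℝ) * ∑ y, f y) ^ 2 := by
  set a : ℝ := (d : ℝ) / (Fintype.card V : ℝ) * ∑ y, f y with ha
  set Af : V → ℝ := fun x => ∑ y ∈ G.neighborFinset x, f y with hAf
  have h1 := Ef_le_sum_sq_sub hN (fun c' => ∑ c, f c * (if c' ∈ sc G τ c then (1 : ℝ) else 0)) a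
  have h2 : ∀ x, ((∑ c, f c * (if x ∈ sc G τ c then (1 : ℝ) else 0)) - a) ^ 2
      ≤ (Af (τ x) - a) ^ 2 + (if τ x = x then a ^ 2 else 0) := by
    intro x
    rw [step_eq]
    by_cases h : τ x = x
    · simp only [h, ne_eq, not_true_eq_false, if_false, if_true]
      have : (0 - a) ^ 2 = a ^ 2 := by ring
      rw [this]
      have := sq_nonneg (Af x - a)
      linarith
    · simp only [h, ne_eq, not_false_eq_true, if_true, if_false, add_zero]
      exact le_refl _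
  have h3 : ∑ x, (Af (τ x) - a) ^ 2 = ∑ x, (Af x - a) ^ 2 :=
    Equiv.sum_comp (Function.Involutive.toPerm τ hinv) (fun x => (Af x - a) ^ 2)
  have h4 : ∑ x, (if τ x = x then a ^ 2 else 0) ≤ 2 * a ^ 2 := by
    rw [Finset.sum_ite, Finset.sum_const, Finset.sum_const_zero, add_zero, nsmul_eq_mul]
    have : ((univ.filter (fun x => τ x = x)).card : ℝ) ≤ 2 := by exact_mod_cast hfix
    exact mul_le_mul_of_nonneg_right this (sq_nonneg a)
  have h5 : ∑ x, (Af x - a) ^ 2 ≤ lam ^ 2 * Ef f := hspec f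
  calc _ ≤ ∑ x, ((∑ c, f c * (if x ∈ sc G τ c then (1 : ℝ) else 0)) - a) ^ 2 := h1
    _ ≤ ∑ x, ((Af (τ x) - a) ^ 2 + (if τ x = x then a ^ 2 else 0)) :=
        Finset.sum_le_sum (fun x _ => h2 x)
    _ = ∑ x, (Af x - a) ^ 2 + ∑ x, (if τ x = x then a ^ 2 else 0) := by
        rw [Finset.sum_add_distrib, h3]
    _ ≤ lam ^ 2 * Ef f + 2 * a ^ 2 := add_le_add h5 h4

theorem Ef_cnt_le (lam : ℝ) (hN : 0 < Fintype.card V) (hspec : Spec G d lam)
    (hreg : ∀ v, G.degree v = d)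
    (hinv : ∀ x, τ (τ x) = x) (hfix : (univ.filter (fun x => τ x = x)).card ≤ 2)
    (hlam0 : 0 ≤ lam) (hlam : 8 * lam ≤ d) (r : ℕ) (s : V) :
    Ef (cnt (sc G τ) r s)
      ≤ lam ^ (2 * r) + 3 * (d : ℝ) ^ (2 * r) / (Fintype.card V : ℝ) ^ 2 := by
  have hN' : (0 : ℝ) < (Fintype.card V : ℝ) := by exact_mod_cast hN
  induction r with
  | zero =>
    have h1 := Ef_le_sum_sq_sub hN (cnt (sc G τ) 0 s) 0
    have h2 : ∑ x, (cnt (sc G τ) 0 s x - 0) ^ 2 = 1 := by
      show ∑ x, ((if s = x then (1 : ℝ) else 0) - 0) ^ 2 = 1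
      simp
    rw [h2] at h1
    have : 0 ≤ 3 * (d : ℝ) ^ (2 * 0) / (Fintype.card V : ℝ) ^ 2 := by positivity
    simp only [Nat.mul_zero, pow_zero] at this ⊢
    linarith
  | succ r ih =>
    have heq : cnt (sc G τ) (r + 1) s
        = fun c' => ∑ c, cnt (sc G τ) r s c * (if c' ∈ sc G τ c then (1 : ℝ) else 0) := by
      funext c'
      exact cnt_succ_last (sc G τ) r s c'
    rw [heq]
    have h1 := Ef_step G τ d lam hN hspec hinv hfix (cnt (sc G τ) r s)
    have hS0 := sum_cnt_nonneg G τ r s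
    have hS1 := sum_cnt_le_pow G τ d hreg hinv r s
    set S : ℝ := ∑ c, cnt (sc G τ) r s c with hS
    set D : ℝ := (d : ℝ) with hD
    set N : ℝ := (Fintype.card V : ℝ) with hNdef
    have hD0 : 0 ≤ D := by rw [hD]; positivity
    have hS2 : S ^ 2 ≤ D ^ (2 * r) := by
      rw [pow_mul']
      exact pow_le_pow_left₀ hS0 hS1 2
    have h3 : (D / N * S) ^ 2 ≤ D ^ 2 * D ^ (2 * r) / N ^ 2 := by
      have : (D / N * S) ^ 2 = D ^ 2 * S ^ 2 / N ^ 2 := by field_simp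
      rw [this]
      apply div_le_div_of_nonneg_right _ (by positivity)
      exact mul_le_mul_of_nonneg_left hS2 (by positivity)
    have h4 : 3 * lam ^ 2 ≤ D ^ 2 := by nlinarith
    have hX : 0 ≤ D ^ (2 * r) / N ^ 2 := by positivity
    have h5 : lam ^ 2 * Ef (cnt (sc G τ) r s)
        ≤ lam ^ 2 * (lam ^ (2 * r) + 3 * D ^ (2 * r) / N ^ 2) :=
      mul_le_mul_of_nonneg_left ih (sq_nonneg lam)
    have e1 : lam ^ (2 * (r + 1)) = lam ^ 2 * lam ^ (2 * r) := by ring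
    have e2 : 3 * D ^ (2 * (r + 1)) / N ^ 2 = 3 * D ^ 2 * (D ^ (2 * r) / N ^ 2) := by ring
    have e3 : lam ^ 2 * (lam ^ (2 * r) + 3 * D ^ (2 * r) / N ^ 2)
        = lam ^ 2 * lam ^ (2 * r) + 3 * lam ^ 2 * (D ^ (2 * r) / N ^ 2) := by ring
    have e4 : D ^ 2 * D ^ (2 * r) / N ^ 2 = D ^ 2 * (D ^ (2 * r) / N ^ 2) := by ring
    rw [e1, e2]
    rw [e3] at h5
    rw [e4] at h3
    nlinarith

theorem cnt_le_of_mix (lam : ℝ) (hN : 0 < Fintype.card V) (hspec : Spec G d lam)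
    (hreg : ∀ v, G.degree v = d)
    (hinv : ∀ x, τ (τ x) = x) (hfix : (univ.filter (fun x => τ x = x)).card ≤ 2)
    (hlam0 : 0 ≤ lam) (hlam : 8 * lam ≤ d) (m : ℕ)
    (hmix : (Fintype.card V : ℝ) * lam ^ m ≤ (d : ℝ) ^ m) (r : ℕ) (hr : m ≤ r) (s c : V) :
    Ef (cnt (sc G τ) r s) ≤ (2 * (d : ℝ) ^ r / (Fintype.card V : ℝ)) ^ 2 ∧
      cnt (sc G τ) r s c ≤ 3 * (d : ℝ) ^ r / (Fintype.card V : ℝ) := by
  have hN' : (0 : ℝ) < (Fintype.card V : ℝ) := by exact_mod_cast hN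
  have hE := Ef_cnt_le G τ d lam hN hspec hreg hinv hfix hlam0 hlam r s
  have hS1 := sum_cnt_le_pow G τ d hreg hinv r s
  set D : ℝ := (d : ℝ) with hD
  set N : ℝ := (Fintype.card V : ℝ) with hNdef
  have hD0 : 0 ≤ D := by rw [hD]; positivity
  have hlamD : lam ≤ D := by linarith
  have h1 : N * lam ^ r ≤ D ^ r := by
    obtain ⟨j, rfl⟩ : ∃ j, r = m + j := ⟨r - m, by omega⟩
    have hj : lam ^ j ≤ D ^ j := pow_le_pow_left₀ hlam0 hlamD j
    calc N * lam ^ (m + j) = (N * lam ^ m) * lam ^ j := by ring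
      _ ≤ D ^ m * D ^ j :=
          mul_le_mul hmix hj (pow_nonneg hlam0 j) (pow_nonneg hD0 m)
      _ = D ^ (m + j) := by ring
  have h2 : lam ^ r ≤ D ^ r / N := by
    rw [le_div_iff₀ hN']
    linarith
  have h3 : lam ^ (2 * r) ≤ (D ^ r / N) ^ 2 := by
    rw [pow_mul']
    exact pow_le_pow_left₀ (pow_nonneg hlam0 r) h2 2
  have h4 : Ef (cnt (sc G τ) r s) ≤ (2 * D ^ r / N) ^ 2 := by
    have e1 : (2 * D ^ r / N) ^ 2 = (D ^ r / N) ^ 2 + 3 * D ^ (2 * r) / N ^ 2 := by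
      rw [pow_mul']
      ring
    rw [e1]
    linarith
  refine ⟨h4, ?_⟩
  have h5 : (cnt (sc G τ) r s c - (∑ y, cnt (sc G τ) r s y) / N) ^ 2
      ≤ Ef (cnt (sc G τ) r s) :=
    Finset.single_le_sum (f := fun x => (cnt (sc G τ) r s x - (∑ y, cnt (sc G τ) r s y) / N) ^ 2)
      (fun x _ => sq_nonneg _) (mem_univ c)
  have h6 := abs_le_of_sq_le_sq' (le_trans h5 h4) (by positivity)
  have h7 : (∑ y, cnt (sc G τ) r s y) / N ≤ D ^ r / N :=
    div_le_div_of_nonneg_right hS1 hN'.le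
  have e2 : 3 * D ^ r / N = D ^ r / N + 2 * D ^ r / N := by ring
  rw [e2]
  linarith [h6.2]

omit [DecidableEq V] in
theorem sum_nbr (hreg : ∀ v, G.degree v = d) (g : V → ℝ) :
    ∑ a, ∑ b ∈ G.neighborFinset a, g b = (d : ℝ) * ∑ b, g b := by
  have h1 : ∑ a, ∑ b ∈ G.neighborFinset a, g b = ∑ b, ∑ a ∈ G.neighborFinset b, g b := by
    apply Finset.sum_comm'
    intro x y
    simp [SimpleGraph.adj_comm]
  rw [h1, Finset.mul_sum]
  apply Finset.sum_congr rfl
  intro b _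
  rw [Finset.sum_const, SimpleGraph.card_neighborFinset_eq_degree, hreg, nsmul_eq_mul]

theorem bilinear (lam : ℝ) (hN : 0 < Fintype.card V) (hspec : Spec G d lam)
    (hreg : ∀ v, G.degree v = d) (f g : V → ℝ) :
    (∑ a, f a * ∑ b ∈ G.neighborFinset a, g b
        - (d : ℝ) / (Fintype.card V : ℝ) * ((∑ a, f a) * ∑ b, g b)) ^ 2
      ≤ lam ^ 2 * (Ef f * Ef g) := by
  have hN' : (0 : ℝ) < (Fintype.card V : ℝ) := by exact_mod_cast hN
  set N : ℝ := (Fintype.card V : ℝ) with hNdef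
  set Sf : ℝ := ∑ a, f a with hSf
  set Sg : ℝ := ∑ b, g b with hSg
  set h : V → ℝ := fun a => ∑ b ∈ G.neighborFinset a, g b - (d : ℝ) / N * Sg with hh
  have hsum : ∑ a, h a = 0 := by
    simp only [hh]
    rw [Finset.sum_sub_distrib, sum_nbr G d hreg g, Finset.sum_const, card_univ, nsmul_eq_mul]
    field_simp
    ring
  have h1 : ∑ a, (f a - Sf / N) * h a
      = ∑ a, f a * ∑ b ∈ G.neighborFinset a, g b - (d : ℝ) / N * (Sf * Sg) := by
    have e : ∀ a, (f a - Sf / N) * h a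
        = f a * ∑ b ∈ G.neighborFinset a, g b - (d : ℝ) / N * Sg * f a - Sf / N * h a := by
      intro a
      simp only [hh]
      ring
    simp_rw [e]
    rw [Finset.sum_sub_distrib, Finset.sum_sub_distrib, ← Finset.mul_sum, ← Finset.mul_sum, hsum]
    ring
  have h2 := Finset.sum_mul_sq_le_sq_mul_sq univ (fun a => f a - Sf / N) h
  have h3 : ∑ a, h a ^ 2 ≤ lam ^ 2 * Ef g := hspec g
  rw [← h1]
  calc (∑ a, (f a - Sf / N) * h a) ^ 2 ≤ (∑ a, (f a - Sf / N) ^ 2) * ∑ a, h a ^ 2 := h2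
    _ ≤ Ef f * (lam ^ 2 * Ef g) := mul_le_mul_of_nonneg_left h3 (Ef_nonneg f)
    _ = lam ^ 2 * (Ef f * Ef g) := by ring

end Vale.Agent.Helper18.Exp
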