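import Mathlib
import Vale.Agent.Helper18.ExpSpectral

namespace Vale.Agent.Helper18.Exp

open Finset

variable {V : Type*} [DecidableEq V] [Fintype V]

/-- A walk is simple if no vertex on it equals an earlier vertex or the partner of an earlier
vertex. -/
def Simple (τ : V → V) (l : List V) : Prop := List.Pairwise (fun a b => b ≠ a ∧ b ≠ τ a) l

/-- The walk `l` avoids the set `F`. -/
def Avoid (F : Finset V) (l : List V) : Prop := ∀ z ∈ l, z ∉ F

/-- The vertices of `l` together with their partners. -/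
def Tr (τ : V → V) (l : List V) : Finset V := (l ++ l.map τ).toFinset

omit [Fintype V] [DecidableEq V] in
theorem avoid_cons (F : Finset V) (a : V) (l : List V) :
    Avoid F (a :: l) ↔ a ∉ F ∧ Avoid F l := by
  simp [Avoid]

omit [Fintype V] [DecidableEq V] in
theorem simple_cons (τ : V → V) (a : V) (l : List V) :
    Simple τ (a :: l) ↔ (∀ b ∈ l, b ≠ a ∧ b ≠ τ a) ∧ Simple τ l := by
  unfold Simple
  rw [List.pairwise_cons]

omit [Fintype V] in
theorem card_Tr_le (τ : V → V) (l : List V) : (Tr τ l).card ≤ 2 * l.length := by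
  unfold Tr
  refine le_trans (List.toFinset_card_le _) ?_
  simp
  omega

variable (G : SimpleGraph V) [DecidableRel G.Adj] (τ : V → V) (d : ℕ)

open Classical in
theorem gw_ge (hreg : ∀ v, G.degree v = d) (hinv : ∀ x, τ (τ x) = x)
    (hfix : (univ.filter (fun x => τ x = x)).card ≤ 2) (r : ℕ) :
    ∀ (s : V) (F : Finset V), 0 ≤ (d : ℝ) - 2 - F.card - 2 * r →
      ((d : ℝ) - 2 - F.card - 2 * r) ^ r
        ≤ ∑ l ∈ walks (sc G τ) r s, (if Simple τ l ∧ Avoid F l then (1 : ℝ) else 0) := by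
  induction r with
  | zero =>
    intro s F _
    simp [walks, Simple, Avoid]
  | succ r ih =>
    intro s F hQ
    rw [sum_walks_succ]
    push_cast at hQ ⊢
    set Q : ℝ := (d : ℝ) - 2 - F.card - 2 * ((r : ℝ) + 1) with hQdef
    have hstep : ∀ s' ∈ sc G τ s, (if s' ∈ F then 0 else Q ^ r)
        ≤ ∑ l ∈ walks (sc G τ) r s',
            (if Simple τ (s' :: l) ∧ Avoid F (s' :: l) then (1 : ℝ) else 0) := by
      intro s' hs'
      split_ifs with hF
      · exact Finset.sum_nonneg (fun l _ => by split_ifs <;> norm_num)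
      · have hcard : ((F ∪ {s', τ s'}).card : ℝ) ≤ F.card + 2 := by
          have h1 : (F ∪ {s', τ s'}).card ≤ F.card + 2 := by
            refine le_trans (Finset.card_union_le _ _) ?_
            have := Finset.card_le_two (a := s') (b := τ s')
            omega
          exact_mod_cast h1
        have hQ' : 0 ≤ (d : ℝ) - 2 - (F ∪ {s', τ s'}).card - 2 * r := by linarith
        have h1 := ih s' (F ∪ {s', τ s'}) hQ'
        have h2 : Q ^ r ≤ ((d : ℝ) - 2 - (F ∪ {s', τ s'}).card - 2 * r) ^ r :=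
          pow_le_pow_left₀ hQ (by linarith) r
        refine le_trans h2 (le_trans h1 ?_)
        apply Finset.sum_le_sum
        intro l _
        by_cases hl : Simple τ l ∧ Avoid (F ∪ {s', τ s'}) l
        · have hl' : Simple τ (s' :: l) ∧ Avoid F (s' :: l) := by
            obtain ⟨hs, ha⟩ := hl
            constructor
            · rw [simple_cons]
              refine ⟨?_, hs⟩
              intro b hb
              have := ha b hb
              simp only [mem_union, mem_insert, mem_singleton, not_or] at this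
              exact ⟨this.2.1, this.2.2⟩
            · rw [avoid_cons]
              refine ⟨hF, ?_⟩
              intro z hz
              have := ha z hz
              simp only [mem_union, not_or] at this
              exact this.1
          rw [if_pos hl, if_pos hl']
        · rw [if_neg hl]
          split_ifs <;> norm_num
    have hcard2 : Q ≤ ((sc G τ s \ F).card : ℝ) := by
      have h1 := sc_card_ge G τ d hreg hinv hfix s
      have h2 := Finset.card_le_card_sdiff_add_card (s := sc G τ s) (t := F)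
      have h3 : (d : ℝ) ≤ ((sc G τ s \ F).card : ℝ) + F.card + 2 := by
        exact_mod_cast (by omega : d ≤ (sc G τ s \ F).card + F.card + 2)
      have : (0 : ℝ) ≤ (r : ℝ) := by positivity
      linarith
    calc Q ^ (r + 1) = Q * Q ^ r := by ring
      _ ≤ ((sc G τ s \ F).card : ℝ) * Q ^ r :=
          mul_le_mul_of_nonneg_right hcard2 (pow_nonneg hQ r)
      _ = ∑ s' ∈ sc G τ s, (if s' ∈ F then 0 else Q ^ r) := by
          rw [Finset.sum_ite, Finset.sum_const_zero, zero_add, Finset.sum_const, nsmul_eq_mul]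
          congr 3
          ext x
          simp [mem_sdiff]
      _ ≤ _ := Finset.sum_le_sum hstep

open Classical in
theorem nonsimple_le (hreg : ∀ v, G.degree v = d) (hinv : ∀ x, τ (τ x) = x)
    (hfix : (univ.filter (fun x => τ x = x)).card ≤ 2) (k : ℕ) (hk : 2 * k + 2 ≤ d) (s : V) :
    ∑ l ∈ walks (sc G τ) k s, (if ¬ Simple τ l then (1 : ℝ) else 0)
      ≤ (d : ℝ) ^ k * ((k : ℝ) * (2 * k + 2)) / d := by
  have hk' : (2 : ℝ) * k + 2 ≤ (d : ℝ) := by exact_mod_cast hk
  have hd0 : (0 : ℝ) < (d : ℝ) := by linarith [(by positivity : (0 : ℝ) ≤ (k : ℝ))]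
  have h1 := gw_ge G τ d hreg hinv hfix k s ∅ (by simp; linarith)
  have h2 : ∑ l ∈ walks (sc G τ) k s, (if ¬ Simple τ l then (1 : ℝ) else 0)
      = ((walks (sc G τ) k s).card : ℝ)
        - ∑ l ∈ walks (sc G τ) k s, (if Simple τ l ∧ Avoid ∅ l then (1 : ℝ) else 0) := by
    rw [eq_sub_iff_add_eq, ← Finset.sum_add_distrib, ← nsmul_one, ← Finset.sum_const]
    apply Finset.sum_congr rfl
    intro l _
    have : Avoid (∅ : Finset V) l := by intro z _; simp
    by_cases h : Simple τ l <;> simp [h, this]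
  have h3 : ((walks (sc G τ) k s).card : ℝ) ≤ (d : ℝ) ^ k := by
    exact_mod_cast card_walks_le (sc G τ) d (sc_card_le G τ d hreg hinv) k s
  have h4 : (d : ℝ) ^ k - (d : ℝ) ^ k * ((k : ℝ) * (2 * k + 2)) / d
      ≤ ((d : ℝ) - 2 - (∅ : Finset V).card - 2 * k) ^ k := by
    have hb := one_add_mul_le_pow (a := -((2 * (k : ℝ) + 2) / d)) (by
      have : (2 * (k : ℝ) + 2) / d ≤ 1 := by rw [div_le_one hd0]; exact hk'
      linarith) k
    have e1 : ((d : ℝ) - 2 - (∅ : Finset V).card - 2 * k)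
        = (d : ℝ) * (1 + -((2 * (k : ℝ) + 2) / d)) := by
      rw [Finset.card_empty]
      push_cast
      field_simp
      ring
    rw [e1, mul_pow]
    have e2 : (d : ℝ) ^ k - (d : ℝ) ^ k * ((k : ℝ) * (2 * k + 2)) / d
        = (d : ℝ) ^ k * (1 + (k : ℝ) * -((2 * (k : ℝ) + 2) / d)) := by
      field_simp
      ring
    rw [e2]
    exact mul_le_mul_of_nonneg_left hb (by positivity)
  rw [h2]
  linarith

/-- The number of walks of length `r` from `s` that end at a neighbour of `a`. -/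
theorem adjcount_le (N3 : ℝ) (m : ℕ) (hreg : ∀ v, G.degree v = d)
    (hcnt : ∀ r, m ≤ r → ∀ s c, cnt (sc G τ) r s c ≤ N3 * (d : ℝ) ^ r)
    (r : ℕ) (hr : m ≤ r) (s a : V) :
    ∑ l ∈ walks (sc G τ) r s, (if G.Adj a (wend s l) then (1 : ℝ) else 0)
      ≤ N3 * (d : ℝ) ^ (r + 1) := by
  rw [sum_wend (sc G τ) r s (fun c => if G.Adj a c then (1 : ℝ) else 0)]
  simp only [mul_ite, mul_one, mul_zero]
  rw [← Finset.sum_filter]
  have h1 : (univ.filter (fun c => G.Adj a c)).card = d := by
    rw [← hreg a, ← SimpleGraph.card_neighborFinset_eq_degree]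
    congr 1
    ext c
    simp
  calc _ ≤ ∑ _c ∈ univ.filter (fun c => G.Adj a c), N3 * (d : ℝ) ^ r :=
        Finset.sum_le_sum (fun c _ => hcnt r hr s c)
    _ = N3 * (d : ℝ) ^ (r + 1) := by
        rw [Finset.sum_const, h1, nsmul_eq_mul]
        ring

open Classical in
/-- The number of walks of length `r` from `s` that touch `F` and end at a neighbour of `a`. -/
noncomputable def tch (F : Finset V) (a : V) (r : ℕ) (s : V) : ℝ :=
  ∑ l ∈ walks (sc G τ) r s, (if ¬ Avoid F l ∧ G.Adj a (wend s l) then (1 : ℝ) else 0)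

open Classical in
/-- The number of walks of length `r` from `s` that touch `F`. -/
noncomputable def uch (F : Finset V) (r : ℕ) (s : V) : ℝ :=
  ∑ l ∈ walks (sc G τ) r s, (if ¬ Avoid F l then (1 : ℝ) else 0)

theorem tch_nonneg (F : Finset V) (a : V) (r : ℕ) (s : V) : 0 ≤ tch G τ F a r s := by
  unfold tch
  exact Finset.sum_nonneg (fun l _ => by split_ifs <;> norm_num)

theorem uch_nonneg (F : Finset V) (r : ℕ) (s : V) : 0 ≤ uch G τ F r s := by
  unfold uch
  exact Finset.sum_nonneg (fun l _ => by split_ifs <;> norm_num)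

theorem tch_le_uch (F : Finset V) (a : V) (r : ℕ) (s : V) : tch G τ F a r s ≤ uch G τ F r s := by
  unfold tch uch
  apply Finset.sum_le_sum
  intro l _
  by_cases h1 : Avoid F l <;> by_cases h2 : G.Adj a (wend s l) <;> simp [h1, h2]

theorem uch_sum_le (hreg : ∀ v, G.degree v = d) (hinv : ∀ x, τ (τ x) = x) (F : Finset V)
    (r : ℕ) : ∑ c, uch G τ F r c ≤ (r : ℝ) * F.card * (d : ℝ) ^ r := by
  classical
  induction r with
  | zero =>
    have : ∀ c, uch G τ F 0 c = 0 := by
      intro c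
      unfold uch
      simp [walks, Avoid]
    simp [this]
  | succ r ih =>
    set g : V → ℝ := fun s' => (if s' ∈ F then (d : ℝ) ^ r else 0) + uch G τ F r s' with hg
    have hg0 : ∀ s', 0 ≤ g s' := by
      intro s'
      have := uch_nonneg G τ F r s'
      simp only [hg]
      split_ifs
      · positivity
      · linarith
    have h1 : ∀ c, uch G τ F (r + 1) c ≤ ∑ s' ∈ sc G τ c, g s' := by
      intro c
      unfold uch
      rw [sum_walks_succ]
      apply Finset.sum_le_sum
      intro s' _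
      have hw : ((walks (sc G τ) r s').card : ℝ) ≤ (d : ℝ) ^ r := by
        exact_mod_cast card_walks_le (sc G τ) d (sc_card_le G τ d hreg hinv) r s'
      have h2 : ∀ l ∈ walks (sc G τ) r s', (if ¬ Avoid F (s' :: l) then (1 : ℝ) else 0)
          ≤ (if s' ∈ F then (1 : ℝ) else 0) + (if ¬ Avoid F l then (1 : ℝ) else 0) := by
        intro l _
        rw [avoid_cons]
        by_cases h1 : s' ∈ F <;> by_cases h2 : Avoid F l <;> simp [h1, h2]
      refine le_trans (Finset.sum_le_sum h2) ?_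
      rw [Finset.sum_add_distrib, Finset.sum_const, nsmul_eq_mul]
      simp only [hg]
      have : ((walks (sc G τ) r s').card : ℝ) * (if s' ∈ F then (1 : ℝ) else 0)
          ≤ (if s' ∈ F then (d : ℝ) ^ r else 0) := by
        split_ifs
        · simpa using hw
        · simp
      unfold uch at this ⊢
      linarith
    have h3 : ∑ c, ∑ s' ∈ sc G τ c, g s' = ∑ s', ∑ _c ∈ univ.filter (fun c => s' ∈ sc G τ c), g s' := by
      apply Finset.sum_comm'
      intro x y
      simp
    have h4 : ∀ s', ∑ _c ∈ univ.filter (fun c => s' ∈ sc G τ c), g s' ≤ (d : ℝ) * g s' := by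
      intro s'
      rw [Finset.sum_const, nsmul_eq_mul]
      have : ((univ.filter (fun c => s' ∈ sc G τ c)).card : ℝ) ≤ (d : ℝ) := by
        exact_mod_cast sc_indeg G τ d hreg s'
      exact mul_le_mul_of_nonneg_right this (hg0 s')
    have h5 : ∑ s', g s' = (F.card : ℝ) * (d : ℝ) ^ r + ∑ s', uch G τ F r s' := by
      simp only [hg]
      rw [Finset.sum_add_distrib]
      congr 1
      rw [← Finset.sum_filter, Finset.sum_const, nsmul_eq_mul]
      congr 3
      ext x
      simp
    calc ∑ c, uch G τ F (r + 1) c ≤ ∑ c, ∑ s' ∈ sc G τ c, g s' :=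
          Finset.sum_le_sum (fun c _ => h1 c)
      _ = ∑ s', ∑ _c ∈ univ.filter (fun c => s' ∈ sc G τ c), g s' := h3
      _ ≤ ∑ s', (d : ℝ) * g s' := Finset.sum_le_sum (fun s' _ => h4 s')
      _ = (d : ℝ) * ((F.card : ℝ) * (d : ℝ) ^ r + ∑ s', uch G τ F r s') := by
          rw [← Finset.mul_sum, h5]
      _ ≤ (d : ℝ) * ((F.card : ℝ) * (d : ℝ) ^ r + (r : ℝ) * F.card * (d : ℝ) ^ r) :=
          mul_le_mul_of_nonneg_left (by linarith) (by positivity)
      _ = ((r + 1 : ℕ) : ℝ) * F.card * (d : ℝ) ^ (r + 1) := by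
          push_cast
          ring

theorem tch_step (N3 : ℝ) (hN3 : 0 ≤ N3) (m : ℕ) (hreg : ∀ v, G.degree v = d)
    (hcnt : ∀ r, m ≤ r → ∀ s c, cnt (sc G τ) r s c ≤ N3 * (d : ℝ) ^ r)
    (F : Finset V) (a : V) (r : ℕ) (hr : m ≤ r) (s : V) :
    tch G τ F a (r + 1) s
      ≤ (F.card : ℝ) * (N3 * (d : ℝ) ^ (r + 1)) + ∑ s' ∈ sc G τ s, tch G τ F a r s' := by
  classical
  set K : ℝ := N3 * (d : ℝ) ^ (r + 1) with hK
  have hK0 : 0 ≤ K := by rw [hK]; positivity
  have h1 : tch G τ F a (r + 1) s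
      ≤ ∑ s' ∈ sc G τ s, ((if s' ∈ F then K else 0) + tch G τ F a r s') := by
    unfold tch
    rw [sum_walks_succ]
    apply Finset.sum_le_sum
    intro s' _
    have h2 : ∀ l ∈ walks (sc G τ) r s',
        (if ¬ Avoid F (s' :: l) ∧ G.Adj a (wend s (s' :: l)) then (1 : ℝ) else 0)
          ≤ (if s' ∈ F then (if G.Adj a (wend s' l) then (1 : ℝ) else 0) else 0)
            + (if ¬ Avoid F l ∧ G.Adj a (wend s' l) then (1 : ℝ) else 0) := by
      intro l _
      rw [avoid_cons, wend_cons]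
      by_cases h1 : s' ∈ F <;> by_cases h2 : Avoid F l <;> by_cases h3 : G.Adj a (wend s' l) <;>
        simp [h1, h2, h3]
    refine le_trans (Finset.sum_le_sum h2) ?_
    rw [Finset.sum_add_distrib]
    have h3 : ∑ l ∈ walks (sc G τ) r s',
        (if s' ∈ F then (if G.Adj a (wend s' l) then (1 : ℝ) else 0) else 0)
          ≤ (if s' ∈ F then K else 0) := by
      split_ifs
      · exact adjcount_le G τ d N3 m hreg hcnt r hr s' a
      · simp
    linarith
  refine le_trans h1 ?_
  rw [Finset.sum_add_distrib]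
  have h4 : ∑ s' ∈ sc G τ s, (if s' ∈ F then K else 0) ≤ (F.card : ℝ) * K := by
    rw [← Finset.sum_filter, Finset.sum_const, nsmul_eq_mul]
    apply mul_le_mul_of_nonneg_right _ hK0
    have : ((sc G τ s).filter (fun s' => s' ∈ F)).card ≤ F.card := by
      apply Finset.card_le_card
      intro x hx
      exact (mem_filter.mp hx).2
    exact_mod_cast this
  linarith

theorem tch_unroll (N3 : ℝ) (hN3 : 0 ≤ N3) (m : ℕ) (hreg : ∀ v, G.degree v = d)
    (hinv : ∀ x, τ (τ x) = x)
    (hcnt : ∀ r, m ≤ r → ∀ s c, cnt (sc G τ) r s c ≤ N3 * (d : ℝ) ^ r)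
    (F : Finset V) (a : V) (j : ℕ) :
    ∀ s, tch G τ F a (m + j) s
      ≤ (j : ℝ) * ((F.card : ℝ) * (N3 * (d : ℝ) ^ (m + j)))
        + ∑ c, cnt (sc G τ) j s c * tch G τ F a m c := by
  induction j with
  | zero =>
    intro s
    have : ∑ c, cnt (sc G τ) 0 s c * tch G τ F a m c = tch G τ F a m s := by
      show ∑ c, (if s = c then (1 : ℝ) else 0) * tch G τ F a m c = _
      simp
    rw [this]
    simp
  | succ j ih =>
    intro s
    have h1 := tch_step G τ d N3 hN3 m hreg hcnt F a (m + j) (by omega) s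
    have h2 : ∑ s' ∈ sc G τ s, tch G τ F a (m + j) s'
        ≤ ∑ s' ∈ sc G τ s, ((j : ℝ) * ((F.card : ℝ) * (N3 * (d : ℝ) ^ (m + j)))
          + ∑ c, cnt (sc G τ) j s' c * tch G τ F a m c) :=
      Finset.sum_le_sum (fun s' _ => ih s')
    have h3 : ∑ s' ∈ sc G τ s, ∑ c, cnt (sc G τ) j s' c * tch G τ F a m c
        = ∑ c, cnt (sc G τ) (j + 1) s c * tch G τ F a m c := by
      rw [Finset.sum_comm]
      apply Finset.sum_congr rfl
      intro c _
      show _ = (∑ s' ∈ sc G τ s, cnt (sc G τ) j s' c) * _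
      rw [Finset.sum_mul]
    have h4 : ((sc G τ s).card : ℝ) ≤ (d : ℝ) := by
      exact_mod_cast sc_card_le G τ d hreg hinv s
    have h5 : 0 ≤ (j : ℝ) * ((F.card : ℝ) * (N3 * (d : ℝ) ^ (m + j))) := by positivity
    rw [Finset.sum_add_distrib, Finset.sum_const, nsmul_eq_mul, h3] at h2
    have h6 : ((sc G τ s).card : ℝ) * ((j : ℝ) * ((F.card : ℝ) * (N3 * (d : ℝ) ^ (m + j))))
        ≤ (d : ℝ) * ((j : ℝ) * ((F.card : ℝ) * (N3 * (d : ℝ) ^ (m + j)))) :=
      mul_le_mul_of_nonneg_right h4 h5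
    have e : ((j + 1 : ℕ) : ℝ) * ((F.card : ℝ) * (N3 * (d : ℝ) ^ (m + (j + 1))))
        = (F.card : ℝ) * (N3 * (d : ℝ) ^ (m + j + 1))
          + (d : ℝ) * ((j : ℝ) * ((F.card : ℝ) * (N3 * (d : ℝ) ^ (m + j)))) := by
      push_cast
      ring
    have e2 : m + (j + 1) = m + j + 1 := by ring
    rw [e, e2]
    linarith

theorem tch_final (N3 : ℝ) (hN3 : 0 ≤ N3) (m : ℕ) (hreg : ∀ v, G.degree v = d)
    (hinv : ∀ x, τ (τ x) = x)
    (hcnt : ∀ r, m ≤ r → ∀ s c, cnt (sc G τ) r s c ≤ N3 * (d : ℝ) ^ r)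
    (F : Finset V) (a : V) (s : V) :
    tch G τ F a (2 * m) s ≤ 2 * ((m : ℝ) * F.card * N3 * (d : ℝ) ^ (2 * m)) := by
  have h1 := tch_unroll G τ d N3 hN3 m hreg hinv hcnt F a m s
  have h2 : ∑ c, cnt (sc G τ) m s c * tch G τ F a m c
      ≤ ∑ c, (N3 * (d : ℝ) ^ m) * uch G τ F m c := by
    apply Finset.sum_le_sum
    intro c _
    exact mul_le_mul (hcnt m (le_refl _) s c) (tch_le_uch G τ F a m c) (tch_nonneg G τ F a m c)
      (by positivity)
  have h3 := uch_sum_le G τ d hreg hinv F m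
  rw [← Finset.mul_sum] at h2
  have h4 : (N3 * (d : ℝ) ^ m) * ∑ c, uch G τ F m c
      ≤ (N3 * (d : ℝ) ^ m) * ((m : ℝ) * F.card * (d : ℝ) ^ m) :=
    mul_le_mul_of_nonneg_left h3 (by positivity)
  have e1 : 2 * m = m + m := by ring
  rw [e1]
  have e2 : (d : ℝ) ^ (m + m) = (d : ℝ) ^ m * (d : ℝ) ^ m := by ring
  rw [e2] at h1 ⊢
  nlinarith

end Vale.Agent.Helper18.Exp
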