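import Mathlib
import Vale.Agent.Helper18.ExpCount

namespace Vale.Agent.Helper18.Exp

open Finset

variable {V : Type*} [DecidableEq V] [Fintype V]

variable (G : SimpleGraph V) [DecidableRel G.Adj] (τ : V → V) (d : ℕ)

/-- A good pair of walks: `x` from `s1` and `y` from `s2` whose last vertices are adjacent, both
simple, with `y` avoiding the vertices of `x` and their partners. -/
def Good (s1 s2 : V) (x y : List V) : Prop :=
  G.Adj (wend s1 x) (wend s2 y) ∧ Simple τ x ∧ Simple τ y ∧ Avoid (Tr τ x) y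

/-- The standing hypotheses of the counting argument. -/
structure Hyp (lam : ℝ) (m : ℕ) : Prop where
  hN2 : 2 ≤ Fintype.card V
  hspec : Spec G d lam
  hreg : ∀ v, G.degree v = d
  hinv : ∀ x, τ (τ x) = x
  hfix : (univ.filter (fun x => τ x = x)).card ≤ 2
  hlam0 : 0 ≤ lam
  hlam : 8 * lam ≤ d
  hm : 1 ≤ m
  hmix : (Fintype.card V : ℝ) * lam ^ m ≤ (d : ℝ) ^ m
  hd : 500 * m ^ 2 ≤ d

variable {G τ d}

theorem Hyp.hcnt {lam : ℝ} {m : ℕ} (h : Hyp G τ d lam m) :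
    ∀ r, m ≤ r → ∀ s c, cnt (sc G τ) r s c ≤ 3 / (Fintype.card V : ℝ) * (d : ℝ) ^ r := by
  intro r hr s c
  have hN : 0 < Fintype.card V := by have := h.hN2; omega
  have h1 := (cnt_le_of_mix G τ d lam hN h.hspec h.hreg h.hinv h.hfix h.hlam0 h.hlam m
    h.hmix r hr s c).2
  calc _ ≤ 3 * (d : ℝ) ^ r / (Fintype.card V : ℝ) := h1
    _ = 3 / (Fintype.card V : ℝ) * (d : ℝ) ^ r := by ring

theorem Hyp.hEf {lam : ℝ} {m : ℕ} (h : Hyp G τ d lam m) (k : ℕ) (hk : m ≤ k) (s : V) :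
    Ef (cnt (sc G τ) k s) ≤ (2 * (d : ℝ) ^ k / (Fintype.card V : ℝ)) ^ 2 := by
  have hN : 0 < Fintype.card V := by have := h.hN2; omega
  exact (cnt_le_of_mix G τ d lam hN h.hspec h.hreg h.hinv h.hfix h.hlam0 h.hlam m
    h.hmix k hk s s).1

omit [Fintype V] in
open Classical in
theorem good_pt (s1 s2 : V) (x y : List V) :
    (if G.Adj (wend s1 x) (wend s2 y) then (1 : ℝ) else 0)
      - (if ¬ Simple τ x then (if G.Adj (wend s1 x) (wend s2 y) then (1 : ℝ) else 0) else 0)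
      - (if ¬ Simple τ y then (if G.Adj (wend s1 x) (wend s2 y) then (1 : ℝ) else 0) else 0)
      - (if ¬ Avoid (Tr τ x) y ∧ G.Adj (wend s1 x) (wend s2 y) then (1 : ℝ) else 0)
      ≤ (if Good G τ s1 s2 x y then (1 : ℝ) else 0) := by
  by_cases h1 : G.Adj (wend s1 x) (wend s2 y) <;> by_cases h2 : Simple τ x <;>
    by_cases h3 : Simple τ y <;> by_cases h4 : Avoid (Tr τ x) y <;>
    simp [Good, h1, h2, h3, h4]

open Classical in
theorem good_sum (k : ℕ) (s1 s2 : V) :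
    (∑ x ∈ walks (sc G τ) k s1, ∑ y ∈ walks (sc G τ) k s2,
        (if G.Adj (wend s1 x) (wend s2 y) then (1 : ℝ) else 0))
      - (∑ x ∈ walks (sc G τ) k s1, ∑ y ∈ walks (sc G τ) k s2,
        (if ¬ Simple τ x then (if G.Adj (wend s1 x) (wend s2 y) then (1 : ℝ) else 0) else 0))
      - (∑ x ∈ walks (sc G τ) k s1, ∑ y ∈ walks (sc G τ) k s2,
        (if ¬ Simple τ y then (if G.Adj (wend s1 x) (wend s2 y) then (1 : ℝ) else 0) else 0))
      - (∑ x ∈ walks (sc G τ) k s1, ∑ y ∈ walks (sc G τ) k s2,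
        (if ¬ Avoid (Tr τ x) y ∧ G.Adj (wend s1 x) (wend s2 y) then (1 : ℝ) else 0))
      ≤ ∑ x ∈ walks (sc G τ) k s1, ∑ y ∈ walks (sc G τ) k s2,
          (if Good G τ s1 s2 x y then (1 : ℝ) else 0) := by
  rw [← Finset.sum_sub_distrib, ← Finset.sum_sub_distrib, ← Finset.sum_sub_distrib]
  apply Finset.sum_le_sum
  intro x _
  rw [← Finset.sum_sub_distrib, ← Finset.sum_sub_distrib, ← Finset.sum_sub_distrib]
  apply Finset.sum_le_sum
  intro y _
  exact good_pt s1 s2 x y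

theorem T1_eq (k : ℕ) (s1 s2 : V) :
    ∑ x ∈ walks (sc G τ) k s1, ∑ y ∈ walks (sc G τ) k s2,
        (if G.Adj (wend s1 x) (wend s2 y) then (1 : ℝ) else 0)
      = ∑ a, cnt (sc G τ) k s1 a * ∑ b ∈ G.neighborFinset a, cnt (sc G τ) k s2 b := by
  have h1 : ∀ x ∈ walks (sc G τ) k s1, ∑ y ∈ walks (sc G τ) k s2,
      (if G.Adj (wend s1 x) (wend s2 y) then (1 : ℝ) else 0)
        = ∑ b ∈ G.neighborFinset (wend s1 x), cnt (sc G τ) k s2 b := by
    intro x _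
    rw [sum_wend (sc G τ) k s2 (fun b => if G.Adj (wend s1 x) b then (1 : ℝ) else 0)]
    simp only [mul_ite, mul_one, mul_zero]
    rw [← Finset.sum_filter]
    apply Finset.sum_congr _ (fun _ _ => rfl)
    ext b
    simp
  rw [Finset.sum_congr rfl h1]
  exact sum_wend (sc G τ) k s1 (fun a => ∑ b ∈ G.neighborFinset a, cnt (sc G τ) k s2 b)

theorem S_ge {lam : ℝ} {m : ℕ} (h : Hyp G τ d lam m) (k : ℕ) (hk : k = 2 * m) (s : V) :
    (d : ℝ) ^ k - 2 * (k : ℝ) * (d : ℝ) ^ k / d ≤ ∑ c, cnt (sc G τ) k s c := by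
  have hdR : 500 * (m : ℝ) ^ 2 ≤ (d : ℝ) := by exact_mod_cast h.hd
  have hmR : (1 : ℝ) ≤ (m : ℝ) := by exact_mod_cast h.hm
  have hd2 : 2 ≤ d := by have := h.hd; have := h.hm; nlinarith
  have hD0 : (0 : ℝ) < (d : ℝ) := by nlinarith
  have h1 := sum_cnt_ge_pow G τ d h.hreg h.hinv h.hfix hd2 k s
  have hb := one_add_mul_le_pow (a := -(2 / (d : ℝ))) (by
    have : 2 / (d : ℝ) ≤ 1 := by rw [div_le_one hD0]; nlinarith
    linarith) k
  have e1 : (d : ℝ) - 2 = (d : ℝ) * (1 + -(2 / (d : ℝ))) := by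
    field_simp
    ring
  have e2 : (d : ℝ) ^ k - 2 * (k : ℝ) * (d : ℝ) ^ k / d
      = (d : ℝ) ^ k * (1 + (k : ℝ) * -(2 / (d : ℝ))) := by
    field_simp
    ring
  rw [e2]
  refine le_trans ?_ h1
  rw [e1, mul_pow]
  exact mul_le_mul_of_nonneg_left hb (by positivity)

theorem B_ge {lam : ℝ} {m : ℕ} (h : Hyp G τ d lam m) (k : ℕ) (hk : k = 2 * m) (s1 s2 : V) :
    (d : ℝ) * (((d : ℝ) ^ k) ^ 2 / (Fintype.card V : ℝ))
        - 4 * (k : ℝ) * (((d : ℝ) ^ k) ^ 2 / (Fintype.card V : ℝ))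
        - (d : ℝ) * (((d : ℝ) ^ k) ^ 2 / (Fintype.card V : ℝ)) / 4
      ≤ ∑ a, cnt (sc G τ) k s1 a * ∑ b ∈ G.neighborFinset a, cnt (sc G τ) k s2 b := by
  have hN : 0 < Fintype.card V := by have := h.hN2; omega
  have hN2' : (2 : ℝ) ≤ (Fintype.card V : ℝ) := by exact_mod_cast h.hN2
  have hmR : (1 : ℝ) ≤ (m : ℝ) := by exact_mod_cast h.hm
  have hdR : 500 * (m : ℝ) ^ 2 ≤ (d : ℝ) := by exact_mod_cast h.hd
  have hkR : (k : ℝ) = 2 * (m : ℝ) := by rw [hk]; push_cast; ring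
  have hmk : m ≤ k := by omega
  have hlam := h.hlam
  have hbil := bilinear G d lam hN h.hspec h.hreg (cnt (sc G τ) k s1) (cnt (sc G τ) k s2)
  have hEf1 := h.hEf k hmk s1
  have hEf2 := h.hEf k hmk s2
  have hS1 := S_ge h k hk s1
  have hS2 := S_ge h k hk s2
  generalize (Fintype.card V : ℝ) = N at *
  generalize (d : ℝ) = D at *
  have hN0 : 0 < N := by linarith
  have hD0 : 0 < D := by nlinarith
  have hP0 : 0 ≤ D ^ k := pow_nonneg hD0.le k
  generalize D ^ k = P at *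
  generalize (∑ c, cnt (sc G τ) k s1 c) = S1 at *
  generalize (∑ c, cnt (sc G τ) k s2 c) = S2 at *
  generalize (∑ a, cnt (sc G τ) k s1 a * ∑ b ∈ G.neighborFinset a, cnt (sc G τ) k s2 b) = B at *
  set q : ℝ := P ^ 2 / N with hq
  have hq0 : 0 ≤ q := by positivity
  have hθ : 0 ≤ P - 2 * (k : ℝ) * P / D := by
    have : 2 * (k : ℝ) * P / D ≤ P := by
      rw [div_le_iff₀ hD0]
      have : 2 * (k : ℝ) ≤ D := by rw [hkR]; nlinarith
      nlinarith
    linarith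
  have hSS : (P - 2 * (k : ℝ) * P / D) ^ 2 ≤ S1 * S2 := by
    rw [sq]
    exact mul_le_mul hS1 hS2 hθ (le_trans hθ hS1)
  have hB1 : (B - D / N * (S1 * S2)) ^ 2 ≤ (lam * (2 * P / N) ^ 2) ^ 2 := by
    calc _ ≤ lam ^ 2 * (Ef (cnt (sc G τ) k s1) * Ef (cnt (sc G τ) k s2)) := hbil
      _ ≤ lam ^ 2 * ((2 * P / N) ^ 2 * (2 * P / N) ^ 2) :=
          mul_le_mul_of_nonneg_left
            (mul_le_mul hEf1 hEf2 (Ef_nonneg _) (sq_nonneg _)) (sq_nonneg lam)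
      _ = _ := by ring
  have hB2 := (abs_le_of_sq_le_sq' hB1 (mul_nonneg h.hlam0 (sq_nonneg _))).1
  have hB3 : D * q - 4 * (k : ℝ) * q ≤ D / N * (S1 * S2) := by
    have h1 : D / N * (P - 2 * (k : ℝ) * P / D) ^ 2 ≤ D / N * (S1 * S2) :=
      mul_le_mul_of_nonneg_left hSS (by positivity)
    refine le_trans ?_ h1
    have e : D / N * (P - 2 * (k : ℝ) * P / D) ^ 2
        = D * q - 4 * (k : ℝ) * q + 4 * (k : ℝ) ^ 2 * q / D := by
      rw [hq]
      field_simp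
      ring
    rw [e]
    have : 0 ≤ 4 * (k : ℝ) ^ 2 * q / D := by positivity
    linarith
  have hB4 : lam * (2 * P / N) ^ 2 ≤ D * q / 4 := by
    have e : lam * (2 * P / N) ^ 2 = (4 * lam) * q / N := by
      rw [hq]
      field_simp
      ring
    rw [e, div_le_iff₀ hN0]
    have h1 : 4 * lam * q ≤ D / 2 * q := mul_le_mul_of_nonneg_right (by linarith) hq0
    have h2 : D / 2 * q ≤ D * q / 4 * N := by
      have : D * q / 4 * 2 ≤ D * q / 4 * N :=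
        mul_le_mul_of_nonneg_left hN2' (by positivity)
      linarith
    linarith
  linarith

open Classical in
theorem T2_le {lam : ℝ} {m : ℕ} (h : Hyp G τ d lam m) (k : ℕ) (hk : k = 2 * m) (s1 s2 : V) :
    ∑ x ∈ walks (sc G τ) k s1, ∑ y ∈ walks (sc G τ) k s2,
        (if ¬ Simple τ x then (if G.Adj (wend s1 x) (wend s2 y) then (1 : ℝ) else 0) else 0)
      ≤ 3 * ((k : ℝ) * (2 * k + 2)) * (((d : ℝ) ^ k) ^ 2 / (Fintype.card V : ℝ)) := by
  have hN2' : (2 : ℝ) ≤ (Fintype.card V : ℝ) := by exact_mod_cast h.hN2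
  have hmR : (1 : ℝ) ≤ (m : ℝ) := by exact_mod_cast h.hm
  have hdR : 500 * (m : ℝ) ^ 2 ≤ (d : ℝ) := by exact_mod_cast h.hd
  have hmk : m ≤ k := by omega
  have hdk : 2 * k + 2 ≤ d := by have := h.hd; have := h.hm; nlinarith
  have hN0 : (0 : ℝ) < (Fintype.card V : ℝ) := by linarith
  have hD0 : (0 : ℝ) < (d : ℝ) := by nlinarith
  have h1 : ∀ x ∈ walks (sc G τ) k s1, ∑ y ∈ walks (sc G τ) k s2,
      (if ¬ Simple τ x then (if G.Adj (wend s1 x) (wend s2 y) then (1 : ℝ) else 0) else 0)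
        ≤ (if ¬ Simple τ x then (1 : ℝ) else 0)
          * (3 / (Fintype.card V : ℝ) * (d : ℝ) ^ (k + 1)) := by
    intro x _
    have ha := adjcount_le G τ d (3 / (Fintype.card V : ℝ)) m h.hreg h.hcnt k hmk s2 (wend s1 x)
    split_ifs with hx
    · simp
    · simpa using ha
  refine le_trans (Finset.sum_le_sum h1) ?_
  rw [← Finset.sum_mul]
  have h2 := nonsimple_le G τ d h.hreg h.hinv h.hfix k hdk s1
  have h3 : (∑ x ∈ walks (sc G τ) k s1, (if ¬ Simple τ x then (1 : ℝ) else 0))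
      * (3 / (Fintype.card V : ℝ) * (d : ℝ) ^ (k + 1))
      ≤ ((d : ℝ) ^ k * ((k : ℝ) * (2 * k + 2)) / d)
        * (3 / (Fintype.card V : ℝ) * (d : ℝ) ^ (k + 1)) :=
    mul_le_mul_of_nonneg_right h2 (by positivity)
  refine le_trans h3 (le_of_eq ?_)
  rw [pow_succ]
  field_simp

open Classical in
theorem T3_le {lam : ℝ} {m : ℕ} (h : Hyp G τ d lam m) (k : ℕ) (hk : k = 2 * m) (s1 s2 : V) :
    ∑ x ∈ walks (sc G τ) k s1, ∑ y ∈ walks (sc G τ) k s2,
        (if ¬ Simple τ y then (if G.Adj (wend s1 x) (wend s2 y) then (1 : ℝ) else 0) else 0)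
      ≤ 3 * ((k : ℝ) * (2 * k + 2)) * (((d : ℝ) ^ k) ^ 2 / (Fintype.card V : ℝ)) := by
  rw [Finset.sum_comm]
  refine le_trans (le_of_eq ?_) (T2_le h k hk s2 s1)
  apply Finset.sum_congr rfl
  intro y _
  apply Finset.sum_congr rfl
  intro x _
  have hc : (if G.Adj (wend s1 x) (wend s2 y) then (1 : ℝ) else 0)
      = (if G.Adj (wend s2 y) (wend s1 x) then (1 : ℝ) else 0) :=
    if_congr (G.adj_comm _ _) rfl rfl
  rw [hc]

open Classical in
theorem T4_le {lam : ℝ} {m : ℕ} (h : Hyp G τ d lam m) (k : ℕ) (hk : k = 2 * m) (s1 s2 : V) :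
    ∑ x ∈ walks (sc G τ) k s1, ∑ y ∈ walks (sc G τ) k s2,
        (if ¬ Avoid (Tr τ x) y ∧ G.Adj (wend s1 x) (wend s2 y) then (1 : ℝ) else 0)
      ≤ 12 * (m : ℝ) * (k : ℝ) * (((d : ℝ) ^ k) ^ 2 / (Fintype.card V : ℝ)) := by
  have hN2' : (2 : ℝ) ≤ (Fintype.card V : ℝ) := by exact_mod_cast h.hN2
  have hN0 : (0 : ℝ) < (Fintype.card V : ℝ) := by linarith
  have hN3 : (0 : ℝ) ≤ 3 / (Fintype.card V : ℝ) := by positivity
  have hP0 : (0 : ℝ) ≤ (d : ℝ) ^ k := by positivity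
  have h1 : ∀ x ∈ walks (sc G τ) k s1, ∑ y ∈ walks (sc G τ) k s2,
      (if ¬ Avoid (Tr τ x) y ∧ G.Adj (wend s1 x) (wend s2 y) then (1 : ℝ) else 0)
        ≤ 12 * (m : ℝ) * (k : ℝ) * (d : ℝ) ^ k / (Fintype.card V : ℝ) := by
    intro x hx
    have ht := tch_final G τ d (3 / (Fintype.card V : ℝ)) hN3 m h.hreg h.hinv h.hcnt
      (Tr τ x) (wend s1 x) s2
    rw [← hk] at ht
    have hlen := (mem_walks_elim (sc G τ) k s1 x hx).1
    have hc : ((Tr τ x).card : ℝ) ≤ 2 * (k : ℝ) := by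
      have := card_Tr_le τ x
      rw [hlen] at this
      exact_mod_cast this
    have h2 : 2 * ((m : ℝ) * (Tr τ x).card * (3 / (Fintype.card V : ℝ)) * (d : ℝ) ^ k)
        ≤ 2 * ((m : ℝ) * (2 * (k : ℝ)) * (3 / (Fintype.card V : ℝ)) * (d : ℝ) ^ k) := by
      have h3 : (m : ℝ) * (Tr τ x).card ≤ (m : ℝ) * (2 * (k : ℝ)) :=
        mul_le_mul_of_nonneg_left hc (by positivity)
      have h4 : (m : ℝ) * (Tr τ x).card * (3 / (Fintype.card V : ℝ))
          ≤ (m : ℝ) * (2 * (k : ℝ)) * (3 / (Fintype.card V : ℝ)) :=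
        mul_le_mul_of_nonneg_right h3 hN3
      have h5 := mul_le_mul_of_nonneg_right h4 hP0
      linarith
    have e : 2 * ((m : ℝ) * (2 * (k : ℝ)) * (3 / (Fintype.card V : ℝ)) * (d : ℝ) ^ k)
        = 12 * (m : ℝ) * (k : ℝ) * (d : ℝ) ^ k / (Fintype.card V : ℝ) := by
      field_simp
      ring
    rw [e] at h2
    exact le_trans ht h2
  refine le_trans (Finset.sum_le_sum h1) ?_
  rw [Finset.sum_const, nsmul_eq_mul]
  have hw : ((walks (sc G τ) k s1).card : ℝ) ≤ (d : ℝ) ^ k := by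
    exact_mod_cast card_walks_le (sc G τ) d (sc_card_le G τ d h.hreg h.hinv) k s1
  have h6 : ((walks (sc G τ) k s1).card : ℝ)
        * (12 * (m : ℝ) * (k : ℝ) * (d : ℝ) ^ k / (Fintype.card V : ℝ))
      ≤ (d : ℝ) ^ k * (12 * (m : ℝ) * (k : ℝ) * (d : ℝ) ^ k / (Fintype.card V : ℝ)) :=
    mul_le_mul_of_nonneg_right hw (by positivity)
  refine le_trans h6 (le_of_eq ?_)
  field_simp

open Classical in
/-- The number of good pairs of walks of length `2m` is at least `d^(4m+1) / (2n)`. -/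
theorem good_ge {lam : ℝ} {m : ℕ} (h : Hyp G τ d lam m) (k : ℕ) (hk : k = 2 * m) (s1 s2 : V) :
    (d : ℝ) * ((d : ℝ) ^ k) ^ 2 / (2 * (Fintype.card V : ℝ))
      ≤ ∑ x ∈ walks (sc G τ) k s1, ∑ y ∈ walks (sc G τ) k s2,
          (if Good G τ s1 s2 x y then (1 : ℝ) else 0) := by
  have hN2' : (2 : ℝ) ≤ (Fintype.card V : ℝ) := by exact_mod_cast h.hN2
  have hN0 : (0 : ℝ) < (Fintype.card V : ℝ) := by linarith
  have hmR : (1 : ℝ) ≤ (m : ℝ) := by exact_mod_cast h.hm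
  have hdR : 500 * (m : ℝ) ^ 2 ≤ (d : ℝ) := by exact_mod_cast h.hd
  have hkR : (k : ℝ) = 2 * (m : ℝ) := by rw [hk]; push_cast; ring
  have hsum := good_sum (G := G) (τ := τ) k s1 s2
  rw [T1_eq] at hsum
  have hB := B_ge h k hk s1 s2
  have h2 := T2_le h k hk s1 s2
  have h3 := T3_le h k hk s1 s2
  have h4 := T4_le h k hk s1 s2
  have hfin : (d : ℝ) * ((d : ℝ) ^ k) ^ 2 / (2 * (Fintype.card V : ℝ))
      = (d : ℝ) * (((d : ℝ) ^ k) ^ 2 / (Fintype.card V : ℝ)) / 2 := by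
    field_simp
  rw [hfin]
  have hq0 : (0 : ℝ) ≤ ((d : ℝ) ^ k) ^ 2 / (Fintype.card V : ℝ) := by positivity
  generalize ((d : ℝ) ^ k) ^ 2 / (Fintype.card V : ℝ) = q at *
  have ha : 500 * (m : ℝ) ^ 2 * q ≤ (d : ℝ) * q := mul_le_mul_of_nonneg_right hdR hq0
  have hb : (m : ℝ) * q ≤ (m : ℝ) ^ 2 * q := by
    apply mul_le_mul_of_nonneg_right _ hq0
    nlinarith
  rw [hkR] at hB h2 h3 h4
  nlinarith

end Vale.Agent.Helper18.Exp
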