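import Mathlib
import Vale.Agent.Helper18.ExpSpectral

namespace Vale.Agent.Helper18.Exp

open Finset

variable {V : Type*} [DecidableEq V] [Fintype V]

variable (G : SimpleGraph V) [DecidableRel G.Adj] (d : ℕ)

/-- The spectral hypothesis applied to the indicator function of a set `Y`. -/
theorem deg_dev_sq (lam : ℝ) (hN : 0 < Fintype.card V) (hspec : Spec G d lam) (Y : Finset V) :
    ∑ x, (((G.neighborFinset x ∩ Y).card : ℝ)
        - (d : ℝ) / (Fintype.card V : ℝ) * (Y.card : ℝ)) ^ 2 ≤ lam ^ 2 * (Y.card : ℝ) := by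
  have h1 := hspec (fun y => if y ∈ Y then (1 : ℝ) else 0)
  have h2 : ∀ x, ∑ y ∈ G.neighborFinset x, (if y ∈ Y then (1 : ℝ) else 0)
      = ((G.neighborFinset x ∩ Y).card : ℝ) := by
    intro x
    rw [Finset.sum_boole, Finset.filter_mem_eq_inter]
  have h3 : ∑ y, (if y ∈ Y then (1 : ℝ) else 0) = (Y.card : ℝ) := by
    rw [Finset.sum_boole]
    congr 2
    ext y
    simp
  simp only [h2, h3] at h1
  refine le_trans h1 ?_
  apply mul_le_mul_of_nonneg_left _ (sq_nonneg lam)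
  have h4 := Ef_le_sum_sq_sub hN (fun y => if y ∈ Y then (1 : ℝ) else 0) 0
  unfold Ef at h4
  simp only [h3] at h4
  refine le_trans h4 (le_of_eq ?_)
  have h5 : ∀ x : V, ((if x ∈ Y then (1 : ℝ) else 0) - 0) ^ 2 = if x ∈ Y then (1 : ℝ) else 0 := by
    intro x
    split_ifs <;> norm_num
  simp only [h5]
  exact h3

/-- Expander mixing, upper and lower: the number of edges from `X` to `Y` is close to
`d |X| |Y| / n`. -/
theorem mix_sq (lam : ℝ) (hN : 0 < Fintype.card V) (hspec : Spec G d lam) (X Y : Finset V) :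
    (∑ x ∈ X, ((G.neighborFinset x ∩ Y).card : ℝ)
        - (d : ℝ) / (Fintype.card V : ℝ) * (X.card : ℝ) * (Y.card : ℝ)) ^ 2
      ≤ (X.card : ℝ) * (lam ^ 2 * (Y.card : ℝ)) := by
  have h1 := deg_dev_sq G d lam hN hspec Y
  have h2 : ∑ x ∈ X, ((G.neighborFinset x ∩ Y).card : ℝ)
        - (d : ℝ) / (Fintype.card V : ℝ) * (X.card : ℝ) * (Y.card : ℝ)
      = ∑ x ∈ X, (((G.neighborFinset x ∩ Y).card : ℝ)
        - (d : ℝ) / (Fintype.card V : ℝ) * (Y.card : ℝ)) := by
    rw [Finset.sum_sub_distrib, Finset.sum_const, nsmul_eq_mul]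
    ring
  rw [h2]
  have h3 := sq_sum_le_card_mul_sum_sq (s := X)
    (f := fun x => ((G.neighborFinset x ∩ Y).card : ℝ)
        - (d : ℝ) / (Fintype.card V : ℝ) * (Y.card : ℝ))
  refine le_trans h3 ?_
  apply mul_le_mul_of_nonneg_left _ (by positivity)
  refine le_trans ?_ h1
  exact Finset.sum_le_sum_of_subset_of_nonneg (subset_univ X) (fun x _ _ => sq_nonneg _)

/-- The sum of the squares of the degrees into a set `L`. -/
theorem deg_sq_sum (lam : ℝ) (hN : 0 < Fintype.card V) (hspec : Spec G d lam)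
    (hreg : ∀ v, G.degree v = d) (L : Finset V) :
    ∑ w, ((G.neighborFinset w ∩ L).card : ℝ) ^ 2
      ≤ lam ^ 2 * (L.card : ℝ)
        + (d : ℝ) ^ 2 * (L.card : ℝ) ^ 2 / (Fintype.card V : ℝ) := by
  have hN' : (0 : ℝ) < (Fintype.card V : ℝ) := by exact_mod_cast hN
  have h1 := deg_dev_sq G d lam hN hspec L
  have h2 : ∑ w, ((G.neighborFinset w ∩ L).card : ℝ) = (d : ℝ) * (L.card : ℝ) := by
    have h3 := sum_nbr G d hreg (fun y => if y ∈ L then (1 : ℝ) else 0)
    have h4 : ∀ x, ∑ y ∈ G.neighborFinset x, (if y ∈ L then (1 : ℝ) else 0)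
        = ((G.neighborFinset x ∩ L).card : ℝ) := by
      intro x
      rw [Finset.sum_boole, Finset.filter_mem_eq_inter]
    have h5 : ∑ y, (if y ∈ L then (1 : ℝ) else 0) = (L.card : ℝ) := by
      rw [Finset.sum_boole]
      congr 2
      ext y
      simp
    simp only [h4, h5] at h3
    exact h3
  set c : ℝ := (d : ℝ) / (Fintype.card V : ℝ) * (L.card : ℝ) with hc
  have h6 : ∀ w, ((G.neighborFinset w ∩ L).card : ℝ) ^ 2
      = (((G.neighborFinset w ∩ L).card : ℝ) - c) ^ 2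
        + (2 * c * ((G.neighborFinset w ∩ L).card : ℝ) - c ^ 2) := by
    intro w
    ring
  simp_rw [h6]
  rw [Finset.sum_add_distrib, Finset.sum_sub_distrib, ← Finset.mul_sum, h2, Finset.sum_const,
    card_univ, nsmul_eq_mul]
  have h7 : 2 * c * ((d : ℝ) * (L.card : ℝ)) - (Fintype.card V : ℝ) * c ^ 2
      = (d : ℝ) ^ 2 * (L.card : ℝ) ^ 2 / (Fintype.card V : ℝ) := by
    rw [hc]
    field_simp
    ring
  rw [h7]
  linarith

/-- Two sets of size `a` with `lam * n < d * a` are joined by an edge. -/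
theorem mix_edge (lam : ℝ) (hN : 0 < Fintype.card V) (hspec : Spec G d lam) (hlam0 : 0 ≤ lam)
    (X Y : Finset V) (a : ℕ) (hX : X.card = a) (hY : Y.card = a)
    (ha : lam * (Fintype.card V : ℝ) < (d : ℝ) * (a : ℝ)) :
    ∃ x ∈ X, ∃ y ∈ Y, G.Adj x y := by
  by_contra hno
  push Not at hno
  have hN' : (0 : ℝ) < (Fintype.card V : ℝ) := by exact_mod_cast hN
  have h1 := mix_sq G d lam hN hspec X Y
  have h2 : ∑ x ∈ X, ((G.neighborFinset x ∩ Y).card : ℝ) = 0 := by
    apply Finset.sum_eq_zero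
    intro x hx
    have : G.neighborFinset x ∩ Y = ∅ := by
      apply Finset.eq_empty_of_forall_notMem
      intro y hy
      simp only [mem_inter, SimpleGraph.mem_neighborFinset] at hy
      exact hno x hx y hy.2 hy.1
    rw [this]
    simp
  rw [h2, hX, hY] at h1
  have ha0 : (0 : ℝ) ≤ (a : ℝ) := by positivity
  have hd0 : (0 : ℝ) ≤ (d : ℝ) := by positivity
  have h3 : (0 - (d : ℝ) / (Fintype.card V : ℝ) * (a : ℝ) * (a : ℝ)) ^ 2
      = ((d : ℝ) * (a : ℝ) * (a : ℝ) / (Fintype.card V : ℝ)) ^ 2 := by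
    field_simp
    ring
  rw [h3] at h1
  have h4 : (a : ℝ) * (lam ^ 2 * (a : ℝ)) = (lam * (a : ℝ)) ^ 2 := by ring
  rw [h4] at h1
  have h5 := abs_le_of_sq_le_sq' h1 (by positivity)
  have h6 : (d : ℝ) * (a : ℝ) * (a : ℝ) / (Fintype.card V : ℝ) ≤ lam * (a : ℝ) := h5.2
  rw [div_le_iff₀ hN'] at h6
  have ha1 : (0 : ℝ) < (a : ℝ) := by
    by_contra h
    have : (a : ℝ) = 0 := le_antisymm (not_lt.mp h) ha0
    rw [this] at ha
    have : 0 ≤ lam * (Fintype.card V : ℝ) := by positivity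
    linarith
  nlinarith

end Vale.Agent.Helper18.Exp
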