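import Mathlib

namespace Vale.Agent.Helper18.Exp

open Finset

variable {ι : Type*} [Fintype ι] [DecidableEq ι] {α : Type*} [DecidableEq α]

/-- Counting the functions of a product with one coordinate restricted. -/
theorem pi_count_one (t : ι → Finset α) (c : ι) (F : Finset α) :
    (t c).card * ((Fintype.piFinset t).filter (fun R => R c ∈ F)).card
      = (t c ∩ F).card * (Fintype.piFinset t).card := by
  have h1 : (Fintype.piFinset t).filter (fun R => R c ∈ F)
      = Fintype.piFinset (Function.update t c (t c ∩ F)) := by
    ext R
    simp only [mem_filter, Fintype.mem_piFinset]
    constructor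
    · rintro ⟨h, hc⟩ i
      by_cases hi : i = c
      · subst hi
        simp [h i, hc]
      · simp [Function.update_of_ne hi, h i]
    · intro h
      refine ⟨fun i => ?_, ?_⟩
      · by_cases hi : i = c
        · subst hi
          have := h i
          simp only [Function.update_self, mem_inter] at this
          exact this.1
        · have := h i
          rwa [Function.update_of_ne hi] at this
      · have := h c
        simp only [Function.update_self, mem_inter] at this
        exact this.2
  rw [h1, Fintype.card_piFinset, Fintype.card_piFinset]
  have h2 : ∏ i, (Function.update t c (t c ∩ F) i).card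
      = (t c ∩ F).card * ∏ i ∈ univ.erase c, (t i).card := by
    rw [← Finset.mul_prod_erase univ _ (mem_univ c)]
    simp only [Function.update_self]
    congr 1
    apply Finset.prod_congr rfl
    intro i hi
    rw [Function.update_of_ne (ne_of_mem_erase hi)]
  have h3 : ∏ i, (t i).card = (t c).card * ∏ i ∈ univ.erase c, (t i).card :=
    (Finset.mul_prod_erase univ _ (mem_univ c)).symm
  rw [h2, h3]
  ring

/-- Counting the functions of a product with two coordinates restricted. -/
theorem pi_count_two (t : ι → Finset α) (c c' : ι) (hcc : c ≠ c') (A A' : Finset α) :
    (t c).card * (t c').card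
        * ((Fintype.piFinset t).filter (fun R => R c ∈ A ∧ R c' ∈ A')).card
      = (t c ∩ A).card * (t c' ∩ A').card * (Fintype.piFinset t).card := by
  have h1 : (Fintype.piFinset t).filter (fun R => R c ∈ A ∧ R c' ∈ A')
      = (Fintype.piFinset (Function.update t c (t c ∩ A))).filter (fun R => R c' ∈ A') := by
    ext R
    simp only [mem_filter, Fintype.mem_piFinset]
    constructor
    · rintro ⟨h, hc, hc'⟩
      refine ⟨fun i => ?_, hc'⟩
      by_cases hi : i = c
      · subst hi
        simp [h i, hc]
      · simp [Function.update_of_ne hi, h i]
    · rintro ⟨h, hc'⟩
      refine ⟨fun i => ?_, ?_, hc'⟩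
      · by_cases hi : i = c
        · subst hi
          have := h i
          simp only [Function.update_self, mem_inter] at this
          exact this.1
        · have := h i
          rwa [Function.update_of_ne hi] at this
      · have := h c
        simp only [Function.update_self, mem_inter] at this
        exact this.2
  have h2 := pi_count_one (Function.update t c (t c ∩ A)) c' A'
  rw [Function.update_of_ne hcc.symm] at h2
  have h3 := pi_count_one t c A
  have h4 : (Fintype.piFinset t).filter (fun R => R c ∈ A)
      = Fintype.piFinset (Function.update t c (t c ∩ A)) := by
    ext R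
    simp only [mem_filter, Fintype.mem_piFinset]
    constructor
    · rintro ⟨h, hc⟩ i
      by_cases hi : i = c
      · subst hi
        simp [h i, hc]
      · simp [Function.update_of_ne hi, h i]
    · intro h
      refine ⟨fun i => ?_, ?_⟩
      · by_cases hi : i = c
        · subst hi
          have := h i
          simp only [Function.update_self, mem_inter] at this
          exact this.1
        · have := h i
          rwa [Function.update_of_ne hi] at this
      · have := h c
        simp only [Function.update_self, mem_inter] at this
        exact this.2
  rw [h4] at h3
  rw [h1]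
  calc (t c).card * (t c').card
        * ((Fintype.piFinset (Function.update t c (t c ∩ A))).filter (fun R => R c' ∈ A')).card
      = (t c).card * ((t c').card
        * ((Fintype.piFinset (Function.update t c (t c ∩ A))).filter
            (fun R => R c' ∈ A')).card) := by ring
    _ = (t c).card * ((t c' ∩ A').card
          * (Fintype.piFinset (Function.update t c (t c ∩ A))).card) := by rw [h2]
    _ = (t c' ∩ A').card
          * ((t c).card * (Fintype.piFinset (Function.update t c (t c ∩ A))).card) := by ring
    _ = (t c' ∩ A').card * ((t c ∩ A).card * (Fintype.piFinset t).card) := by rw [h3]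
    _ = _ := by ring

/-- Counting the functions of a product taking equal values at two coordinates. -/
theorem pi_count_eq (t : ι → Finset α) (c c' : ι) (hcc : c ≠ c') :
    (t c).card * (t c').card * ((Fintype.piFinset t).filter (fun R => R c = R c')).card
      = (t c ∩ t c').card * (Fintype.piFinset t).card := by
  have h1 : (Fintype.piFinset t).filter (fun R => R c = R c')
      = (t c').biUnion (fun w => (Fintype.piFinset t).filter
          (fun R => R c ∈ ({w} : Finset α) ∧ R c' ∈ ({w} : Finset α))) := by
    ext R
    simp only [mem_filter, mem_biUnion, mem_singleton, Fintype.mem_piFinset]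
    constructor
    · rintro ⟨h, hc⟩
      exact ⟨R c', h c', h, hc, rfl⟩
    · rintro ⟨w, -, h, h1, h2⟩
      exact ⟨h, h1.trans h2.symm⟩
  rw [h1, Finset.card_biUnion]
  · rw [Finset.mul_sum]
    have h2 : ∀ w ∈ t c', (t c).card * (t c').card
        * ((Fintype.piFinset t).filter
            (fun R => R c ∈ ({w} : Finset α) ∧ R c' ∈ ({w} : Finset α))).card
        = (if w ∈ t c then 1 else 0) * (Fintype.piFinset t).card := by
      intro w hw
      rw [pi_count_two t c c' hcc {w} {w}]
      have e1 : (t c' ∩ {w}).card = 1 := by
        rw [Finset.inter_singleton_of_mem hw, card_singleton]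
      rw [e1]
      by_cases hwc : w ∈ t c
      · rw [Finset.inter_singleton_of_mem hwc, card_singleton, if_pos hwc]
      · rw [Finset.inter_singleton_of_notMem hwc, card_empty, if_neg hwc]
    rw [Finset.sum_congr rfl h2, ← Finset.sum_mul]
    congr 1
    rw [Finset.sum_boole]
    simp only [Nat.cast_id]
    congr 1
    ext w
    simp [and_comm]
  · intro w _ w' _ hww
    show Disjoint _ _
    rw [Finset.disjoint_left]
    intro R hR hR'
    simp only [mem_filter, mem_singleton] at hR hR'
    exact hww (hR.2.1.symm.trans hR'.2.1)

end Vale.Agent.Helper18.Exp
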