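import Mathlib
import Vale.Agent.Helper18.ExpMix
import Vale.Agent.Helper18.ExpPi

namespace Vale.Agent.Helper18.Exp

open Finset

variable {V : Type*} [DecidableEq V] [Fintype V]

/-- The pick functions: each vertex `x` picks 32 of its neighbours (with repetition). -/
def picks (G : SimpleGraph V) [DecidableRel G.Adj] : Finset (V × Fin 32 → V) :=
  Fintype.piFinset (fun c : V × Fin 32 => G.neighborFinset c.1)

/-- The new vertices reached from the layer `L` through the picks `R`, outside `F`. -/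
def newSet (G : SimpleGraph V) [DecidableRel G.Adj] (τ : V → V) (R : V × Fin 32 → V)
    (L F : Finset V) : Finset V :=
  univ.filter (fun x' => τ x' ≠ x' ∧ x' ∉ F ∧ ∃ x ∈ L, ∃ j, R (x, j) = τ x')

variable (G : SimpleGraph V) [DecidableRel G.Adj] (τ : V → V) (d : ℕ)

omit [Fintype V] in
theorem newSet_lower (hinv : ∀ x, τ (τ x) = x) [Fintype V] (R : V × Fin 32 → V) (L F : Finset V)
    (hFτ : ∀ z ∈ F, τ z ∈ F) (hFfix : ∀ z, τ z = z → z ∈ F) :
    32 * L.card ≤ (newSet G τ R L F).card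
      + ((L ×ˢ (univ : Finset (Fin 32))).filter (fun c => R c ∈ F)).card
      + (((L ×ˢ (univ : Finset (Fin 32))) ×ˢ (L ×ˢ (univ : Finset (Fin 32)))).filter
          (fun p => p.1 ≠ p.2 ∧ R p.1 = R p.2)).card := by
  classical
  set C : Finset (V × Fin 32) := L ×ˢ (univ : Finset (Fin 32)) with hC
  have hCcard : C.card = 32 * L.card := by
    rw [hC, card_product, card_univ, Fintype.card_fin, mul_comm]
  set A : Finset (V × Fin 32) := C.filter (fun c => ¬ R c ∈ F) with hA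
  set Acoll : Finset (V × Fin 32) := C.filter (fun c => ∃ c' ∈ C, c' ≠ c ∧ R c' = R c) with hAc
  have h1 : (C.filter (fun c => R c ∈ F)).card + A.card = C.card :=
    Finset.card_filter_add_card_filter_not (fun c => R c ∈ F)
  have h2 : (A \ Acoll).card ≤ (newSet G τ R L F).card := by
    apply Finset.card_le_card_of_injOn (fun c => τ (R c))
    · intro c hc
      simp only [coe_sdiff, Set.mem_sdiff, mem_coe, hA, hC, mem_filter, mem_product, mem_univ,
        and_true] at hc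
      obtain ⟨⟨hcL, hcF⟩, -⟩ := hc
      simp only [newSet, coe_filter, mem_univ, true_and, Set.mem_ofPred_eq]
      rw [hinv]
      refine ⟨?_, ?_, c.1, hcL, c.2, rfl⟩
      · intro h
        exact hcF (hFfix _ h.symm)
      · intro h
        have := hFτ _ h
        rw [hinv] at this
        exact hcF this
    · intro c hc c' hc' heq
      simp only [coe_sdiff, Set.mem_sdiff, mem_coe] at hc hc'
      have h3 : R c = R c' := by
        have := congrArg τ heq
        simpa [hinv] using this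
      by_contra hne
      apply hc.2
      rw [hAc, mem_filter]
      refine ⟨(mem_filter.mp hc.1).1, c', (mem_filter.mp hc'.1).1, fun h => hne h.symm, h3.symm⟩
  have h3 : Acoll.card
      ≤ ((C ×ˢ C).filter (fun p => p.1 ≠ p.2 ∧ R p.1 = R p.2)).card := by
    have hsub : Acoll ⊆ ((C ×ˢ C).filter (fun p => p.1 ≠ p.2 ∧ R p.1 = R p.2)).image
        (fun p => p.2) := by
      intro c hc
      rw [hAc, mem_filter] at hc
      obtain ⟨hcC, c', hc'C, hne, heq⟩ := hc
      rw [mem_image]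
      refine ⟨(c', c), ?_, rfl⟩
      rw [mem_filter, mem_product]
      exact ⟨⟨hc'C, hcC⟩, hne, heq⟩
    exact le_trans (Finset.card_le_card hsub) Finset.card_image_le
  have h4 : A.card ≤ (A \ Acoll).card + Acoll.card := Finset.card_le_card_sdiff_add_card
  omega

omit [DecidableEq V] [Fintype V] in
theorem sum_C1 (L : Finset V) (Fn : V → ℝ) :
    ∑ c ∈ (L ×ˢ (univ : Finset (Fin 32))), Fn c.1 = 32 * ∑ x ∈ L, Fn x := by
  rw [Finset.sum_product]
  simp only [Finset.sum_const, card_univ, Fintype.card_fin, nsmul_eq_mul]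
  rw [Finset.mul_sum]
  push_cast
  rfl

omit [DecidableEq V] [Fintype V] in
theorem sum_C2 (L : Finset V) (Fn : V → V → ℝ) :
    ∑ p ∈ (L ×ˢ (univ : Finset (Fin 32))) ×ˢ (L ×ˢ (univ : Finset (Fin 32))), Fn p.1.1 p.2.1
      = 1024 * ∑ x ∈ L, ∑ x' ∈ L, Fn x x' := by
  rw [Finset.sum_product]
  simp only [Finset.sum_product, Finset.sum_const, card_univ, Fintype.card_fin, nsmul_eq_mul]
  rw [Finset.mul_sum]
  apply Finset.sum_congr rfl
  intro x _
  rw [← Finset.mul_sum]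
  push_cast
  ring

theorem codeg_sum (L : Finset V) :
    ∑ x ∈ L, ∑ x' ∈ L, ((G.neighborFinset x ∩ G.neighborFinset x').card : ℝ)
      = ∑ w, ((G.neighborFinset w ∩ L).card : ℝ) ^ 2 := by
  have h1 : ∀ x x', ((G.neighborFinset x ∩ G.neighborFinset x').card : ℝ)
      = ∑ w, (if G.Adj w x then (1 : ℝ) else 0) * (if G.Adj w x' then (1 : ℝ) else 0) := by
    intro x x'
    have : ∀ w, (if G.Adj w x then (1 : ℝ) else 0) * (if G.Adj w x' then (1 : ℝ) else 0)
        = if w ∈ G.neighborFinset x ∩ G.neighborFinset x' then (1 : ℝ) else 0 := by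
      intro w
      by_cases h1 : G.Adj w x <;> by_cases h2 : G.Adj w x' <;>
        simp [h1, h2, G.adj_comm x w, G.adj_comm x' w]
    simp_rw [this]
    rw [Finset.sum_boole]
    congr 2
    ext w
    simp
  have h2 : ∀ w, ((G.neighborFinset w ∩ L).card : ℝ)
      = ∑ x ∈ L, (if G.Adj w x then (1 : ℝ) else 0) := by
    intro w
    rw [Finset.sum_boole]
    congr 2
    ext x
    simp [and_comm]
  have h3 : ∀ w, ((G.neighborFinset w ∩ L).card : ℝ) ^ 2
      = ∑ x ∈ L, ∑ x' ∈ L,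
          (if G.Adj w x then (1 : ℝ) else 0) * (if G.Adj w x' then (1 : ℝ) else 0) := by
    intro w
    rw [h2 w, sq, Finset.sum_mul_sum]
  have h4 : ∀ x ∈ L, ∑ x' ∈ L, ((G.neighborFinset x ∩ G.neighborFinset x').card : ℝ)
      = ∑ w, ∑ x' ∈ L,
          (if G.Adj w x then (1 : ℝ) else 0) * (if G.Adj w x' then (1 : ℝ) else 0) := by
    intro x _
    rw [Finset.sum_comm]
    exact Finset.sum_congr rfl (fun x' _ => h1 x x')
  rw [Finset.sum_congr rfl h4, Finset.sum_comm]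
  exact Finset.sum_congr rfl (fun w _ => (h3 w).symm)

theorem bad1_sum (hreg : ∀ v, G.degree v = d) (L F : Finset V) :
    (d : ℝ) * ∑ R ∈ picks G,
        (((L ×ˢ (univ : Finset (Fin 32))).filter (fun c => R c ∈ F)).card : ℝ)
      = ((picks G).card : ℝ) * (32 * ∑ x ∈ L, ((G.neighborFinset x ∩ F).card : ℝ)) := by
  classical
  set C : Finset (V × Fin 32) := L ×ˢ (univ : Finset (Fin 32)) with hC
  set P : Finset (V × Fin 32 → V) := picks G with hP
  have htc : ∀ c : V × Fin 32, (G.neighborFinset c.1).card = d := fun c => by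
    rw [SimpleGraph.card_neighborFinset_eq_degree, hreg]
  have e1 : ∀ R ∈ P, ((C.filter (fun c => R c ∈ F)).card : ℝ)
      = ∑ c ∈ C, (if R c ∈ F then (1 : ℝ) else 0) := by
    intro R _
    rw [Finset.sum_boole]
  rw [Finset.sum_congr rfl e1, Finset.sum_comm, Finset.mul_sum]
  have e2 : ∀ c ∈ C, (d : ℝ) * ∑ R ∈ P, (if R c ∈ F then (1 : ℝ) else 0)
      = (P.card : ℝ) * ((G.neighborFinset c.1 ∩ F).card : ℝ) := by
    intro c _
    rw [Finset.sum_boole]
    have := pi_count_one (fun c : V × Fin 32 => G.neighborFinset c.1) c F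
    rw [htc c] at this
    have h2 : ((d * (P.filter (fun R => R c ∈ F)).card : ℕ) : ℝ)
        = (((G.neighborFinset c.1 ∩ F).card * P.card : ℕ) : ℝ) := by
      exact_mod_cast this
    push_cast at h2
    linarith
  rw [Finset.sum_congr rfl e2, ← Finset.mul_sum, hC,
    sum_C1 L (fun x => ((G.neighborFinset x ∩ F).card : ℝ))]

theorem bad2_one (hreg : ∀ v, G.degree v = d) (p : (V × Fin 32) × (V × Fin 32)) :
    (d : ℝ) ^ 2 * ∑ R ∈ picks G, (if p.1 ≠ p.2 ∧ R p.1 = R p.2 then (1 : ℝ) else 0)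
      ≤ ((picks G).card : ℝ) * ((G.neighborFinset p.1.1 ∩ G.neighborFinset p.2.1).card : ℝ) := by
  classical
  set P : Finset (V × Fin 32 → V) := picks G with hP
  have htc : ∀ c : V × Fin 32, (G.neighborFinset c.1).card = d := fun c => by
    rw [SimpleGraph.card_neighborFinset_eq_degree, hreg]
  by_cases hp : p.1 = p.2
  · have : ∀ R ∈ P, (if p.1 ≠ p.2 ∧ R p.1 = R p.2 then (1 : ℝ) else 0) = 0 := by
      intro R _
      rw [if_neg]
      intro h
      exact h.1 hp
    rw [Finset.sum_congr rfl this, Finset.sum_const_zero, mul_zero]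
    exact mul_nonneg (Nat.cast_nonneg _) (Nat.cast_nonneg _)
  · have e3 : ∀ R ∈ P, (if p.1 ≠ p.2 ∧ R p.1 = R p.2 then (1 : ℝ) else 0)
        = (if R p.1 = R p.2 then (1 : ℝ) else 0) := by
      intro R _
      by_cases h : R p.1 = R p.2
      · rw [if_pos ⟨hp, h⟩, if_pos h]
      · rw [if_neg (fun h' => h h'.2), if_neg h]
    rw [Finset.sum_congr rfl e3, Finset.sum_boole]
    have := pi_count_eq (fun c : V × Fin 32 => G.neighborFinset c.1) p.1 p.2 hp
    rw [htc p.1, htc p.2] at this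
    have h2 : ((d * d * (P.filter (fun R => R p.1 = R p.2)).card : ℕ) : ℝ)
        = (((G.neighborFinset p.1.1 ∩ G.neighborFinset p.2.1).card * P.card : ℕ) : ℝ) := by
      exact_mod_cast this
    push_cast at h2
    nlinarith

theorem bad2_sum (hreg : ∀ v, G.degree v = d) (L : Finset V) :
    (d : ℝ) ^ 2 * ∑ R ∈ picks G,
        ((((L ×ˢ (univ : Finset (Fin 32))) ×ˢ (L ×ˢ (univ : Finset (Fin 32)))).filter
          (fun p => p.1 ≠ p.2 ∧ R p.1 = R p.2)).card : ℝ)
      ≤ ((picks G).card : ℝ) * (1024 * ∑ w, ((G.neighborFinset w ∩ L).card : ℝ) ^ 2) := by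
  classical
  set C : Finset (V × Fin 32) := L ×ˢ (univ : Finset (Fin 32)) with hC
  set P : Finset (V × Fin 32 → V) := picks G with hP
  have e1 : ∀ R ∈ P, (((C ×ˢ C).filter (fun p => p.1 ≠ p.2 ∧ R p.1 = R p.2)).card : ℝ)
      = ∑ p ∈ C ×ˢ C, (if p.1 ≠ p.2 ∧ R p.1 = R p.2 then (1 : ℝ) else 0) := by
    intro R _
    rw [Finset.sum_boole]
  rw [Finset.sum_congr rfl e1, Finset.sum_comm, Finset.mul_sum]
  refine le_trans (Finset.sum_le_sum (fun p _ => bad2_one G d hreg p)) ?_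
  rw [← Finset.mul_sum]
  apply mul_le_mul_of_nonneg_left _ (Nat.cast_nonneg _)
  rw [← codeg_sum G L, hC,
    sum_C2 L (fun x x' => ((G.neighborFinset x ∩ G.neighborFinset x').card : ℝ))]

theorem bad1_bound (lam : ℝ) (hspec : Spec G d lam) (hreg : ∀ v, G.degree v = d)
    (hlam0 : 0 ≤ lam) (hlam : 200 * lam ≤ d) (hd : 0 < d)
    (L F : Finset V) (a : ℕ) (ha : 1 ≤ a) (hL : L.card = a) (hF : F.card ≤ 21 * a)
    (hn : 160 * a ≤ Fintype.card V) :
    ∑ R ∈ picks G, (((L ×ˢ (univ : Finset (Fin 32))).filter (fun c => R c ∈ F)).card : ℝ)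
      ≤ ((picks G).card : ℝ) * (5 * (a : ℝ)) := by
  classical
  have hN : 0 < Fintype.card V := by omega
  have hN' : (0 : ℝ) < (Fintype.card V : ℝ) := by exact_mod_cast hN
  have hd' : (0 : ℝ) < (d : ℝ) := by exact_mod_cast hd
  have haR : (1 : ℝ) ≤ (a : ℝ) := by exact_mod_cast ha
  have hnR : 160 * (a : ℝ) ≤ (Fintype.card V : ℝ) := by exact_mod_cast hn
  have hFR : (F.card : ℝ) ≤ 21 * (a : ℝ) := by exact_mod_cast hF
  have hPc : (0 : ℝ) ≤ ((picks G).card : ℝ) := Nat.cast_nonneg _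
  have hb1 := bad1_sum G d hreg L F
  have hmix := mix_sq G d lam hN hspec L F
  rw [hL] at hmix
  have he : ∑ x ∈ L, ((G.neighborFinset x ∩ F).card : ℝ)
      ≤ (d : ℝ) / (Fintype.card V : ℝ) * (a : ℝ) * (F.card : ℝ) + 5 * lam * (a : ℝ) := by
    have h1 : (∑ x ∈ L, ((G.neighborFinset x ∩ F).card : ℝ)
        - (d : ℝ) / (Fintype.card V : ℝ) * (a : ℝ) * (F.card : ℝ)) ^ 2
        ≤ (5 * lam * (a : ℝ)) ^ 2 := by
      refine le_trans hmix ?_
      have : (a : ℝ) * (lam ^ 2 * (F.card : ℝ)) ≤ (a : ℝ) * (lam ^ 2 * (21 * (a : ℝ))) :=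
        mul_le_mul_of_nonneg_left (mul_le_mul_of_nonneg_left hFR (sq_nonneg lam)) (by positivity)
      nlinarith [sq_nonneg (lam * (a : ℝ))]
    have h2 := abs_le_of_sq_le_sq' h1 (by positivity)
    linarith [h2.2]
  have h1 : ∑ R ∈ picks G, (((L ×ˢ (univ : Finset (Fin 32))).filter (fun c => R c ∈ F)).card : ℝ)
      = ((picks G).card : ℝ) * (32 * ∑ x ∈ L, ((G.neighborFinset x ∩ F).card : ℝ)) / (d : ℝ) := by
    rw [← hb1]
    field_simp
  rw [h1, div_le_iff₀ hd']
  have h2 : 32 * ∑ x ∈ L, ((G.neighborFinset x ∩ F).card : ℝ) ≤ 5 * (a : ℝ) * (d : ℝ) := by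
    have h3 : (d : ℝ) / (Fintype.card V : ℝ) * (a : ℝ) * (F.card : ℝ)
        ≤ (d : ℝ) * (21 / 160) * (a : ℝ) := by
      rw [div_mul_eq_mul_div, div_mul_eq_mul_div, div_le_iff₀ hN']
      have h4 : (d : ℝ) * (a : ℝ) * (F.card : ℝ) ≤ (d : ℝ) * (a : ℝ) * (21 * (a : ℝ)) :=
        mul_le_mul_of_nonneg_left hFR (by positivity)
      have h5 : (d : ℝ) * (21 / 160) * (a : ℝ) * (160 * (a : ℝ))
          ≤ (d : ℝ) * (21 / 160) * (a : ℝ) * (Fintype.card V : ℝ) :=
        mul_le_mul_of_nonneg_left hnR (by positivity)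
      nlinarith
    have h6 : 5 * lam * (a : ℝ) ≤ (d : ℝ) / 40 * (a : ℝ) := by
      have : 5 * lam ≤ (d : ℝ) / 40 := by linarith
      exact mul_le_mul_of_nonneg_right this (by positivity)
    nlinarith
  calc ((picks G).card : ℝ) * (32 * ∑ x ∈ L, ((G.neighborFinset x ∩ F).card : ℝ))
      ≤ ((picks G).card : ℝ) * (5 * (a : ℝ) * (d : ℝ)) := mul_le_mul_of_nonneg_left h2 hPc
    _ = ((picks G).card : ℝ) * (5 * (a : ℝ)) * (d : ℝ) := by ring

theorem bad2_bound (lam : ℝ) (hspec : Spec G d lam) (hreg : ∀ v, G.degree v = d)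
    (hlam0 : 0 ≤ lam) (hlam : 200 * lam ≤ d) (hd : 0 < d)
    (L : Finset V) (a : ℕ) (ha : 1 ≤ a) (hL : L.card = a)
    (hn : 160 * a ≤ Fintype.card V) :
    ∑ R ∈ picks G,
        ((((L ×ˢ (univ : Finset (Fin 32))) ×ˢ (L ×ˢ (univ : Finset (Fin 32)))).filter
          (fun p => p.1 ≠ p.2 ∧ R p.1 = R p.2)).card : ℝ)
      ≤ ((picks G).card : ℝ) * (7 * (a : ℝ)) := by
  classical
  have hN : 0 < Fintype.card V := by omega
  have hN' : (0 : ℝ) < (Fintype.card V : ℝ) := by exact_mod_cast hN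
  have hd' : (0 : ℝ) < (d : ℝ) := by exact_mod_cast hd
  have haR : (1 : ℝ) ≤ (a : ℝ) := by exact_mod_cast ha
  have hnR : 160 * (a : ℝ) ≤ (Fintype.card V : ℝ) := by exact_mod_cast hn
  have hPc : (0 : ℝ) ≤ ((picks G).card : ℝ) := Nat.cast_nonneg _
  have hb2 := bad2_sum G d hreg L
  have hs := deg_sq_sum G d lam hN hspec hreg L
  rw [hL] at hs
  have h1 : ∑ R ∈ picks G,
        ((((L ×ˢ (univ : Finset (Fin 32))) ×ˢ (L ×ˢ (univ : Finset (Fin 32)))).filter
          (fun p => p.1 ≠ p.2 ∧ R p.1 = R p.2)).card : ℝ)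
      ≤ ((picks G).card : ℝ) * (1024 * ∑ w, ((G.neighborFinset w ∩ L).card : ℝ) ^ 2)
        / (d : ℝ) ^ 2 := by
    rw [le_div_iff₀ (by positivity)]
    linarith
  refine le_trans h1 ?_
  rw [div_le_iff₀ (by positivity)]
  have h2 : 1024 * ∑ w, ((G.neighborFinset w ∩ L).card : ℝ) ^ 2
      ≤ 7 * (a : ℝ) * (d : ℝ) ^ 2 := by
    have h3 : lam ^ 2 * (a : ℝ) ≤ (d : ℝ) ^ 2 / 40000 * (a : ℝ) := by
      apply mul_le_mul_of_nonneg_right _ (by positivity)
      nlinarith
    have h4 : (d : ℝ) ^ 2 * (a : ℝ) ^ 2 / (Fintype.card V : ℝ)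
        ≤ (d : ℝ) ^ 2 * (a : ℝ) / 160 := by
      rw [div_le_iff₀ hN']
      have h5 : (d : ℝ) ^ 2 * (a : ℝ) / 160 * (160 * (a : ℝ))
          ≤ (d : ℝ) ^ 2 * (a : ℝ) / 160 * (Fintype.card V : ℝ) :=
        mul_le_mul_of_nonneg_left hnR (by positivity)
      nlinarith
    have h6 : (0 : ℝ) ≤ (d : ℝ) ^ 2 * (a : ℝ) := by positivity
    nlinarith
  calc ((picks G).card : ℝ) * (1024 * ∑ w, ((G.neighborFinset w ∩ L).card : ℝ) ^ 2)
      ≤ ((picks G).card : ℝ) * (7 * (a : ℝ) * (d : ℝ) ^ 2) := mul_le_mul_of_nonneg_left h2 hPc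
    _ = ((picks G).card : ℝ) * (7 * (a : ℝ)) * (d : ℝ) ^ 2 := by ring

theorem grow (lam : ℝ) (hspec : Spec G d lam) (hreg : ∀ v, G.degree v = d)
    (hinv : ∀ x, τ (τ x) = x) (hlam0 : 0 ≤ lam) (hlam : 200 * lam ≤ d) (hd : 0 < d)
    (L F : Finset V) (a : ℕ) (ha : 1 ≤ a) (hL : L.card = a) (hF : F.card ≤ 21 * a)
    (hFτ : ∀ z ∈ F, τ z ∈ F) (hFfix : ∀ z, τ z = z → z ∈ F)
    (hn : 160 * a ≤ Fintype.card V) :
    (picks G).card
      ≤ 2 * ((picks G).filter (fun R => 8 * a ≤ (newSet G τ R L F).card)).card := by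
  classical
  have haR : (1 : ℝ) ≤ (a : ℝ) := by exact_mod_cast ha
  set C : Finset (V × Fin 32) := L ×ˢ (univ : Finset (Fin 32)) with hC
  set P : Finset (V × Fin 32 → V) := picks G with hP
  have t1 := bad1_bound G d lam hspec hreg hlam0 hlam hd L F a ha hL hF hn
  have t2 := bad2_bound G d lam hspec hreg hlam0 hlam hd L a ha hL hn
  have htot : ∑ R ∈ P, (((C.filter (fun c => R c ∈ F)).card : ℝ)
        + (((C ×ˢ C).filter (fun p => p.1 ≠ p.2 ∧ R p.1 = R p.2)).card : ℝ))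
      ≤ 12 * (a : ℝ) * (P.card : ℝ) := by
    rw [Finset.sum_add_distrib]
    linarith
  set Gd : Finset (V × Fin 32 → V) := P.filter (fun R => 8 * a ≤ (newSet G τ R L F).card)
    with hGd
  have hsplit : (P.filter (fun R => ¬ 8 * a ≤ (newSet G τ R L F).card)).card + Gd.card
      = P.card := by
    rw [add_comm]
    exact Finset.card_filter_add_card_filter_not _
  have hbadlow : 24 * (a : ℝ)
        * ((P.filter (fun R => ¬ 8 * a ≤ (newSet G τ R L F).card)).card : ℝ)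
      ≤ ∑ R ∈ P, (((C.filter (fun c => R c ∈ F)).card : ℝ)
        + (((C ×ˢ C).filter (fun p => p.1 ≠ p.2 ∧ R p.1 = R p.2)).card : ℝ)) := by
    have h1 : ∑ R ∈ P.filter (fun R => ¬ 8 * a ≤ (newSet G τ R L F).card), (24 * (a : ℝ))
        ≤ ∑ R ∈ P.filter (fun R => ¬ 8 * a ≤ (newSet G τ R L F).card),
          (((C.filter (fun c => R c ∈ F)).card : ℝ)
            + (((C ×ˢ C).filter (fun p => p.1 ≠ p.2 ∧ R p.1 = R p.2)).card : ℝ)) := by
      apply Finset.sum_le_sum
      intro R hR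
      have hR' := (mem_filter.mp hR).2
      have h2 : 32 * L.card ≤ (newSet G τ R L F).card
          + (C.filter (fun c => R c ∈ F)).card
          + ((C ×ˢ C).filter (fun p => p.1 ≠ p.2 ∧ R p.1 = R p.2)).card :=
        newSet_lower G τ hinv R L F hFτ hFfix
      rw [hL] at h2
      have h3 : 24 * a ≤ (C.filter (fun c => R c ∈ F)).card
          + ((C ×ˢ C).filter (fun p => p.1 ≠ p.2 ∧ R p.1 = R p.2)).card := by
        omega
      exact_mod_cast h3
    rw [Finset.sum_const, nsmul_eq_mul] at h1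
    refine le_trans (le_of_eq (by ring)) (le_trans h1 ?_)
    apply Finset.sum_le_sum_of_subset_of_nonneg (Finset.filter_subset _ _)
    intro R _ _
    positivity
  have hfin : 2 * ((P.filter (fun R => ¬ 8 * a ≤ (newSet G τ R L F).card)).card : ℝ)
      ≤ (P.card : ℝ) := by
    have h1 := le_trans hbadlow htot
    have h2 : (0 : ℝ) < 12 * (a : ℝ) := by positivity
    nlinarith
  have hfin' : 2 * (P.filter (fun R => ¬ 8 * a ≤ (newSet G τ R L F).card)).card ≤ P.card := by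
    exact_mod_cast hfin
  omega

end Vale.Agent.Helper18.Exp
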