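import Mathlib
import Vale.Agent.Helper18.ExpGood
import Vale.Agent.Results.P308.BoundedIndependenceRatio

namespace Vale.Agent.Helper18.Exp

open Finset
open Vale.Agent.Results.P308.BoundedIndependenceRatio

variable {V : Type*} [DecidableEq V]

omit [DecidableEq V] in
theorem simple_index (τ : V → V) (s : V) (l : List V) (h : Simple τ l) :
    ∀ i j, 1 ≤ i → i < j → j ≤ l.length →
      nth s l j ≠ nth s l i ∧ nth s l j ≠ τ (nth s l i) := by
  induction l generalizing s with
  | nil =>
    intro i j hi hij hj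
    simp at hj
    omega
  | cons a l ih =>
    intro i j hi hij hj
    rw [simple_cons] at h
    obtain ⟨i', rfl⟩ : ∃ i', i = i' + 1 := ⟨i - 1, by omega⟩
    obtain ⟨j', rfl⟩ : ∃ j', j = j' + 1 := ⟨j - 1, by omega⟩
    show nth a l j' ≠ nth a l i' ∧ nth a l j' ≠ τ (nth a l i')
    have hj' : j' ≤ l.length := by simpa using hj
    rcases Nat.eq_zero_or_pos i' with rfl | hi'
    · rw [nth_zero]
      exact h.1 _ (nth_mem a l j' (by omega) hj')
    · exact ih a h.2 i' j' hi' (by omega) hj'

/-- The alternating half-path along the walk `s :: l`: the vertex `nth s l i` at position `2i`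
and its partner at position `2i - 1`. -/
def half (τ : V → V) (s : V) (l : List V) (n : ℕ) : V :=
  if n % 2 = 0 then nth s l (n / 2) else τ (nth s l (n / 2 + 1))

omit [DecidableEq V] in
theorem half_even (τ : V → V) (s : V) (l : List V) (i : ℕ) :
    half τ s l (2 * i) = nth s l i := by
  unfold half
  rw [if_pos (by omega)]
  congr 1
  omega

omit [DecidableEq V] in
theorem half_odd (τ : V → V) (s : V) (l : List V) (i : ℕ) :
    half τ s l (2 * i + 1) = τ (nth s l (i + 1)) := by
  unfold half
  rw [if_neg (by omega)]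
  congr 2
  omega

/-- The path obtained from the walk `x` from `u` and the walk `y` from `v`, both of length `k`:
the half-path of `x` followed by the reversed half-path of `y`. -/
def apath (τ : V → V) (k : ℕ) (u v : V) (x y : List V) (n : ℕ) : V :=
  if n ≤ 2 * k then half τ u x n else half τ v y (4 * k + 1 - n)

omit [DecidableEq V] in
theorem apath_lo (τ : V → V) (k : ℕ) (u v : V) (x y : List V) (n : ℕ) (hn : n ≤ 2 * k) :
    apath τ k u v x y n = half τ u x n := by
  unfold apath
  rw [if_pos hn]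

omit [DecidableEq V] in
theorem apath_hi (τ : V → V) (k : ℕ) (u v : V) (x y : List V) (n : ℕ) (hn : 2 * k < n) :
    apath τ k u v x y n = half τ v y (4 * k + 1 - n) := by
  unfold apath
  rw [if_neg (by omega)]

omit [DecidableEq V] in
theorem apath_readX (τ : V → V) (k : ℕ) (u v : V) (x y : List V) (i : ℕ) (hi : i ≤ k) :
    apath τ k u v x y (2 * i) = nth u x i := by
  rw [apath_lo _ _ _ _ _ _ _ (by omega), half_even]

omit [DecidableEq V] in
theorem apath_readY (τ : V → V) (k : ℕ) (u v : V) (x y : List V) (j : ℕ) (hj : j ≤ k) :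
    apath τ k u v x y (4 * k + 1 - 2 * j) = nth v y j := by
  rw [apath_hi _ _ _ _ _ _ _ (by omega)]
  have e : 4 * k + 1 - (4 * k + 1 - 2 * j) = 2 * j := by omega
  rw [e, half_even]

omit [DecidableEq V] in
theorem half_inj (τ : V → V) (hinv : ∀ x, τ (τ x) = x) (s : V) (l : List V) (k : ℕ)
    (Z1 : ∀ i j, i < j → j ≤ k → nth s l j ≠ nth s l i ∧ nth s l j ≠ τ (nth s l i))
    (Z2 : ∀ j, 1 ≤ j → j ≤ k → τ (nth s l j) ≠ nth s l j) :
    ∀ a b, a ≤ 2 * k → b ≤ 2 * k → half τ s l a = half τ s l b → a = b := by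
  have key : ∀ i j, i ≤ k → j ≤ k → nth s l i = nth s l j → i = j := by
    intro i j hi hj h
    rcases lt_trichotomy i j with hij | hij | hij
    · exact absurd h.symm (Z1 i j hij hj).1
    · exact hij
    · exact absurd h (Z1 j i hij hi).1
  have key2 : ∀ i j, i ≤ k → 1 ≤ j → j ≤ k → nth s l i ≠ τ (nth s l j) := by
    intro i j hi hj1 hj h
    rcases lt_trichotomy i j with hij | hij | hij
    · apply (Z1 i j hij hj).2
      rw [h, hinv]
    · rw [hij] at h
      exact Z2 j hj1 hj h.symm
    · exact (Z1 j i hij hi).2 h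
  intro a b ha hb hab
  rcases Nat.even_or_odd' a with ⟨i, rfl | rfl⟩ <;> rcases Nat.even_or_odd' b with ⟨j, rfl | rfl⟩
  · rw [half_even, half_even] at hab
    have := key i j (by omega) (by omega) hab
    omega
  · rw [half_even, half_odd] at hab
    exact absurd hab (key2 i (j + 1) (by omega) (by omega) (by omega))
  · rw [half_odd, half_even] at hab
    exact absurd hab.symm (key2 j (i + 1) (by omega) (by omega) (by omega))
  · rw [half_odd, half_odd] at hab
    have h2 : nth s l (i + 1) = nth s l (j + 1) := by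
      have := congrArg τ hab
      rwa [hinv, hinv] at this
    have := key (i + 1) (j + 1) (by omega) (by omega) h2
    omega

omit [DecidableEq V] in
theorem half_disj (τ : V → V) (hinv : ∀ x, τ (τ x) = x) (u v : V) (x y : List V) (k : ℕ)
    (hD : ∀ i j, i ≤ k → j ≤ k → nth v y j ≠ nth u x i ∧ nth v y j ≠ τ (nth u x i)) :
    ∀ a b, a ≤ 2 * k → b ≤ 2 * k → half τ u x a ≠ half τ v y b := by
  intro a b ha hb hab
  rcases Nat.even_or_odd' a with ⟨i, rfl | rfl⟩ <;> rcases Nat.even_or_odd' b with ⟨j, rfl | rfl⟩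
  · rw [half_even, half_even] at hab
    exact (hD i j (by omega) (by omega)).1 hab.symm
  · rw [half_even, half_odd] at hab
    apply (hD i (j + 1) (by omega) (by omega)).2
    rw [hab, hinv]
  · rw [half_odd, half_even] at hab
    exact (hD (i + 1) j (by omega) (by omega)).2 hab.symm
  · rw [half_odd, half_odd] at hab
    have h2 : nth u x (i + 1) = nth v y (j + 1) := by
      have := congrArg τ hab
      rwa [hinv, hinv] at this
    exact (hD (i + 1) (j + 1) (by omega) (by omega)).1 h2.symm

variable [Fintype V]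

/-- A good pair of walks gives an augmenting path with `2k` matching edges. -/
theorem aug_of_good (G : SimpleGraph V) [DecidableRel G.Adj] (M : Finset (Sym2 V)) (u v : V)
    (huv : u ≠ v) (hunc : ∀ w : V, ¬ Covered M w ↔ (w = u ∨ w = v)) (τ : V → V)
    (hτ1 : ∀ x, Covered M x → s(x, τ x) ∈ M) (hτ2 : ∀ x, ¬ Covered M x → τ x = x)
    (hinv : ∀ x, τ (τ x) = x) (k : ℕ) (x y : List V)
    (hx : x ∈ walks (sc G τ) k u) (hy : y ∈ walks (sc G τ) k v) (hg : Good G τ u v x y) :
    IsAug G M u v (2 * k) (apath τ k u v x y) := by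
  obtain ⟨hxlen, hxw⟩ := mem_walks_elim _ _ _ _ hx
  obtain ⟨hylen, hyw⟩ := mem_walks_elim _ _ _ _ hy
  obtain ⟨hadj, hsx, hsy, hav⟩ := hg
  have hu : ¬ Covered M u := (hunc u).mpr (Or.inl rfl)
  have hv : ¬ Covered M v := (hunc v).mpr (Or.inr rfl)
  have hτu : τ u = u := hτ2 u hu
  have hτv : τ v = v := hτ2 v hv
  have hcov : ∀ z, τ z ≠ z → Covered M z := fun z hz => by
    by_contra hc
    exact hz (hτ2 z hc)
  have hXc : ∀ i, 1 ≤ i → i ≤ k → τ (nth u x i) ≠ nth u x i := by
    intro i h1 h2
    obtain ⟨i', rfl⟩ : ∃ i', i = i' + 1 := ⟨i - 1, by omega⟩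
    have := hxw i' (by omega)
    simp only [sc, mem_filter, mem_univ, true_and] at this
    exact this.1
  have hXa : ∀ i, i < k → G.Adj (nth u x i) (τ (nth u x (i + 1))) := by
    intro i h1
    have := hxw i h1
    simp only [sc, mem_filter, mem_univ, true_and] at this
    exact this.2
  have hYc : ∀ i, 1 ≤ i → i ≤ k → τ (nth v y i) ≠ nth v y i := by
    intro i h1 h2
    obtain ⟨i', rfl⟩ : ∃ i', i = i' + 1 := ⟨i - 1, by omega⟩
    have := hyw i' (by omega)
    simp only [sc, mem_filter, mem_univ, true_and] at this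
    exact this.1
  have hYa : ∀ i, i < k → G.Adj (nth v y i) (τ (nth v y (i + 1))) := by
    intro i h1
    have := hyw i h1
    simp only [sc, mem_filter, mem_univ, true_and] at this
    exact this.2
  have hXne : ∀ i, 1 ≤ i → i ≤ k → nth u x i ≠ u ∧ nth u x i ≠ v := by
    intro i h1 h2
    have hc := hcov _ (hXc i h1 h2)
    constructor
    · intro h
      rw [h] at hc
      exact hu hc
    · intro h
      rw [h] at hc
      exact hv hc
  have hYne : ∀ i, 1 ≤ i → i ≤ k → nth v y i ≠ u ∧ nth v y i ≠ v := by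
    intro i h1 h2
    have hc := hcov _ (hYc i h1 h2)
    constructor
    · intro h
      rw [h] at hc
      exact hu hc
    · intro h
      rw [h] at hc
      exact hv hc
  have ZX1 : ∀ i j, i < j → j ≤ k →
      nth u x j ≠ nth u x i ∧ nth u x j ≠ τ (nth u x i) := by
    intro i j hij hj
    rcases Nat.eq_zero_or_pos i with rfl | hi
    · rw [nth_zero, hτu]
      exact ⟨(hXne j (by omega) hj).1, (hXne j (by omega) hj).1⟩
    · exact simple_index τ u x hsx i j hi hij (by rw [hxlen]; exact hj)
  have ZY1 : ∀ i j, i < j → j ≤ k →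
      nth v y j ≠ nth v y i ∧ nth v y j ≠ τ (nth v y i) := by
    intro i j hij hj
    rcases Nat.eq_zero_or_pos i with rfl | hi
    · rw [nth_zero, hτv]
      exact ⟨(hYne j (by omega) hj).2, (hYne j (by omega) hj).2⟩
    · exact simple_index τ v y hsy i j hi hij (by rw [hylen]; exact hj)
  have hD : ∀ i j, i ≤ k → j ≤ k → nth v y j ≠ nth u x i ∧ nth v y j ≠ τ (nth u x i) := by
    intro i j hi hj
    rcases Nat.eq_zero_or_pos i with rfl | hi0
    · rw [nth_zero, hτu]
      rcases Nat.eq_zero_or_pos j with rfl | hj0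
      · rw [nth_zero]
        exact ⟨huv.symm, huv.symm⟩
      · exact ⟨(hYne j hj0 hj).1, (hYne j hj0 hj).1⟩
    · rcases Nat.eq_zero_or_pos j with rfl | hj0
      · rw [nth_zero]
        refine ⟨fun h => (hXne i hi0 hi).2 h.symm, fun h => ?_⟩
        have h2 : τ v = nth u x i := by rw [h, hinv]
        rw [hτv] at h2
        exact (hXne i hi0 hi).2 h2.symm
      · have hmemY : nth v y j ∈ y := nth_mem v y j hj0 (by rw [hylen]; exact hj)
        have hnot := hav _ hmemY
        have hmemX : nth u x i ∈ x := nth_mem u x i hi0 (by rw [hxlen]; exact hi)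
        constructor
        · intro h
          apply hnot
          rw [h]
          simp only [Tr, List.mem_toFinset, List.mem_append]
          exact Or.inl hmemX
        · intro h
          apply hnot
          rw [h]
          simp only [Tr, List.mem_toFinset, List.mem_append, List.mem_map]
          exact Or.inr ⟨_, hmemX, rfl⟩
  refine ⟨?_, ?_, ?_, ?_, ?_⟩
  · rw [apath_lo _ _ _ _ _ _ _ (by omega)]
    exact (half_even τ u x 0).trans (nth_zero u x)
  · rw [apath_hi _ _ _ _ _ _ _ (by omega)]
    have e : 4 * k + 1 - (2 * (2 * k) + 1) = 2 * 0 := by omega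
    rw [e, half_even, nth_zero]
  · intro a b ha hb hab
    by_cases ha' : a ≤ 2 * k <;> by_cases hb' : b ≤ 2 * k
    · rw [apath_lo _ _ _ _ _ _ _ ha', apath_lo _ _ _ _ _ _ _ hb'] at hab
      exact half_inj τ hinv u x k ZX1 hXc a b ha' hb' hab
    · rw [apath_lo _ _ _ _ _ _ _ ha', apath_hi _ _ _ _ _ _ _ (by omega)] at hab
      exact absurd hab (half_disj τ hinv u v x y k hD a (4 * k + 1 - b) ha' (by omega))
    · rw [apath_hi _ _ _ _ _ _ _ (by omega), apath_lo _ _ _ _ _ _ _ hb'] at hab
      exact absurd hab.symm (half_disj τ hinv u v x y k hD b (4 * k + 1 - a) hb' (by omega))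
    · rw [apath_hi _ _ _ _ _ _ _ (by omega), apath_hi _ _ _ _ _ _ _ (by omega)] at hab
      have := half_inj τ hinv v y k ZY1 hYc _ _ (by omega) (by omega) hab
      omega
  · intro i hi
    rcases lt_trichotomy i k with h | h | h
    · rw [apath_lo _ _ _ _ _ _ _ (by omega), apath_lo _ _ _ _ _ _ _ (by omega), half_even,
        half_odd]
      exact hXa i h
    · subst h
      rw [apath_lo _ _ _ _ _ _ _ (by omega), apath_hi _ _ _ _ _ _ _ (by omega), half_even]
      have e : 4 * i + 1 - (2 * i + 1) = 2 * i := by omega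
      rw [e, half_even]
      have e1 : wend u x = nth u x i := by unfold wend; rw [hxlen]
      have e2 : wend v y = nth v y i := by unfold wend; rw [hylen]
      rw [← e1, ← e2]
      exact hadj
    · rw [apath_hi _ _ _ _ _ _ _ (by omega), apath_hi _ _ _ _ _ _ _ (by omega)]
      obtain ⟨j, hj⟩ : ∃ j, i + j = 2 * k := ⟨2 * k - i, by omega⟩
      have e1 : 4 * k + 1 - 2 * i = 2 * j + 1 := by omega
      have e2 : 4 * k + 1 - (2 * i + 1) = 2 * j := by omega
      rw [e1, e2, half_odd, half_even]
      exact (hYa j (by omega)).symm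
  · intro i hi
    by_cases h : i < k
    · rw [apath_lo _ _ _ _ _ _ _ (by omega), apath_lo _ _ _ _ _ _ _ (by omega)]
      have e : 2 * i + 2 = 2 * (i + 1) := by ring
      rw [e, half_odd, half_even, Sym2.eq_swap]
      exact hτ1 _ (hcov _ (hXc (i + 1) (by omega) (by omega)))
    · rw [apath_hi _ _ _ _ _ _ _ (by omega), apath_hi _ _ _ _ _ _ _ (by omega)]
      obtain ⟨j, hj⟩ : ∃ j, i + j + 1 = 2 * k := ⟨2 * k - i - 1, by omega⟩
      have e1 : 4 * k + 1 - (2 * i + 1) = 2 * (j + 1) := by omega
      have e2 : 4 * k + 1 - (2 * i + 2) = 2 * j + 1 := by omega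
      rw [e1, e2, half_even, half_odd]
      exact hτ1 _ (hcov _ (hYc (j + 1) (by omega) (by omega)))

end Vale.Agent.Helper18.Exp
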