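import Mathlib
import Vale.Agent.Helper18.ExpGrow
import Vale.Agent.Helper18.ExpGood

namespace Vale.Agent.Helper18.Exp

open Finset

section Seqs

variable {α : Type*} [DecidableEq α]

/-- The lists of length `k` with entries in `P`. -/
def seqs (P : Finset α) : ℕ → Finset (List α)
  | 0 => {[]}
  | k + 1 => P.biUnion (fun r => (seqs P k).image (fun l => r :: l))

theorem sum_seqs_succ {β : Type*} [AddCommMonoid β] (P : Finset α) (k : ℕ) (F : List α → β) :
    ∑ l ∈ seqs P (k + 1), F l = ∑ r ∈ P, ∑ l ∈ seqs P k, F (r :: l) := by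
  show ∑ l ∈ P.biUnion (fun r => (seqs P k).image (fun l => r :: l)), F l = _
  rw [Finset.sum_biUnion]
  · apply Finset.sum_congr rfl
    intro r _
    rw [Finset.sum_image]
    intro a _ b _ h
    exact List.tail_eq_of_cons_eq h
  · intro a _ b _ hab
    show Disjoint _ _
    rw [Finset.disjoint_left]
    intro l hl hl'
    simp only [mem_image] at hl hl'
    obtain ⟨l1, -, rfl⟩ := hl
    obtain ⟨l2, -, h2⟩ := hl'
    exact hab (List.head_eq_of_cons_eq h2).symm

open Classical in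
theorem card_filter_seqs_succ (P : Finset α) (k : ℕ) (Pr : List α → Prop) :
    ((seqs P (k + 1)).filter Pr).card
      = ∑ r ∈ P, ((seqs P k).filter (fun l => Pr (r :: l))).card := by
  rw [Finset.card_filter, sum_seqs_succ]
  apply Finset.sum_congr rfl
  intro r _
  rw [Finset.card_filter]

/-- Compatibility of a list of rounds with a family of conditions indexed by the position. -/
def CmpG (Q : α → ℕ → Prop) : List α → ℕ → Prop
  | [], _ => True
  | r :: l, i => Q r i ∧ CmpG Q l (i + 1)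

omit [DecidableEq α] in
theorem cmpG_mono (Q Q' : α → ℕ → Prop) (n : ℕ) (h : ∀ r j, j < n → Q r j → Q' r j)
    (l : List α) (i : ℕ) (hl : i + l.length ≤ n) : CmpG Q l i → CmpG Q' l i := by
  induction l generalizing i with
  | nil => intro _; trivial
  | cons r l ih =>
    intro hc
    have hl' : i + (l.length + 1) ≤ n := by simpa using hl
    exact ⟨h r i (by omega) hc.1, ih (i + 1) (by omega) hc.2⟩

omit [DecidableEq α] in
theorem cmpG_shift (Q Q' : α → ℕ → Prop) (h : ∀ r i, Q r (i + 1) ↔ Q' r i) (l : List α)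
    (i : ℕ) : CmpG Q l (i + 1) ↔ CmpG Q' l i := by
  induction l generalizing i with
  | nil => exact Iff.rfl
  | cons r l ih =>
    show (Q r (i + 1) ∧ CmpG Q l (i + 1 + 1)) ↔ (Q' r i ∧ CmpG Q' l (i + 1))
    rw [h r i, ih (i + 1)]

open Classical in
theorem cmpG_count (P : Finset α) (Q : α → ℕ → Prop) (c b : ℕ)
    (h : ∀ i, c * (P.filter (fun r => Q r i)).card ≤ b * P.card) (k : ℕ) :
    ∀ i, c ^ k * ((seqs P k).filter (fun l => CmpG Q l i)).card ≤ b ^ k * P.card ^ k := by
  induction k with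
  | zero =>
    intro i
    have : (seqs P 0).filter (fun l => CmpG Q l i) = {[]} := by
      ext l
      simp only [seqs, mem_filter, mem_singleton]
      constructor
      · exact fun h => h.1
      · rintro rfl
        exact ⟨rfl, trivial⟩
    rw [this]
    simp
  | succ k ih =>
    intro i
    rw [card_filter_seqs_succ]
    have h1 : ∀ r ∈ P, ((seqs P k).filter (fun l => CmpG Q (r :: l) i)).card
        = if Q r i then ((seqs P k).filter (fun l => CmpG Q l (i + 1))).card else 0 := by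
      intro r _
      by_cases hq : Q r i
      · rw [if_pos hq]
        congr 1
        apply Finset.filter_congr
        intro l _
        show (Q r i ∧ CmpG Q l (i + 1)) ↔ CmpG Q l (i + 1)
        exact ⟨fun h => h.2, fun h => ⟨hq, h⟩⟩
      · rw [if_neg hq, Finset.card_eq_zero]
        apply Finset.filter_false_of_mem
        intro l _ hc
        exact hq hc.1
    rw [Finset.sum_congr rfl h1, ← Finset.sum_filter, Finset.sum_const, smul_eq_mul]
    calc c ^ (k + 1) * ((P.filter (fun r => Q r i)).card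
          * ((seqs P k).filter (fun l => CmpG Q l (i + 1))).card)
        = (c * (P.filter (fun r => Q r i)).card)
          * (c ^ k * ((seqs P k).filter (fun l => CmpG Q l (i + 1))).card) := by ring
      _ ≤ (b * P.card) * (b ^ k * P.card ^ k) := Nat.mul_le_mul (h i) (ih (i + 1))
      _ = b ^ (k + 1) * P.card ^ (k + 1) := by ring

end Seqs

variable {V : Type*} [DecidableEq V] [Fintype V]

/-- The walks `a :: x` and `b :: y` follow the picks of the round `r` at step `i`. -/
def QW (τ : V → V) (a b : V) (x y : List V) (r : (V × Fin 32 → V) × (V × Fin 32 → V))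
    (i : ℕ) : Prop :=
  (∃ j, r.1 (nth a x i, j) = τ (nth a x (i + 1))) ∧
    (∃ j, r.2 (nth b y i, j) = τ (nth b y (i + 1)))

/-- Some pair of walks of length `r` from the layers `Lu` and `Lv`, following the rounds `l`
and avoiding `T`, ends in adjacent vertices. -/
def Reach (G : SimpleGraph V) [DecidableRel G.Adj] (τ : V → V) (r : ℕ)
    (l : List ((V × Fin 32 → V) × (V × Fin 32 → V))) (Lu Lv T : Finset V) : Prop :=
  ∃ a ∈ Lu, ∃ b ∈ Lv, ∃ x y : List V,
    x ∈ walks (sc G τ) r a ∧ y ∈ walks (sc G τ) r b ∧ CmpG (QW τ a b x y) l 0 ∧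
    Simple τ x ∧ Simple τ y ∧ Avoid T x ∧ Avoid T y ∧ Avoid (Tr τ x) y ∧
    G.Adj (wend a x) (wend b y)

variable (G : SimpleGraph V) [DecidableRel G.Adj] (τ : V → V) (d : ℕ)

theorem reach_cons (hinv : ∀ x, τ (τ x) = x) (Ru Rv : V × Fin 32 → V) (hRu : Ru ∈ picks G)
    (hRv : Rv ∈ picks G) (Lu Lv T Lu' Lv' : Finset V)
    (hLu' : Lu' ⊆ newSet G τ Ru Lu T)
    (hLv' : Lv' ⊆ newSet G τ Rv Lv (T ∪ Lu' ∪ Lu'.image τ))
    (r : ℕ) (l : List ((V × Fin 32 → V) × (V × Fin 32 → V)))
    (h : Reach G τ r l Lu' Lv' (T ∪ Lu' ∪ Lu'.image τ ∪ Lv' ∪ Lv'.image τ)) :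
    Reach G τ (r + 1) ((Ru, Rv) :: l) Lu Lv T := by
  obtain ⟨a', ha', b', hb', x, y, hx, hy, hc, hsx, hsy, hax, hay, hxy, hadj⟩ := h
  have ha'' := hLu' ha'
  simp only [newSet, mem_filter, mem_univ, true_and] at ha''
  obtain ⟨hτa, haT, a0, ha0, ja, hja⟩ := ha''
  have hb'' := hLv' hb'
  simp only [newSet, mem_filter, mem_univ, true_and] at hb''
  obtain ⟨hτb, hbT', b0, hb0, jb, hjb⟩ := hb''
  have m5 : a' ∈ T ∪ Lu' ∪ Lu'.image τ := mem_union_left _ (mem_union_right _ ha')
  have m6 : τ a' ∈ T ∪ Lu' ∪ Lu'.image τ := mem_union_right _ (mem_image_of_mem τ ha')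
  have hsub' : T ∪ Lu' ∪ Lu'.image τ ⊆ T ∪ Lu' ∪ Lu'.image τ ∪ Lv' ∪ Lv'.image τ :=
    fun z hz => mem_union_left _ (mem_union_left _ hz)
  have hsub : T ⊆ T ∪ Lu' ∪ Lu'.image τ :=
    fun z hz => mem_union_left _ (mem_union_left _ hz)
  have m1 := hsub' m5
  have m2 := hsub' m6
  have m3 : b' ∈ T ∪ Lu' ∪ Lu'.image τ ∪ Lv' ∪ Lv'.image τ :=
    mem_union_left _ (mem_union_right _ hb')
  have m4 : τ b' ∈ T ∪ Lu' ∪ Lu'.image τ ∪ Lv' ∪ Lv'.image τ :=
    mem_union_right _ (mem_image_of_mem τ hb')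
  refine ⟨a0, ha0, b0, hb0, a' :: x, b' :: y, ?_, ?_, ?_, ?_, ?_, ?_, ?_, ?_, ?_⟩
  · show _ ∈ (sc G τ a0).biUnion (fun s' => (walks (sc G τ) r s').image (fun l => s' :: l))
    simp only [mem_biUnion, mem_image]
    refine ⟨a', ?_, x, hx, rfl⟩
    simp only [sc, mem_filter, mem_univ, true_and]
    refine ⟨hτa, ?_⟩
    rw [← hja]
    have := Fintype.mem_piFinset.mp hRu (a0, ja)
    exact (G.mem_neighborFinset _ _).mp this
  · show _ ∈ (sc G τ b0).biUnion (fun s' => (walks (sc G τ) r s').image (fun l => s' :: l))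
    simp only [mem_biUnion, mem_image]
    refine ⟨b', ?_, y, hy, rfl⟩
    simp only [sc, mem_filter, mem_univ, true_and]
    refine ⟨hτb, ?_⟩
    rw [← hjb]
    have := Fintype.mem_piFinset.mp hRv (b0, jb)
    exact (G.mem_neighborFinset _ _).mp this
  · show QW τ a0 b0 (a' :: x) (b' :: y) (Ru, Rv) 0
      ∧ CmpG (QW τ a0 b0 (a' :: x) (b' :: y)) l (0 + 1)
    refine ⟨⟨⟨ja, ?_⟩, ⟨jb, ?_⟩⟩, ?_⟩
    · show Ru (a0, ja) = τ (nth a' x 0)
      rw [nth_zero]
      exact hja
    · show Rv (b0, jb) = τ (nth b' y 0)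
      rw [nth_zero]
      exact hjb
    · exact (cmpG_shift _ (QW τ a' b' x y) (fun r i => Iff.rfl) l 0).mpr hc
  · rw [simple_cons]
    refine ⟨fun z hz => ⟨?_, ?_⟩, hsx⟩
    · rintro rfl
      exact hax z hz m1
    · rintro rfl
      exact hax _ hz m2
  · rw [simple_cons]
    refine ⟨fun z hz => ⟨?_, ?_⟩, hsy⟩
    · rintro rfl
      exact hay z hz m3
    · rintro rfl
      exact hay _ hz m4
  · rw [avoid_cons]
    exact ⟨haT, fun z hz hzT => hax z hz (hsub' (hsub hzT))⟩
  · rw [avoid_cons]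
    exact ⟨fun h => hbT' (hsub h), fun z hz hzT => hay z hz (hsub' (hsub hzT))⟩
  · intro z hz hzTr
    simp only [Tr, List.mem_toFinset, List.mem_append, List.mem_cons, List.map_cons,
      List.mem_map] at hzTr
    rcases List.mem_cons.mp hz with rfl | hzy
    · rcases hzTr with (h | h) | (h | ⟨w, hw, h⟩)
      · rw [h] at hbT'
        exact hbT' m5
      · exact hax z h m3
      · rw [h] at hbT'
        exact hbT' m6
      · have hw' : w = τ z := by rw [← h, hinv]
        rw [hw'] at hw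
        exact hax _ hw m4
    · rcases hzTr with (h | h) | (h | ⟨w, hw, h⟩)
      · rw [h] at hzy
        exact hay _ hzy m1
      · apply hxy z hzy
        simp only [Tr, List.mem_toFinset, List.mem_append]
        exact Or.inl h
      · rw [h] at hzy
        exact hay _ hzy m2
      · apply hxy z hzy
        simp only [Tr, List.mem_toFinset, List.mem_append, List.mem_map]
        exact Or.inr ⟨w, hw, h⟩
  · rw [wend_cons, wend_cons]
    exact hadj

omit [Fintype V] in
theorem union_card_le (T L : Finset V) (b c : ℕ) (hT : T.card ≤ b) (hL : L.card = c) :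
    (T ∪ L ∪ L.image τ).card ≤ b + 2 * c := by
  have h1 := Finset.card_union_le (T ∪ L) (L.image τ)
  have h2 := Finset.card_union_le T L
  have h3 : (L.image τ).card ≤ L.card := Finset.card_image_le
  omega

omit [Fintype V] in
theorem union_closed (hinv : ∀ x, τ (τ x) = x) (T L : Finset V) (hT : ∀ z ∈ T, τ z ∈ T) :
    ∀ z ∈ T ∪ L ∪ L.image τ, τ z ∈ T ∪ L ∪ L.image τ := by
  intro z hz
  rcases mem_union.mp hz with h | h
  · rcases mem_union.mp h with h | h
    · exact mem_union_left _ (mem_union_left _ (hT z h))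
    · exact mem_union_right _ (mem_image_of_mem τ h)
  · obtain ⟨w, hw, rfl⟩ := mem_image.mp h
    rw [hinv]
    exact mem_union_left _ (mem_union_right _ hw)

open Classical in
theorem reach_step_one (lam : ℝ) (hspec : Spec G d lam) (hreg : ∀ v, G.degree v = d)
    (hinv : ∀ x, τ (τ x) = x) (hlam0 : 0 ≤ lam) (hlam : 200 * lam ≤ d) (hd : 0 < d) (r : ℕ)
    (ih : ∀ (a : ℕ) (Lu Lv T : Finset V), 1 ≤ a → Lu.card = a → Lv.card = a → T.card ≤ 5 * a →
      (∀ z ∈ T, τ z ∈ T) → (∀ z, τ z = z → z ∈ T) →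
      20 * a * 8 ^ r ≤ Fintype.card V → Fintype.card V < 160 * a * 8 ^ r →
      ((picks G ×ˢ picks G).card) ^ r
        ≤ 4 ^ r * ((seqs (picks G ×ˢ picks G) r).filter (fun l => Reach G τ r l Lu Lv T)).card)
    (a : ℕ) (Lu Lv T : Finset V) (ha : 1 ≤ a) (hLu : Lu.card = a) (hLv : Lv.card = a)
    (hT : T.card ≤ 5 * a) (hTτ : ∀ z ∈ T, τ z ∈ T) (hTfix : ∀ z, τ z = z → z ∈ T)
    (hn1 : 20 * a * 8 ^ (r + 1) ≤ Fintype.card V)
    (hn2 : Fintype.card V < 160 * a * 8 ^ (r + 1))
    (Ru : V × Fin 32 → V) (hRu : Ru ∈ picks G) (hbig : 8 * a ≤ (newSet G τ Ru Lu T).card) :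
    (picks G).card * ((picks G ×ˢ picks G).card) ^ r
      ≤ 2 * 4 ^ r * ∑ Rv ∈ picks G, ((seqs (picks G ×ˢ picks G) r).filter
          (fun l => Reach G τ (r + 1) ((Ru, Rv) :: l) Lu Lv T)).card := by
  obtain ⟨Lu', hLu'sub, hLu'card⟩ := Finset.exists_subset_card_eq hbig
  have hpow : 1 ≤ 8 ^ r := Nat.one_le_pow _ _ (by norm_num)
  have e1 : 20 * a * 8 ^ (r + 1) = 160 * a * 8 ^ r := by ring
  have e2 : 160 * a * 8 ^ (r + 1) = 160 * (8 * a) * 8 ^ r := by ring
  have hna : 160 * a ≤ Fintype.card V := by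
    have : 160 * a * 1 ≤ 160 * a * 8 ^ r := Nat.mul_le_mul_left _ hpow
    omega
  have hT'card : (T ∪ Lu' ∪ Lu'.image τ).card ≤ 21 * a := by
    have := union_card_le τ T Lu' (5 * a) (8 * a) hT hLu'card
    omega
  have hT'τ := union_closed τ hinv T Lu' hTτ
  have hT'fix : ∀ z, τ z = z → z ∈ T ∪ Lu' ∪ Lu'.image τ :=
    fun z hz => mem_union_left _ (mem_union_left _ (hTfix z hz))
  have hg := grow G τ d lam hspec hreg hinv hlam0 hlam hd Lv (T ∪ Lu' ∪ Lu'.image τ) a ha hLv
    hT'card hT'τ hT'fix hna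
  have hRv : ∀ Rv ∈ (picks G).filter
        (fun R => 8 * a ≤ (newSet G τ R Lv (T ∪ Lu' ∪ Lu'.image τ)).card),
      ((picks G ×ˢ picks G).card) ^ r
        ≤ 4 ^ r * ((seqs (picks G ×ˢ picks G) r).filter
          (fun l => Reach G τ (r + 1) ((Ru, Rv) :: l) Lu Lv T)).card := by
    intro Rv hRv
    obtain ⟨hRvP, hRvbig⟩ := mem_filter.mp hRv
    obtain ⟨Lv', hLv'sub, hLv'card⟩ := Finset.exists_subset_card_eq hRvbig
    have hT''card : (T ∪ Lu' ∪ Lu'.image τ ∪ Lv' ∪ Lv'.image τ).card ≤ 5 * (8 * a) := by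
      have := union_card_le τ (T ∪ Lu' ∪ Lu'.image τ) Lv' (21 * a) (8 * a) hT'card hLv'card
      omega
    have hT''τ := union_closed τ hinv (T ∪ Lu' ∪ Lu'.image τ) Lv' hT'τ
    have hT''fix : ∀ z, τ z = z → z ∈ T ∪ Lu' ∪ Lu'.image τ ∪ Lv' ∪ Lv'.image τ :=
      fun z hz => mem_union_left _ (mem_union_left _ (hT'fix z hz))
    have h1 := ih (8 * a) Lu' Lv' (T ∪ Lu' ∪ Lu'.image τ ∪ Lv' ∪ Lv'.image τ) (by omega)
      hLu'card hLv'card hT''card hT''τ hT''fix
      (by
        have : 20 * (8 * a) * 8 ^ r = 20 * a * 8 ^ (r + 1) := by ring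
        omega)
      (by omega)
    refine le_trans h1 (Nat.mul_le_mul_left _ (Finset.card_le_card ?_))
    intro l hl
    rw [mem_filter] at hl ⊢
    exact ⟨hl.1, reach_cons G τ hinv Ru Rv hRu hRvP Lu Lv T Lu' Lv' hLu'sub hLv'sub r l hl.2⟩
  calc (picks G).card * ((picks G ×ˢ picks G).card) ^ r
      ≤ (2 * ((picks G).filter
          (fun R => 8 * a ≤ (newSet G τ R Lv (T ∪ Lu' ∪ Lu'.image τ)).card)).card)
          * ((picks G ×ˢ picks G).card) ^ r := Nat.mul_le_mul_right _ hg
    _ = 2 * ∑ _Rv ∈ (picks G).filter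
          (fun R => 8 * a ≤ (newSet G τ R Lv (T ∪ Lu' ∪ Lu'.image τ)).card),
          ((picks G ×ˢ picks G).card) ^ r := by
        rw [Finset.sum_const, smul_eq_mul]
        ring
    _ ≤ 2 * ∑ Rv ∈ (picks G).filter
          (fun R => 8 * a ≤ (newSet G τ R Lv (T ∪ Lu' ∪ Lu'.image τ)).card),
          4 ^ r * ((seqs (picks G ×ˢ picks G) r).filter
            (fun l => Reach G τ (r + 1) ((Ru, Rv) :: l) Lu Lv T)).card :=
        Nat.mul_le_mul_left _ (Finset.sum_le_sum hRv)
    _ ≤ 2 * ∑ Rv ∈ picks G,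
          4 ^ r * ((seqs (picks G ×ˢ picks G) r).filter
            (fun l => Reach G τ (r + 1) ((Ru, Rv) :: l) Lu Lv T)).card :=
        Nat.mul_le_mul_left _ (Finset.sum_le_sum_of_subset (Finset.filter_subset _ _))
    _ = 2 * 4 ^ r * ∑ Rv ∈ picks G, ((seqs (picks G ×ˢ picks G) r).filter
          (fun l => Reach G τ (r + 1) ((Ru, Rv) :: l) Lu Lv T)).card := by
        rw [← Finset.mul_sum]
        ring

open Classical in
theorem reach_count (lam : ℝ) (hspec : Spec G d lam) (hreg : ∀ v, G.degree v = d)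
    (hinv : ∀ x, τ (τ x) = x) (hlam0 : 0 ≤ lam) (hlam : 200 * lam ≤ d) (hd : 0 < d) (r : ℕ) :
    ∀ (a : ℕ) (Lu Lv T : Finset V), 1 ≤ a → Lu.card = a → Lv.card = a → T.card ≤ 5 * a →
      (∀ z ∈ T, τ z ∈ T) → (∀ z, τ z = z → z ∈ T) →
      20 * a * 8 ^ r ≤ Fintype.card V → Fintype.card V < 160 * a * 8 ^ r →
      ((picks G ×ˢ picks G).card) ^ r
        ≤ 4 ^ r * ((seqs (picks G ×ˢ picks G) r).filter
            (fun l => Reach G τ r l Lu Lv T)).card := by
  induction r with
  | zero =>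
    intro a Lu Lv T ha hLu hLv hT hTτ hTfix hn1 hn2
    have hN : 0 < Fintype.card V := by omega
    have hd' : (0 : ℝ) < (d : ℝ) := by exact_mod_cast hd
    have haR : (1 : ℝ) ≤ (a : ℝ) := by exact_mod_cast ha
    have hn2R : (Fintype.card V : ℝ) < 160 * (a : ℝ) := by
      have : Fintype.card V < 160 * a := by simpa using hn2
      exact_mod_cast this
    have hmix : lam * (Fintype.card V : ℝ) < (d : ℝ) * (a : ℝ) := by
      have h1 : lam * (Fintype.card V : ℝ) ≤ (d : ℝ) / 200 * (Fintype.card V : ℝ) :=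
        mul_le_mul_of_nonneg_right (by linarith) (by positivity)
      have h2 : (d : ℝ) / 200 * (Fintype.card V : ℝ) < (d : ℝ) / 200 * (160 * (a : ℝ)) :=
        mul_lt_mul_of_pos_left hn2R (by positivity)
      nlinarith
    obtain ⟨x0, hx0, y0, hy0, hadj⟩ := mix_edge G d lam hN hspec hlam0 Lu Lv a hLu hLv hmix
    have hmem : ([] : List ((V × Fin 32 → V) × (V × Fin 32 → V)))
        ∈ (seqs (picks G ×ˢ picks G) 0).filter (fun l => Reach G τ 0 l Lu Lv T) := by
      rw [mem_filter]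
      refine ⟨by simp [seqs], x0, hx0, y0, hy0, [], [], by simp [walks], by simp [walks],
        trivial, List.Pairwise.nil, List.Pairwise.nil, ?_, ?_, ?_, hadj⟩
      · intro z hz
        simp at hz
      · intro z hz
        simp at hz
      · intro z hz
        simp at hz
    have hpos : 0 < ((seqs (picks G ×ˢ picks G) 0).filter
        (fun l => Reach G τ 0 l Lu Lv T)).card := Finset.card_pos.mpr ⟨_, hmem⟩
    simp only [pow_zero, one_mul]
    exact hpos
  | succ r ih =>
    intro a Lu Lv T ha hLu hLv hT hTτ hTfix hn1 hn2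
    have hpow : 1 ≤ 8 ^ r := Nat.one_le_pow _ _ (by norm_num)
    have e1 : 20 * a * 8 ^ (r + 1) = 160 * a * 8 ^ r := by ring
    have hna : 160 * a ≤ Fintype.card V := by
      have : 160 * a * 1 ≤ 160 * a * 8 ^ r := Nat.mul_le_mul_left _ hpow
      omega
    have hg := grow G τ d lam hspec hreg hinv hlam0 hlam hd Lu T a ha hLu (by omega) hTτ hTfix
      hna
    have hstep : ∀ Ru ∈ (picks G).filter (fun R => 8 * a ≤ (newSet G τ R Lu T).card),
        (picks G).card * ((picks G ×ˢ picks G).card) ^ r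
          ≤ 2 * 4 ^ r * ∑ Rv ∈ picks G, ((seqs (picks G ×ˢ picks G) r).filter
              (fun l => Reach G τ (r + 1) ((Ru, Rv) :: l) Lu Lv T)).card := by
      intro Ru hRu
      obtain ⟨hRuP, hRubig⟩ := mem_filter.mp hRu
      exact reach_step_one G τ d lam hspec hreg hinv hlam0 hlam hd r ih a Lu Lv T ha hLu hLv hT
        hTτ hTfix hn1 hn2 Ru hRuP hRubig
    rw [card_filter_seqs_succ, Finset.sum_product]
    calc ((picks G ×ˢ picks G).card) ^ (r + 1)
        = (picks G).card * ((picks G).card * ((picks G ×ˢ picks G).card) ^ r) := by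
          rw [Finset.card_product]
          ring
      _ ≤ (2 * ((picks G).filter (fun R => 8 * a ≤ (newSet G τ R Lu T).card)).card)
            * ((picks G).card * ((picks G ×ˢ picks G).card) ^ r) := Nat.mul_le_mul_right _ hg
      _ = 2 * ∑ _Ru ∈ (picks G).filter (fun R => 8 * a ≤ (newSet G τ R Lu T).card),
            (picks G).card * ((picks G ×ˢ picks G).card) ^ r := by
          rw [Finset.sum_const, smul_eq_mul]
          ring
      _ ≤ 2 * ∑ Ru ∈ (picks G).filter (fun R => 8 * a ≤ (newSet G τ R Lu T).card),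
            2 * 4 ^ r * ∑ Rv ∈ picks G, ((seqs (picks G ×ˢ picks G) r).filter
              (fun l => Reach G τ (r + 1) ((Ru, Rv) :: l) Lu Lv T)).card :=
          Nat.mul_le_mul_left _ (Finset.sum_le_sum hstep)
      _ ≤ 2 * ∑ Ru ∈ picks G,
            2 * 4 ^ r * ∑ Rv ∈ picks G, ((seqs (picks G ×ˢ picks G) r).filter
              (fun l => Reach G τ (r + 1) ((Ru, Rv) :: l) Lu Lv T)).card :=
          Nat.mul_le_mul_left _ (Finset.sum_le_sum_of_subset (Finset.filter_subset _ _))
      _ = 4 ^ (r + 1) * ∑ Ru ∈ picks G, ∑ Rv ∈ picks G, ((seqs (picks G ×ˢ picks G) r).filter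
              (fun l => Reach G τ (r + 1) ((Ru, Rv) :: l) Lu Lv T)).card := by
          rw [← Finset.mul_sum]
          ring

open Classical in
/-- The top level of the exploration: from the two uncovered vertices. -/
theorem reach_top (lam : ℝ) (hspec : Spec G d lam) (hreg : ∀ v, G.degree v = d)
    (hinv : ∀ x, τ (τ x) = x) (hlam0 : 0 ≤ lam) (hlam : 200 * lam ≤ d) (hd : 0 < d) (k : ℕ)
    (u v : V) (hu : τ u = u) (hv : τ v = v) (hfix : ∀ z, τ z = z → z = u ∨ z = v)
    (hn1 : 20 * 8 ^ k ≤ Fintype.card V) (hn2 : Fintype.card V < 160 * 8 ^ k) :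
    ((picks G ×ˢ picks G).card) ^ k
      ≤ 4 ^ k * ((seqs (picks G ×ˢ picks G) k).filter (fun l => ∃ x y : List V,
          x ∈ walks (sc G τ) k u ∧ y ∈ walks (sc G τ) k v ∧ CmpG (QW τ u v x y) l 0 ∧
          Good G τ u v x y)).card := by
  classical
  have h1 := reach_count G τ d lam hspec hreg hinv hlam0 hlam hd k 1 {u} {v} {u, v} (le_refl _)
    (Finset.card_singleton u) (Finset.card_singleton v)
    (le_trans Finset.card_le_two (by norm_num))
    (by
      intro z hz
      rcases mem_insert.mp hz with rfl | hz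
      · rw [hu]; exact mem_insert_self _ _
      · rw [mem_singleton.mp hz, hv]
        exact mem_insert_of_mem (mem_singleton_self _))
    (by
      intro z hz
      rcases hfix z hz with rfl | rfl
      · exact mem_insert_self _ _
      · exact mem_insert_of_mem (mem_singleton_self _))
    (by simpa using hn1) (by simpa using hn2)
  refine le_trans h1 (Nat.mul_le_mul_left _ (Finset.card_le_card ?_))
  intro l hl
  rw [mem_filter] at hl ⊢
  refine ⟨hl.1, ?_⟩
  obtain ⟨a, ha, b, hb, x, y, hx, hy, hc, hsx, hsy, -, -, hxy, hadj⟩ := hl.2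
  rw [mem_singleton] at ha hb
  subst ha
  subst hb
  exact ⟨x, y, hx, hy, hc, hadj, hsx, hsy, hxy⟩

end Vale.Agent.Helper18.Exp
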