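import Mathlib

/-!
Real-arithmetic lemmas for the polynomial version of the P064 counting argument
(labour for helper8, round 2).
-/

namespace Vale.Agent.Helper18.KKArith2

/-- `k ^ k ≤ 3 ^ k * k !` over the reals. -/
theorem pow_self_le_three (k : ℕ) : (k : ℝ) ^ k ≤ 3 ^ k * k.factorial := by
  have h := Real.pow_div_factorial_le_exp (k : ℝ) (Nat.cast_nonneg k) k
  have h3 : Real.exp (k : ℝ) ≤ 3 ^ k := by
    have h4 : Real.exp (k : ℝ) = Real.exp 1 ^ k := by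
      rw [← Real.exp_nat_mul, mul_one]
    rw [h4]
    exact pow_le_pow_left₀ (Real.exp_pos 1).le Real.exp_one_lt_three.le k
  have hfpos : (0:ℝ) < (k.factorial : ℝ) := by exact_mod_cast Nat.factorial_pos k
  rw [div_le_iff₀ hfpos] at h
  calc (k : ℝ) ^ k ≤ Real.exp k * k.factorial := h
    _ ≤ 3 ^ k * k.factorial := mul_le_mul_of_nonneg_right h3 hfpos.le

theorem tail_term (v n s K : ℕ) (q : ℝ) (hq : 0 ≤ q) (hK : 8 * ((n:ℝ) * q) ≤ K)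
    (hs : K * v < s) :
    (2:ℝ)^(v+s) * (((v:ℝ)*n*q)^s / s.factorial) ≤ 2^v * (3/4:ℝ)^s := by
  have hfpos : (0:ℝ) < (s.factorial : ℝ) := by exact_mod_cast Nat.factorial_pos s
  have hx0 : (0:ℝ) ≤ (v:ℝ) * n * q := by positivity
  have hsR : ((K:ℝ) * v) < s := by exact_mod_cast hs
  have hv0 : (0:ℝ) ≤ (v:ℝ) := Nat.cast_nonneg v
  -- 2 * (v n q) ≤ s / 4
  have hx : 2 * ((v:ℝ) * n * q) ≤ (s:ℝ) / 4 := by
    have h1 : (v:ℝ) * (8 * ((n:ℝ) * q)) ≤ (v:ℝ) * K := mul_le_mul_of_nonneg_left hK hv0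
    nlinarith
  have h2x0 : (0:ℝ) ≤ 2 * ((v:ℝ) * n * q) := by positivity
  have hpow : (2 * ((v:ℝ) * n * q)) ^ s ≤ ((s:ℝ) / 4) ^ s :=
    pow_le_pow_left₀ h2x0 hx s
  have hss : ((s:ℝ) / 4) ^ s ≤ (3/4:ℝ) ^ s * s.factorial := by
    have h3 := pow_self_le_three s
    have h4 : ((s:ℝ) / 4) ^ s = (s:ℝ) ^ s * (1/4:ℝ) ^ s := by
      rw [div_eq_mul_one_div, mul_pow]
    have h5 : (3/4:ℝ) ^ s = 3 ^ s * (1/4:ℝ) ^ s := by
      rw [← mul_pow]; norm_num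
    rw [h4, h5]
    have h14 : (0:ℝ) ≤ (1/4:ℝ) ^ s := by positivity
    calc (s:ℝ) ^ s * (1/4:ℝ) ^ s ≤ (3 ^ s * s.factorial) * (1/4:ℝ) ^ s :=
          mul_le_mul_of_nonneg_right h3 h14
      _ = 3 ^ s * (1/4:ℝ) ^ s * s.factorial := by ring
  have hmain : (2:ℝ) ^ s * ((v:ℝ) * n * q) ^ s ≤ (3/4:ℝ) ^ s * s.factorial := by
    rw [← mul_pow]
    exact hpow.trans hss
  have h2v : (0:ℝ) ≤ (2:ℝ) ^ v := by positivity
  have hdiv : (2:ℝ) ^ s * ((v:ℝ) * n * q) ^ s / s.factorial ≤ (3/4:ℝ) ^ s := by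
    rw [div_le_iff₀ hfpos]
    exact hmain
  calc (2:ℝ)^(v+s) * (((v:ℝ)*n*q)^s / s.factorial)
      = 2 ^ v * ((2:ℝ) ^ s * ((v:ℝ) * n * q) ^ s / s.factorial) := by
        rw [pow_add]; ring
    _ ≤ 2 ^ v * (3/4:ℝ) ^ s := mul_le_mul_of_nonneg_left hdiv h2v

theorem tail_sum_eq (M : ℕ) :
    ∑ s ∈ Finset.range M, (3/4:ℝ)^s = 4 - 4 * (3/4:ℝ) ^ M := by
  induction M with
  | zero => simp
  | succ k ih =>
    rw [Finset.sum_range_succ, ih, pow_succ]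
    ring

theorem tail_sum (M : ℕ) : ∑ s ∈ Finset.range M, (3/4:ℝ)^s ≤ 4 := by
  rw [tail_sum_eq]
  have h : (0:ℝ) ≤ (3/4:ℝ) ^ M := by positivity
  linarith

theorem ceil_bound (x : ℝ) (hx : 0 ≤ x) : ((⌈8 * x⌉₊ + 1 : ℕ) : ℝ) + 1 ≤ 8 * (1 + x) := by
  have h8 : (0:ℝ) ≤ 8 * x := by positivity
  have h := Nat.ceil_lt_add_one h8
  push_cast
  linarith

theorem poly_final_aux (e v : ℕ) (q B : ℝ) (hq : 0 ≤ q) (hB1 : 1 ≤ B) (he : 1 ≤ e)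
    (hv : v ≤ e + 1) : 15 * q^e * B^v ≤ ((15 * B) * (B * q))^e := by
  have hB0 : (0:ℝ) ≤ B := by linarith
  have h1 : B ^ v ≤ B ^ (e + 1) := pow_le_pow_right₀ hB1 hv
  have h15 : (1:ℝ) ≤ 15 * B := by linarith
  have h2 : 15 * B ≤ (15 * B) ^ e := by
    calc 15 * B = (15 * B) ^ 1 := (pow_one _).symm
      _ ≤ (15 * B) ^ e := pow_le_pow_right₀ h15 he
  have hqe : (0:ℝ) ≤ 15 * q ^ e := by positivity
  have hBq : (0:ℝ) ≤ (B * q) ^ e := by positivity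
  have e1 : 15 * q ^ e * B ^ (e + 1) = (15 * B) * (B * q) ^ e := by
    rw [mul_pow, pow_succ]; ring
  have e2 : (15 * B) ^ e * (B * q) ^ e = ((15 * B) * (B * q)) ^ e := by
    rw [← mul_pow]
  calc 15 * q^e * B ^ v ≤ 15 * q ^ e * B ^ (e + 1) :=
        mul_le_mul_of_nonneg_left h1 hqe
    _ = (15 * B) * (B * q) ^ e := e1
    _ ≤ (15 * B) ^ e * (B * q) ^ e := mul_le_mul_of_nonneg_right h2 hBq
    _ = ((15 * B) * (B * q)) ^ e := e2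

theorem poly_final (e v n : ℕ) (q : ℝ) (hq : 0 ≤ q) (he : 1 ≤ e) (hv : v ≤ e + 1) :
    15 * q^e * (96 * (1 + (n:ℝ) * q))^v ≤ (138240 * (1 + (n:ℝ)*q)^2 * q)^e := by
  have hx0 : (0:ℝ) ≤ (n:ℝ) * q := by positivity
  have hB1 : (1:ℝ) ≤ 96 * (1 + (n:ℝ) * q) := by nlinarith
  have h := poly_final_aux e v q (96 * (1 + (n:ℝ) * q)) hq hB1 he hv
  have hfin : (138240 * (1 + (n:ℝ)*q)^2 * q) =
      (15 * (96 * (1 + (n:ℝ) * q))) * ((96 * (1 + (n:ℝ) * q)) * q) := by ring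
  rw [hfin]
  exact h

theorem dense_trivial (n : ℕ) (q : ℝ) (hq : 0 ≤ q) (h : ¬ (q < 1 ∧ (n:ℝ) * q^2 ≤ 1)) :
    1 ≤ 138240 * (1 + (n:ℝ)*q)^2 * q := by
  have hx0 : (0:ℝ) ≤ (n:ℝ) * q := by positivity
  by_cases hq1 : q < 1
  · have hn : 1 < (n:ℝ) * q^2 := by
      by_contra hcon
      exact h ⟨hq1, not_lt.mp hcon⟩
    -- n q > 1
    have hnq : 1 < (n:ℝ) * q := by
      by_contra hcon
      have hle : (n:ℝ) * q ≤ 1 := not_lt.mp hcon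
      have : (n:ℝ) * q ^ 2 ≤ 1 := by
        have h1 : (n:ℝ) * q ^ 2 = ((n:ℝ) * q) * q := by ring
        rw [h1]
        nlinarith
      linarith
    -- (1 + nq)^2 q ≥ (nq)^2 q = (n q^2) (n q) > 1
    have h1 : ((n:ℝ) * q) ^ 2 * q = ((n:ℝ) * q ^ 2) * ((n:ℝ) * q) := by ring
    have h2 : 1 < ((n:ℝ) * q) ^ 2 * q := by
      rw [h1]; nlinarith
    have h3 : ((n:ℝ) * q) ^ 2 * q ≤ (1 + (n:ℝ) * q) ^ 2 * q := by
      apply mul_le_mul_of_nonneg_right _ hq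
      nlinarith
    nlinarith
  · have hq1' : 1 ≤ q := not_lt.mp hq1
    have h1 : (1:ℝ) ≤ (1 + (n:ℝ) * q) ^ 2 := by nlinarith
    nlinarith

end Vale.Agent.Helper18.KKArith2
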