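import Mathlib
import Vale.Agent.Helper18.KKArith

/-!
Real-arithmetic lemmas for the tree version of the P064 counting argument.
-/

namespace Vale.Agent.Helper18.KKArith3

open Vale.Agent.Helper18.KKArith

/-- `n * ((n-1)/e)^(v-1) ≤ n (n-1) ... (n-v+1)` for `1 ≤ v ≤ n`. -/
theorem descFactorial_ge (n v : ℕ) (hv1 : 1 ≤ v) (hvn : v ≤ n) :
    (n:ℝ) * (((n:ℝ) - 1) / Real.exp 1) ^ (v - 1) ≤ (n.descFactorial v : ℝ) := by
  obtain ⟨w, rfl⟩ : ∃ w, v = w + 1 := ⟨v - 1, by omega⟩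
  obtain ⟨k, rfl⟩ : ∃ k, n = k + 1 := ⟨n - 1, by omega⟩
  have hwk : w ≤ k := by omega
  have h := pow_le_exp_descFactorial k w hwk
  rw [Nat.succ_descFactorial_succ]
  have e1 : w + 1 - 1 = w := by omega
  rw [e1]
  push_cast
  have hk : ((k:ℝ) + 1 - 1) = k := by ring
  rw [hk]
  have hexp : (0:ℝ) < Real.exp 1 ^ w := by positivity
  have hew : Real.exp (w:ℝ) = Real.exp 1 ^ w := by
    rw [← Real.exp_nat_mul, mul_one]
  rw [hew] at h
  have h2 : ((k:ℝ) / Real.exp 1) ^ w ≤ (k.descFactorial w : ℝ) := by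
    rw [div_pow, div_le_iff₀ hexp]
    linarith [h]
  have hk1 : (0:ℝ) ≤ (k:ℝ) + 1 := by positivity
  exact mul_le_mul_of_nonneg_left h2 hk1

/-- `n * (n/(2e))^(v-1) ≤ n (n-1) ... (n-v+1)` for `1 ≤ v ≤ n`, `2 ≤ n`. -/
theorem descFactorial_ge' (n v : ℕ) (hn : 2 ≤ n) (hv1 : 1 ≤ v) (hvn : v ≤ n) :
    (n:ℝ) * ((n:ℝ) / (2 * Real.exp 1)) ^ (v - 1) ≤ (n.descFactorial v : ℝ) := by
  have h := descFactorial_ge n v hv1 hvn
  have hn2 : (2:ℝ) ≤ n := by exact_mod_cast hn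
  have he : (0:ℝ) < Real.exp 1 := Real.exp_pos 1
  have hle : (n:ℝ) / (2 * Real.exp 1) ≤ ((n:ℝ) - 1) / Real.exp 1 := by
    rw [div_le_div_iff₀ (by positivity) he]
    nlinarith
  have h0 : (0:ℝ) ≤ (n:ℝ) / (2 * Real.exp 1) := by positivity
  have hpow : ((n:ℝ) / (2 * Real.exp 1)) ^ (v - 1) ≤ (((n:ℝ) - 1) / Real.exp 1) ^ (v - 1) :=
    pow_le_pow_left₀ h0 hle _
  have hn0 : (0:ℝ) ≤ n := by positivity
  exact (mul_le_mul_of_nonneg_left hpow hn0).trans h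

/-- Degree bound: if `1 ≤ n * C(n,d) * q^d` then `d ≤ max (e^2 n q) (log n)`. -/
theorem degree_arith (n d : ℕ) (q : ℝ) (hq : 0 ≤ q)
    (h : 1 ≤ (n:ℝ) * (n.choose d) * q ^ d) :
    (d:ℝ) ≤ max (Real.exp 2 * n * q) (Real.log n) := by
  by_contra hcon
  rw [not_le, max_lt_iff] at hcon
  obtain ⟨h1, h2⟩ := hcon
  have hx0 : (0:ℝ) ≤ Real.exp 2 * n * q := by positivity
  have hdpos : (0:ℝ) < d := lt_of_le_of_lt hx0 h1
  have hd1 : 1 ≤ d := by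
    have : (0:ℝ) < (d:ℝ) := hdpos
    exact_mod_cast this
  have hfpos : (0:ℝ) < (d.factorial : ℝ) := by exact_mod_cast Nat.factorial_pos d
  -- C(n,d) ≤ n^d / d!
  have hch : ((n.choose d : ℕ) : ℝ) ≤ (n:ℝ) ^ d / d.factorial := Nat.choose_le_pow_div d n
  -- d^d ≤ e^d d!
  have hdd := Real.pow_div_factorial_le_exp (d:ℝ) (Nat.cast_nonneg d) d
  rw [div_le_iff₀ hfpos] at hdd
  have hed : Real.exp (d:ℝ) = Real.exp 1 ^ d := by
    rw [← Real.exp_nat_mul, mul_one]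
  -- n q ≤ d / e^2
  have he2 : Real.exp 2 = Real.exp 1 * Real.exp 1 := by
    rw [← Real.exp_add]; norm_num
  have he1 : (0:ℝ) < Real.exp 1 := Real.exp_pos 1
  have hnq0 : (0:ℝ) ≤ (n:ℝ) * q := by positivity
  -- (n q)^d * e^d ≤ (d / e)^d
  have hnq : (n:ℝ) * q * Real.exp 1 ≤ (d:ℝ) / Real.exp 1 := by
    rw [le_div_iff₀ he1]
    have : Real.exp 2 * n * q = (n:ℝ) * q * Real.exp 1 * Real.exp 1 := by rw [he2]; ring
    linarith
  have hpow : ((n:ℝ) * q * Real.exp 1) ^ d ≤ ((d:ℝ) / Real.exp 1) ^ d :=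
    pow_le_pow_left₀ (by positivity) hnq d
  -- combine: 1 ≤ n * (n^d / d!) * q^d
  have hq0 : (0:ℝ) ≤ q ^ d := by positivity
  have hn0 : (0:ℝ) ≤ (n:ℝ) := by positivity
  have hA : (1:ℝ) ≤ (n:ℝ) * ((n:ℝ) ^ d / d.factorial) * q ^ d := by
    calc (1:ℝ) ≤ (n:ℝ) * (n.choose d) * q ^ d := h
      _ ≤ (n:ℝ) * ((n:ℝ) ^ d / d.factorial) * q ^ d :=
          mul_le_mul_of_nonneg_right (mul_le_mul_of_nonneg_left hch hn0) hq0
  -- so d! ≤ n * (n q)^d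
  have hB : (d.factorial : ℝ) ≤ (n:ℝ) * ((n:ℝ) * q) ^ d := by
    have e1 : (n:ℝ) * ((n:ℝ) ^ d / d.factorial) * q ^ d
        = (n:ℝ) * ((n:ℝ) * q) ^ d / d.factorial := by
      rw [mul_pow]; field_simp
    rw [e1, le_div_iff₀ hfpos] at hA
    linarith
  -- d^d ≤ e^d d! ≤ e^d n (nq)^d = n (n q e)^d ≤ n (d/e)^d
  have hC : (d:ℝ) ^ d ≤ (n:ℝ) * ((d:ℝ) / Real.exp 1) ^ d := by
    have hee : (0:ℝ) ≤ Real.exp 1 ^ d := by positivity
    calc (d:ℝ) ^ d ≤ Real.exp (d:ℝ) * d.factorial := hdd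
      _ = Real.exp 1 ^ d * d.factorial := by rw [hed]
      _ ≤ Real.exp 1 ^ d * ((n:ℝ) * ((n:ℝ) * q) ^ d) := mul_le_mul_of_nonneg_left hB hee
      _ = (n:ℝ) * ((n:ℝ) * q * Real.exp 1) ^ d := by rw [mul_pow ((n:ℝ) * q)]; ring
      _ ≤ (n:ℝ) * ((d:ℝ) / Real.exp 1) ^ d := mul_le_mul_of_nonneg_left hpow hn0
  -- hence e^d ≤ n
  have hD : Real.exp (d:ℝ) ≤ (n:ℝ) := by
    rw [div_pow] at hC
    have hdd0 : (0:ℝ) < (d:ℝ) ^ d := by positivity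
    have hee : (0:ℝ) < Real.exp 1 ^ d := by positivity
    have hC' : (d:ℝ) ^ d * Real.exp 1 ^ d ≤ (n:ℝ) * (d:ℝ) ^ d := by
      have := mul_le_mul_of_nonneg_right hC hee.le
      calc (d:ℝ) ^ d * Real.exp 1 ^ d ≤ (n:ℝ) * ((d:ℝ) ^ d / Real.exp 1 ^ d) * Real.exp 1 ^ d := this
        _ = (n:ℝ) * (d:ℝ) ^ d := by field_simp
    rw [hed]
    have : Real.exp 1 ^ d * (d:ℝ) ^ d ≤ (n:ℝ) * (d:ℝ) ^ d := by linarith
    exact le_of_mul_le_mul_right this hdd0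
  have hnpos : (0:ℝ) < (n:ℝ) := lt_of_lt_of_le (Real.exp_pos _) hD
  have hE : (d:ℝ) ≤ Real.log n := by
    have := Real.log_le_log (Real.exp_pos _) hD
    rwa [Real.log_exp] at this
  linarith

/-- Final ratio arithmetic for trees. -/
theorem tree_final (n k : ℕ) (q Δ : ℝ) (hn : 2 ≤ n) (hq : 0 ≤ q) (hΔ0 : 0 ≤ Δ)
    (hΔ : Δ ≤ max (Real.exp 2 * n * q) (Real.log n)) :
    (2 * Real.exp 1 * Δ / n) ^ k ≤ (6 * max (8 * q) (Real.log n / n)) ^ k := by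
  have hn2 : (2:ℝ) ≤ n := by exact_mod_cast hn
  have hnpos : (0:ℝ) < (n:ℝ) := by linarith
  have he1 : (0:ℝ) < Real.exp 1 := Real.exp_pos 1
  have he3 : Real.exp 1 < 3 := Real.exp_one_lt_three
  have he2 : Real.exp 2 = Real.exp 1 * Real.exp 1 := by
    rw [← Real.exp_add]; norm_num
  have he28 : Real.exp 2 ≤ 8 := by
    have h9 := Real.exp_one_lt_d9
    rw [he2]
    nlinarith
  have hbase0 : (0:ℝ) ≤ 2 * Real.exp 1 * Δ / n := by positivity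
  apply pow_le_pow_left₀ hbase0
  -- Δ / n ≤ max (8 q) (log n / n)
  have hΔn : Δ / n ≤ max (8 * q) (Real.log n / n) := by
    rw [div_le_iff₀ hnpos]
    rcases le_max_iff.mp hΔ with h1 | h1
    · have : Real.exp 2 * n * q ≤ 8 * q * n := by
        have hnq : (0:ℝ) ≤ (n:ℝ) * q := by positivity
        nlinarith
      have h2 : 8 * q * n ≤ max (8 * q) (Real.log n / n) * n :=
        mul_le_mul_of_nonneg_right (le_max_left _ _) hnpos.le
      linarith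
    · have h2 : Real.log n / n * n ≤ max (8 * q) (Real.log n / n) * n :=
        mul_le_mul_of_nonneg_right (le_max_right _ _) hnpos.le
      have h3 : Real.log n / n * n = Real.log n := by field_simp
      linarith
  have hm0 : (0:ℝ) ≤ max (8 * q) (Real.log n / n) :=
    le_trans (by positivity) (le_max_left _ _)
  have hΔn0 : (0:ℝ) ≤ Δ / n := by positivity
  calc 2 * Real.exp 1 * Δ / n = (2 * Real.exp 1) * (Δ / n) := by ring
    _ ≤ 6 * (Δ / n) := mul_le_mul_of_nonneg_right (by linarith) hΔn0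
    _ ≤ 6 * max (8 * q) (Real.log n / n) := mul_le_mul_of_nonneg_left hΔn (by norm_num)

end Vale.Agent.Helper18.KKArith3
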