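import Vale.Agent.Helper18.Biased

/-!
# Boolean functions with nonnegative discrete derivatives: the level-one sum in low degree

For a function `f` on the cube, `pPoly f` is the polynomial `t ↦ E_{mu_t} f`, whose derivative at
`0` is the level-one sum.  If all discrete derivatives of `f` are nonnegative, the derivative of
`pPoly f` is nonnegative on `[-1,1]`, and quadrature rules with nonnegative weights bound its
value at `0`.
-/

namespace Vale.Agent.Helper18.Cube

open Finset Polynomial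

variable {n : ℕ}


theorem yb_empty (t : ℝ) (x : Fin n → ℤˣ) : yb t ∅ x = 1 := by
  unfold yb
  simp

theorem sum_wt_yb (t : ℝ) (U : Finset (Fin n)) :
    ∑ x : Fin n → ℤˣ, wt t x * yb t U x = if U = ∅ then 1 else 0 := by
  have h := ortho (n := n) t U ∅
  simp only [yb_empty, mul_one] at h
  rw [h]
  split_ifs with h1
  · subst h1
    simp
  · rfl

/-- The biased mean of the discrete derivative is the biased level-one coefficient. -/
theorem mean_kb (f : (Fin n → ℤˣ) → ℝ) (t : ℝ) (i : Fin n) :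
    ∑ x : Fin n → ℤˣ, wt t x * kb f t i x = cb f t {i} := by
  unfold kb
  simp_rw [Finset.mul_sum]
  rw [Finset.sum_comm]
  have h : ∀ T : Finset (Fin n), ∑ x : Fin n → ℤˣ,
      wt t x * (if i ∈ T then cb f t T * yb t (T.erase i) x else 0)
      = if T = {i} then cb f t T else 0 := by
    intro T
    by_cases hT : i ∈ T
    · simp only [hT, if_true]
      have e : ∀ x : Fin n → ℤˣ, wt t x * (cb f t T * yb t (T.erase i) x)
          = cb f t T * (wt t x * yb t (T.erase i) x) := fun x => by ring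
      simp_rw [e]
      rw [← Finset.mul_sum, sum_wt_yb]
      by_cases hT2 : T = {i}
      · subst hT2
        simp
      · rw [if_neg hT2, if_neg]
        · ring
        · intro he
          apply hT2
          rw [← Finset.insert_erase hT, he]
          rfl
    · simp only [hT, if_false, mul_zero, Finset.sum_const_zero]
      rw [if_neg]
      intro he
      exact hT (he ▸ Finset.mem_singleton_self i)
  simp_rw [h]
  simp

/-- The discrete derivative of `f` in direction `i`. -/
noncomputable def dd (f : (Fin n → ℤˣ) → ℝ) (i : Fin n) (x : Fin n → ℤˣ) : ℝ :=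
  xr x i * ((f x - f (flip i x)) / 2)

theorem mean_dd (f : (Fin n → ℤˣ) → ℝ) (t : ℝ) (i : Fin n) :
    ∑ x : Fin n → ℤˣ, wt t x * dd f i x = cb f t {i} := by
  rw [← mean_kb]
  refine Finset.sum_congr rfl (fun x _ => ?_)
  rw [kb_val]
  rfl

/-- The point of the cube all of whose coordinates equal `u`. -/
def pole (u : ℤˣ) : Fin n → ℤˣ := fun _ => u

theorem wt_pole (u : ℤˣ) (x : Fin n → ℤˣ) :
    wt (((u : ℤ) : ℝ)) x = if x = pole u then 1 else 0 := by
  unfold wt
  split_ifs with h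
  · subst h
    refine Finset.prod_eq_one (fun i _ => ?_)
    unfold xr pole
    rcases Int.units_eq_one_or u with hu | hu <;> simp [hu]
  · obtain ⟨i, hi⟩ := Function.ne_iff.mp h
    apply Finset.prod_eq_zero (Finset.mem_univ i)
    unfold xr
    unfold pole at hi
    rcases Int.units_eq_one_or u with hu | hu <;>
      rcases Int.units_eq_one_or (x i) with hx | hx <;> simp_all

theorem mean_pole (u : ℤˣ) (h : (Fin n → ℤˣ) → ℝ) :
    ∑ x : Fin n → ℤˣ, wt (((u : ℤ) : ℝ)) x * h x = h (pole u) := by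
  simp_rw [wt_pole]
  simp

/-- The first derivative of `pPoly f` at `1` or `-1`. -/
theorem der_pole (f : (Fin n → ℤˣ) → ℝ) (u : ℤˣ) :
    (Polynomial.derivative (pPoly f)).eval (((u : ℤ) : ℝ)) = ∑ i : Fin n, dd f i (pole u) := by
  rw [pPoly_derivative_eval]
  refine Finset.sum_congr rfl (fun i _ => ?_)
  rw [← mean_dd, mean_pole]

theorem der_eq_sum (f : (Fin n → ℤˣ) → ℝ) :
    Polynomial.derivative (pPoly f) = ∑ i : Fin n, pPoly (dd f i) := by
  apply Polynomial.funext
  intro t
  rw [pPoly_derivative_eval, Polynomial.eval_finsetSum]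
  refine Finset.sum_congr rfl (fun i _ => ?_)
  rw [pPoly_eval, ← mean_eq, mean_dd]

/-- The second derivative of `pPoly f` at `1` or `-1`. -/
theorem der2_pole (f : (Fin n → ℤˣ) → ℝ) (u : ℤˣ) :
    (Polynomial.derivative (Polynomial.derivative (pPoly f))).eval (((u : ℤ) : ℝ))
      = ∑ i : Fin n, ∑ j : Fin n, dd (dd f i) j (pole u) := by
  rw [der_eq_sum, Polynomial.derivative_sum, Polynomial.eval_finsetSum]
  refine Finset.sum_congr rfl (fun i _ => ?_)
  rw [der_pole]





theorem flip_flip (i : Fin n) (x : Fin n → ℤˣ) : flip i (flip i x) = x := by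
  unfold flip
  simp

theorem flip_comm (i j : Fin n) (h : i ≠ j) (x : Fin n → ℤˣ) :
    flip i (flip j x) = flip j (flip i x) := by
  unfold flip
  rw [Function.update_of_ne h, Function.update_of_ne (Ne.symm h)]
  exact Function.update_comm (Ne.symm h) _ _ _

theorem dd_flip_self (f : (Fin n → ℤˣ) → ℝ) (i : Fin n) (x : Fin n → ℤˣ) :
    dd f i (flip i x) = dd f i x := by
  unfold dd
  rw [xr_flip_self, flip_flip]
  ring

theorem xr_pole (u : ℤˣ) (i : Fin n) : xr (pole u) i = ((u : ℤ) : ℝ) := rfl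

theorem unit_cases (u : ℤˣ) : (((u : ℤ) : ℝ)) = 1 ∨ (((u : ℤ) : ℝ)) = -1 := by
  rcases Int.units_eq_one_or u with h | h <;> simp [h]

theorem pole_ineq (r A B C D : ℝ) (hr : r = 1 ∨ r = -1) (hA : A = 1 ∨ A = -1)
    (hB : B = 1 ∨ B = -1) (hC : C = 1 ∨ C = -1) (hD : D = 1 ∨ D = -1)
    (h1 : 0 ≤ r * ((A - B) / 2)) (h2 : 0 ≤ r * ((A - C) / 2))
    (h3 : 0 ≤ r * ((C - D) / 2)) (h4 : 0 ≤ r * ((B - D) / 2)) :
    r * (r * ((r * ((A - B) / 2) - r * ((C - D) / 2)) / 2))
      ≤ (r * ((A - B) / 2)) * (r * ((A - C) / 2)) / 2 := by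
  rcases hr with rfl | rfl <;> rcases hA with rfl | rfl <;> rcases hB with rfl | rfl <;>
    rcases hC with rfl | rfl <;> rcases hD with rfl | rfl <;>
    first | (norm_num; done) | linarith

theorem pole_sq (r A B : ℝ) (hr : r = 1 ∨ r = -1) (hA : A = 1 ∨ A = -1)
    (hB : B = 1 ∨ B = -1) (h1 : 0 ≤ r * ((A - B) / 2)) :
    (r * ((A - B) / 2)) * (r * ((A - B) / 2)) = r * ((A - B) / 2) := by
  rcases hr with rfl | rfl <;> rcases hA with rfl | rfl <;> rcases hB with rfl | rfl <;>
    first | (norm_num; done) | linarith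

/-- The termwise bound on the second discrete derivatives at a pole, for a Boolean function
all of whose discrete derivatives are nonnegative. -/
theorem dd_dd_pole_le (f : (Fin n → ℤˣ) → ℝ) (hf : ∀ x, f x = 1 ∨ f x = -1)
    (hdd : ∀ (i : Fin n) (x : Fin n → ℤˣ), 0 ≤ dd f i x) (u : ℤˣ) (i j : Fin n) :
    ((u : ℤ) : ℝ) * dd (dd f i) j (pole u)
      ≤ (dd f i (pole u) * dd f j (pole u) - if i = j then dd f i (pole u) else 0) / 2 := by
  by_cases hij : i = j
  · subst hij
    have e1 : dd (dd f i) i (pole u) = 0 := by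
      show xr (pole u) i * ((dd f i (pole u) - dd f i (flip i (pole u))) / 2) = 0
      rw [dd_flip_self]
      ring
    rw [e1, if_pos rfl]
    have e2 : dd f i (pole u) * dd f i (pole u) = dd f i (pole u) := by
      have h1 := hdd i (pole u)
      unfold dd at h1 ⊢
      rw [xr_pole] at h1 ⊢
      exact pole_sq _ _ _ (unit_cases u) (hf _) (hf _) h1
    rw [e2]
    simp
  · rw [if_neg hij, sub_zero]
    have h1 := hdd i (pole u)
    have h2 := hdd j (pole u)
    have h3 := hdd i (flip j (pole u))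
    have h4 := hdd j (flip i (pole u))
    have hji : j ≠ i := fun e => hij e.symm
    have key : dd (dd f i) j (pole u) = ((u : ℤ) : ℝ) *
        ((((u : ℤ) : ℝ) * ((f (pole u) - f (flip i (pole u))) / 2)
          - ((u : ℤ) : ℝ) * ((f (flip j (pole u)) - f (flip i (flip j (pole u)))) / 2)) / 2) := by
      show xr (pole u) j * ((dd f i (pole u) - dd f i (flip j (pole u))) / 2) = _
      unfold dd
      rw [xr_flip_ne j i hij, xr_pole, xr_pole]
    rw [key]
    unfold dd at h1 h2 h3 h4 ⊢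
    rw [xr_pole] at h1 h2
    rw [xr_flip_ne j i hij, xr_pole] at h3
    rw [xr_flip_ne i j hji, xr_pole, flip_comm j i hji] at h4
    rw [xr_pole, xr_pole]
    exact pole_ineq _ _ _ _ _ (unit_cases u) (hf _) (hf _) (hf _) (hf _) h1 h2 h3 h4

theorem eval_range (P : ℝ[X]) (N : ℕ) (h : P.natDegree ≤ N) (t : ℝ) :
    P.eval t = ∑ k ∈ range (N + 1), P.coeff k * t ^ k :=
  Polynomial.eval_eq_sum_range' (Nat.lt_succ_of_le h) t

theorem der_eval_range (P : ℝ[X]) (N : ℕ) (h : P.natDegree ≤ N + 1) (t : ℝ) :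
    (derivative P).eval t = ∑ k ∈ range (N + 1), (P.coeff (k + 1) * ((k : ℝ) + 1)) * t ^ k := by
  have h1 : (derivative P).natDegree ≤ N :=
    (Polynomial.natDegree_derivative_le P).trans (by omega)
  rw [eval_range _ N h1]
  refine Finset.sum_congr rfl (fun k _ => ?_)
  rw [Polynomial.coeff_derivative]

theorem der2_eval_range (P : ℝ[X]) (N : ℕ) (h : P.natDegree ≤ N + 2) (t : ℝ) :
    (derivative (derivative P)).eval t
      = ∑ k ∈ range (N + 1), (P.coeff (k + 2) * ((k : ℝ) + 2) * ((k : ℝ) + 1)) * t ^ k := by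
  have h1 : (derivative P).natDegree ≤ N + 1 :=
    (Polynomial.natDegree_derivative_le P).trans (by omega)
  rw [der_eval_range _ N h1]
  refine Finset.sum_congr rfl (fun k _ => ?_)
  rw [Polynomial.coeff_derivative]
  push_cast
  ring

theorem simpson (P : ℝ[X]) (h : P.natDegree ≤ 4) :
    P.eval 1 - P.eval (-1) = 1 / 3 * (derivative P).eval (-1) + 4 / 3 * (derivative P).eval 0
      + 1 / 3 * (derivative P).eval 1 := by
  rw [eval_range P 4 h, eval_range P 4 h, der_eval_range P 3 h, der_eval_range P 3 h,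
    der_eval_range P 3 h]
  simp only [Finset.sum_range_succ, Finset.sum_range_zero]
  push_cast
  ring

theorem lobatto4 (P : ℝ[X]) (h : P.natDegree ≤ 6) (r : ℝ) (hr : r ^ 2 = 1 / 5) :
    P.eval 1 - P.eval (-1) = 1 / 6 * ((derivative P).eval 1 + (derivative P).eval (-1))
      + 5 / 6 * ((derivative P).eval r + (derivative P).eval (-r)) := by
  rw [eval_range P 6 h, eval_range P 6 h, der_eval_range P 5 h, der_eval_range P 5 h,
    der_eval_range P 5 h, der_eval_range P 5 h]
  simp only [Finset.sum_range_succ, Finset.sum_range_zero]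
  push_cast
  have h4 : r ^ 4 = 1 / 25 := by
    have : r ^ 4 = (r ^ 2) ^ 2 := by ring
    rw [this, hr]; norm_num
  linear_combination (-(5:ℝ) * P.coeff 3 ) * hr + (-(25 : ℝ) / 3 * P.coeff 5) * h4

theorem hermite6 (P : ℝ[X]) (h : P.natDegree ≤ 6) :
    (derivative P).eval 0 = 15 / 16 * (P.eval 1 - P.eval (-1))
      - 7 / 16 * ((derivative P).eval 1 + (derivative P).eval (-1))
      + 1 / 16 * ((derivative (derivative P)).eval 1 - (derivative (derivative P)).eval (-1)) := by
  rw [eval_range P 6 h, eval_range P 6 h, der_eval_range P 5 h, der_eval_range P 5 h,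
    der_eval_range P 5 h, der2_eval_range P 4 h, der2_eval_range P 4 h]
  simp only [Finset.sum_range_succ, Finset.sum_range_zero]
  push_cast
  ring

theorem lobatto5 (P : ℝ[X]) (h : P.natDegree ≤ 8) (r : ℝ) (hr : r ^ 2 = 3 / 7) :
    P.eval 1 - P.eval (-1) = 1 / 10 * ((derivative P).eval 1 + (derivative P).eval (-1))
      + 49 / 90 * ((derivative P).eval r + (derivative P).eval (-r))
      + 32 / 45 * (derivative P).eval 0 := by
  rw [eval_range P 8 h, eval_range P 8 h, der_eval_range P 7 h, der_eval_range P 7 h,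
    der_eval_range P 7 h, der_eval_range P 7 h, der_eval_range P 7 h]
  simp only [Finset.sum_range_succ, Finset.sum_range_zero]
  push_cast
  have h4 : r ^ 4 = 9 / 49 := by
    have : r ^ 4 = (r ^ 2) ^ 2 := by ring
    rw [this, hr]; norm_num
  have h6 : r ^ 6 = 27 / 343 := by
    have : r ^ 6 = (r ^ 2) ^ 3 := by ring
    rw [this, hr]; norm_num
  linear_combination (-(49:ℝ) / 15 * P.coeff 3 ) * hr + (-(49 : ℝ) / 9 * P.coeff 5) * h4
    + (-(343 : ℝ) / 45 * P.coeff 7) * h6

/-! ### Nonnegativity of the derivative -/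

theorem cb_singleton_nonneg (f : (Fin n → ℤˣ) → ℝ)
    (hdd : ∀ (i : Fin n) (x : Fin n → ℤˣ), 0 ≤ dd f i x) (t : ℝ) (ht : |t| ≤ 1)
    (i : Fin n) : 0 ≤ cb f t {i} := by
  rw [← mean_dd]
  exact Finset.sum_nonneg (fun x _ => mul_nonneg (wt_nonneg t ht x) (hdd i x))

theorem der_nonneg (f : (Fin n → ℤˣ) → ℝ)
    (hdd : ∀ (i : Fin n) (x : Fin n → ℤˣ), 0 ≤ dd f i x) (t : ℝ) (ht : |t| ≤ 1) :
    0 ≤ (derivative (pPoly f)).eval t := by
  rw [pPoly_derivative_eval]
  exact Finset.sum_nonneg (fun i _ => cb_singleton_nonneg f hdd t ht i)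

theorem fourier_singleton_nonneg (f : (Fin n → ℤˣ) → ℝ)
    (hdd : ∀ (i : Fin n) (x : Fin n → ℤˣ), 0 ≤ dd f i x) (i : Fin n) :
    0 ≤ fourier f {i} := by
  rw [← cb_zero_singleton]
  exact cb_singleton_nonneg f hdd 0 (by simp) i

/-- The second derivative of `pPoly f` at a pole, for a Boolean function with nonnegative
discrete derivatives. -/
theorem der2_pole_le (f : (Fin n → ℤˣ) → ℝ) (hf : ∀ x, f x = 1 ∨ f x = -1)
    (hdd : ∀ (i : Fin n) (x : Fin n → ℤˣ), 0 ≤ dd f i x) (u : ℤˣ) :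
    ((u : ℤ) : ℝ) * (derivative (derivative (pPoly f))).eval (((u : ℤ) : ℝ))
      ≤ ((derivative (pPoly f)).eval (((u : ℤ) : ℝ)) ^ 2
          - (derivative (pPoly f)).eval (((u : ℤ) : ℝ))) / 2 := by
  rw [der2_pole, der_pole, Finset.mul_sum]
  simp_rw [Finset.mul_sum]
  calc ∑ i : Fin n, ∑ j : Fin n, ((u : ℤ) : ℝ) * dd (dd f i) j (pole u)
      ≤ ∑ i : Fin n, ∑ j : Fin n,
          (dd f i (pole u) * dd f j (pole u) - if i = j then dd f i (pole u) else 0) / 2 :=
        Finset.sum_le_sum (fun i _ => Finset.sum_le_sum (fun j _ => dd_dd_pole_le f hf hdd u i j))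
    _ = ((∑ i : Fin n, dd f i (pole u)) ^ 2 - ∑ i : Fin n, dd f i (pole u)) / 2 := by
        rw [sq, Finset.sum_mul_sum]
        simp only [← Finset.sum_div, Finset.sum_sub_distrib, Finset.sum_ite_eq, Finset.mem_univ,
          if_true]

/-! ### The three bounds -/

theorem core4 (f : (Fin n → ℤˣ) → ℝ) (hf : ∀ x, f x = 1 ∨ f x = -1)
    (hdd : ∀ (i : Fin n) (x : Fin n → ℤˣ), 0 ≤ dd f i x)
    (hdeg : ∀ S : Finset (Fin n), 4 < S.card → fourier f S = 0) :
    ∑ i : Fin n, fourier f {i} ≤ 3 / 2 := by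
  have hN := pPoly_natDegree_le f 4 hdeg
  have hq := simpson (pPoly f) hN
  have h1 := der_nonneg f hdd 1 (by simp)
  have h2 := der_nonneg f hdd (-1) (by simp)
  have h3 := abs_le.mp (pPoly_abs_le_one f hf 1 (by simp))
  have h4 := abs_le.mp (pPoly_abs_le_one f hf (-1) (by simp))
  rw [← pPoly_derivative_eval_zero]
  linarith [h3.2, h4.1]

theorem core8 (f : (Fin n → ℤˣ) → ℝ) (hf : ∀ x, f x = 1 ∨ f x = -1)
    (hdd : ∀ (i : Fin n) (x : Fin n → ℤˣ), 0 ≤ dd f i x)
    (hdeg : ∀ S : Finset (Fin n), 8 < S.card → fourier f S = 0) :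
    ∑ i : Fin n, fourier f {i} ≤ 45 / 16 := by
  have hN := pPoly_natDegree_le f 8 hdeg
  have hr : Real.sqrt (3 / 7) ^ 2 = 3 / 7 := Real.sq_sqrt (by norm_num)
  have hr0 : 0 ≤ Real.sqrt (3 / 7) := Real.sqrt_nonneg _
  have hr1 : |Real.sqrt (3 / 7)| ≤ 1 := by
    rw [abs_of_nonneg hr0]
    nlinarith
  have hr2 : |-Real.sqrt (3 / 7)| ≤ 1 := by rwa [abs_neg]
  have hq := lobatto5 (pPoly f) hN _ hr
  have h1 := der_nonneg f hdd 1 (by simp)
  have h2 := der_nonneg f hdd (-1) (by simp)
  have h5 := der_nonneg f hdd _ hr1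
  have h6 := der_nonneg f hdd _ hr2
  have h3 := abs_le.mp (pPoly_abs_le_one f hf 1 (by simp))
  have h4 := abs_le.mp (pPoly_abs_le_one f hf (-1) (by simp))
  rw [← pPoly_derivative_eval_zero]
  linarith [h3.2, h4.1]

theorem core6 (f : (Fin n → ℤˣ) → ℝ) (hf : ∀ x, f x = 1 ∨ f x = -1)
    (hdd : ∀ (i : Fin n) (x : Fin n → ℤˣ), 0 ≤ dd f i x)
    (hdeg : ∀ S : Finset (Fin n), 6 < S.card → fourier f S = 0) :
    ∑ i : Fin n, fourier f {i} ≤ 15 / 8 := by
  have hN := pPoly_natDegree_le f 6 hdeg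
  have hr : Real.sqrt (1 / 5) ^ 2 = 1 / 5 := Real.sq_sqrt (by norm_num)
  have hr0 : 0 ≤ Real.sqrt (1 / 5) := Real.sqrt_nonneg _
  have hr1 : |Real.sqrt (1 / 5)| ≤ 1 := by
    rw [abs_of_nonneg hr0]
    nlinarith
  have hr2 : |-Real.sqrt (1 / 5)| ≤ 1 := by rwa [abs_neg]
  have hq := lobatto4 (pPoly f) hN _ hr
  have hh := hermite6 (pPoly f) hN
  have h1 := der_nonneg f hdd 1 (by simp)
  have h2 := der_nonneg f hdd (-1) (by simp)
  have h5 := der_nonneg f hdd _ hr1
  have h6 := der_nonneg f hdd _ hr2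
  have h3 := abs_le.mp (pPoly_abs_le_one f hf 1 (by simp))
  have h4 := abs_le.mp (pPoly_abs_le_one f hf (-1) (by simp))
  have s1 := der2_pole_le f hf hdd 1
  have s2 := der2_pole_le f hf hdd (-1)
  simp only [Units.val_one, Int.cast_one, one_mul, Units.val_neg, Int.cast_neg, neg_mul] at s1 s2
  rw [← pPoly_derivative_eval_zero]
  have b1 : (derivative (pPoly f)).eval 1 ≤ 12 := by linarith [h3.2, h4.1]
  have b2 : (derivative (pPoly f)).eval (-1) ≤ 12 := by linarith [h3.2, h4.1]
  nlinarith [mul_nonneg h1 (sub_nonneg.mpr b1), mul_nonneg h2 (sub_nonneg.mpr b2), h3.2, h4.1]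

/-! ### Unate functions: reduction to nonnegative discrete derivatives -/

theorem unit_mul_self_cast (u : ℤˣ) : (((u : ℤ) : ℝ)) * (((u : ℤ) : ℝ)) = 1 := by
  rcases Int.units_eq_one_or u with h | h <;> simp [h]

theorem mul_flip (s : Fin n → ℤˣ) (i : Fin n) (x : Fin n → ℤˣ) :
    s * flip i x = flip i (s * x) := by
  funext j
  unfold flip
  by_cases hj : j = i
  · subst hj
    simp
  · simp [Function.update_of_ne hj]

theorem dd_tw (f : (Fin n → ℤˣ) → ℝ) (s : Fin n → ℤˣ) (i : Fin n) (x : Fin n → ℤˣ) :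
    dd (fun z => f (s * z)) i x = ((s i : ℤ) : ℝ) * dd f i (s * x) := by
  unfold dd
  beta_reduce
  rw [mul_flip]
  have e : xr (s * x) i = ((s i : ℤ) : ℝ) * xr x i := by
    unfold xr
    simp
  rw [e, ← mul_assoc, ← mul_assoc, unit_mul_self_cast, one_mul]

theorem fourier_tw (f : (Fin n → ℤˣ) → ℝ) (s : Fin n → ℤˣ) (S : Finset (Fin n)) :
    fourier (fun z => f (s * z)) S = (∏ i ∈ S, ((s i : ℤ) : ℝ)) * fourier f S := by
  unfold fourier
  have h1 : ∑ x : Fin n → ℤˣ, f (s * x) * ∏ i ∈ S, ((x i : ℤ) : ℝ)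
      = ∑ x : Fin n → ℤˣ, f (s * x) * ∏ i ∈ S, (((s * (s * x)) i : ℤ) : ℝ) := by
    refine Finset.sum_congr rfl (fun x _ => ?_)
    have : s * (s * x) = x := by
      funext j
      simp [← mul_assoc, Int.units_mul_self]
    rw [this]
  have h2 : ∑ x : Fin n → ℤˣ, f (s * x) * ∏ i ∈ S, (((s * (s * x)) i : ℤ) : ℝ)
      = ∑ y : Fin n → ℤˣ, f y * ∏ i ∈ S, (((s * y) i : ℤ) : ℝ) :=
    Equiv.sum_comp (Equiv.mulLeft s) (fun y => f y * ∏ i ∈ S, (((s * y) i : ℤ) : ℝ))
  rw [h1, h2, ← mul_div_assoc, Finset.mul_sum]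
  congr 1
  refine Finset.sum_congr rfl (fun y _ => ?_)
  have h3 : ∏ i ∈ S, (((s * y) i : ℤ) : ℝ)
      = (∏ i ∈ S, ((s i : ℤ) : ℝ)) * ∏ i ∈ S, ((y i : ℤ) : ℝ) := by
    rw [← Finset.prod_mul_distrib]
    refine Finset.prod_congr rfl (fun i _ => ?_)
    simp
  rw [h3]
  ring

theorem abs_prod_units (s : Fin n → ℤˣ) (S : Finset (Fin n)) :
    |∏ i ∈ S, ((s i : ℤ) : ℝ)| = 1 := by
  rw [Finset.abs_prod]
  refine Finset.prod_eq_one (fun i _ => ?_)
  rcases Int.units_eq_one_or (s i) with h | h <;> simp [h]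

theorem dd_nonneg_of_inc (f : (Fin n → ℤˣ) → ℝ) (i : Fin n)
    (h : ∀ z : Fin n → ℤˣ, f (Function.update z i (-1)) ≤ f (Function.update z i 1))
    (y : Fin n → ℤˣ) : 0 ≤ dd f i y := by
  unfold dd
  rcases Int.units_eq_one_or (y i) with hy | hy
  · have e1 : Function.update y i 1 = y := by rw [← hy, Function.update_eq_self]
    have e2 : flip i y = Function.update y i (-1) := by unfold flip; rw [hy]
    have h1 : xr y i = 1 := by unfold xr; simp [hy]
    have := h y
    rw [e1, ← e2] at this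
    rw [h1]
    linarith
  · have e1 : Function.update y i (-1) = y := by rw [← hy, Function.update_eq_self]
    have e2 : flip i y = Function.update y i 1 := by unfold flip; rw [hy]; simp
    have h1 : xr y i = -1 := by unfold xr; simp [hy]
    have := h y
    rw [e1, ← e2] at this
    rw [h1]
    linarith

theorem dd_nonpos_of_dec (f : (Fin n → ℤˣ) → ℝ) (i : Fin n)
    (h : ∀ z : Fin n → ℤˣ, f (Function.update z i 1) ≤ f (Function.update z i (-1)))
    (y : Fin n → ℤˣ) : dd f i y ≤ 0 := by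
  unfold dd
  rcases Int.units_eq_one_or (y i) with hy | hy
  · have e1 : Function.update y i 1 = y := by rw [← hy, Function.update_eq_self]
    have e2 : flip i y = Function.update y i (-1) := by unfold flip; rw [hy]
    have h1 : xr y i = 1 := by unfold xr; simp [hy]
    have := h y
    rw [e1, ← e2] at this
    rw [h1]
    linarith
  · have e1 : Function.update y i (-1) = y := by rw [← hy, Function.update_eq_self]
    have e2 : flip i y = Function.update y i 1 := by unfold flip; rw [hy]; simp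
    have h1 : xr y i = -1 := by unfold xr; simp [hy]
    have := h y
    rw [e1, ← e2] at this
    rw [h1]
    linarith

/-- A unate Boolean function becomes, after reorienting its coordinates, a Boolean function
with nonnegative discrete derivatives and the same Fourier coefficients up to sign. -/
theorem unate_reduce (f : (Fin n → ℤˣ) → ℝ) (hf : ∀ x, f x = 1 ∨ f x = -1)
    (hun : ∀ i : Fin n,
      (∀ x : Fin n → ℤˣ, f (Function.update x i (-1)) ≤ f (Function.update x i 1)) ∨
      (∀ x : Fin n → ℤˣ, f (Function.update x i 1) ≤ f (Function.update x i (-1)))) :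
    ∃ g : (Fin n → ℤˣ) → ℝ, (∀ x, g x = 1 ∨ g x = -1) ∧
      (∀ (i : Fin n) (x : Fin n → ℤˣ), 0 ≤ dd g i x) ∧
      (∀ S : Finset (Fin n), |fourier g S| = |fourier f S|) := by
  classical
  let s : Fin n → ℤˣ := fun i =>
    if (∀ x : Fin n → ℤˣ, f (Function.update x i (-1)) ≤ f (Function.update x i 1)) then 1 else -1
  refine ⟨fun z => f (s * z), fun x => hf _, ?_, ?_⟩
  · intro i x
    rw [dd_tw]
    by_cases hi : ∀ x : Fin n → ℤˣ, f (Function.update x i (-1)) ≤ f (Function.update x i 1)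
    · have hs : s i = 1 := if_pos hi
      rw [hs]
      simpa using dd_nonneg_of_inc f i hi (s * x)
    · have hs : s i = -1 := if_neg hi
      rw [hs]
      have hdec := (hun i).resolve_left hi
      have := dd_nonpos_of_dec f i hdec (s * x)
      simp only [Units.val_neg, Units.val_one, Int.cast_neg, Int.cast_one]
      linarith
  · intro S
    rw [fourier_tw, abs_mul, abs_prod_units, one_mul]

/-- The three bounds for unate Boolean functions. -/
theorem unate_bounds (f : (Fin n → ℤˣ) → ℝ) (hf : ∀ x, f x = 1 ∨ f x = -1)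
    (hun : ∀ i : Fin n,
      (∀ x : Fin n → ℤˣ, f (Function.update x i (-1)) ≤ f (Function.update x i 1)) ∨
      (∀ x : Fin n → ℤˣ, f (Function.update x i 1) ≤ f (Function.update x i (-1)))) :
    ((∀ S : Finset (Fin n), 4 < S.card → fourier f S = 0) →
        ∑ i : Fin n, |fourier f {i}| ≤ 3 / 2) ∧
    ((∀ S : Finset (Fin n), 6 < S.card → fourier f S = 0) →
        ∑ i : Fin n, |fourier f {i}| ≤ 15 / 8) ∧
    ((∀ S : Finset (Fin n), 8 < S.card → fourier f S = 0) →
        ∑ i : Fin n, |fourier f {i}| ≤ 45 / 16) := by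
  obtain ⟨g, hg, hdd, habs⟩ := unate_reduce f hf hun
  have hsum : ∑ i : Fin n, |fourier f {i}| = ∑ i : Fin n, fourier g {i} := by
    refine Finset.sum_congr rfl (fun i _ => ?_)
    rw [← habs, abs_of_nonneg (fourier_singleton_nonneg g hdd i)]
  have hdeg : ∀ d : ℕ, (∀ S : Finset (Fin n), d < S.card → fourier f S = 0) →
      ∀ S : Finset (Fin n), d < S.card → fourier g S = 0 := by
    intro d h S hS
    have := habs S
    rw [h S hS, abs_zero] at this
    exact abs_eq_zero.mp this
  rw [hsum]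
  exact ⟨fun h => core4 g hg hdd (hdeg 4 h), fun h => core6 g hg hdd (hdeg 6 h),
    fun h => core8 g hg hdd (hdeg 8 h)⟩

end Vale.Agent.Helper18.Cube
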