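import Vale.Agent.Helper18.Mono

/-!
# Composition and oddization of Boolean functions on the cube

* `comp f g` is `f` applied to `n` disjoint copies of `g`; if `g` is balanced its level-one sum
  is the product of those of `f` and `g`, its degree is at most the product of the degrees, and
  it is balanced when `f` is.
* `oddz ε f` is the function `(x, y) ↦ (ε y) * f ((ε y) x)` of one more variable; it is balanced,
  its degree is at most `deg f + 1` (at most `deg f` when that is odd), and its level-one sum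
  is that of `f` plus `ε` times the mean of `f`.
* Consequently a bound `C * sqrt d` on the level-one sum of all Boolean functions of degree at
  most `d` improves itself to the constant `1`.
-/

namespace Vale.Agent.Helper18.Cube

open Finset

section Composition

variable {n m : ℕ}


/-- The `i`-th block of a point of the cube on `n * m` coordinates. -/
def blk (x : Fin (n * m) → ℤˣ) (i : Fin n) : Fin m → ℤˣ := fun j => x (finProdFinEquiv (i, j))

/-- The `i`-th fibre of a set of coordinates. -/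
def fib (U : Finset (Fin (n * m))) (i : Fin n) : Finset (Fin m) :=
  Finset.univ.filter (fun j => finProdFinEquiv (i, j) ∈ U)

theorem chi_blk (U : Finset (Fin (n * m))) (x : Fin (n * m) → ℤˣ) :
    chi U x = ∏ i : Fin n, chi (fib U i) (blk x i) := by
  unfold chi
  have h1 : ∏ k ∈ U, xr x k = ∏ k : Fin (n * m), (if k ∈ U then xr x k else 1) := by
    rw [Finset.prod_ite_mem, Finset.univ_inter]
  rw [h1, ← Equiv.prod_comp finProdFinEquiv, Fintype.prod_prod_type]
  refine Finset.prod_congr rfl (fun i _ => ?_)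
  unfold fib
  rw [Finset.prod_filter]
  rfl

theorem card_fib (U : Finset (Fin (n * m))) : U.card = ∑ i : Fin n, (fib U i).card := by
  have h1 : U.card = ∑ k : Fin (n * m), (if k ∈ U then 1 else 0) := by
    rw [Finset.sum_ite_mem, Finset.univ_inter, Finset.sum_const, smul_eq_mul, mul_one]
  rw [h1, ← Equiv.sum_comp finProdFinEquiv, Fintype.sum_prod_type]
  refine Finset.sum_congr rfl (fun i _ => ?_)
  unfold fib
  rw [Finset.card_filter]

theorem sum_blk (ψ : Fin n → (Fin m → ℤˣ) → ℝ) :
    ∑ x : Fin (n * m) → ℤˣ, ∏ i : Fin n, ψ i (blk x i)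
      = ∏ i : Fin n, ∑ y : Fin m → ℤˣ, ψ i y := by
  have h := Finset.prod_univ_sum (fun _ : Fin n => (Finset.univ : Finset (Fin m → ℤˣ))) ψ
  rw [Fintype.piFinset_univ] at h
  rw [h]
  let e : (Fin (n * m) → ℤˣ) ≃ (Fin n → Fin m → ℤˣ) :=
    (Equiv.arrowCongr finProdFinEquiv.symm (Equiv.refl ℤˣ)).trans (Equiv.curry (Fin n) (Fin m) ℤˣ)
  rw [← Equiv.sum_comp e]
  rfl

/-- The unit of `ℤ` attached to a real number that is `1` or `-1`. -/
noncomputable def toU (r : ℝ) : ℤˣ := if r = 1 then 1 else -1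

theorem toU_cast (r : ℝ) (h : r = 1 ∨ r = -1) : (((toU r : ℤˣ) : ℤ) : ℝ) = r := by
  unfold toU
  rcases h with h | h
  · simp [h]
  · rw [h]
    norm_num

/-- The composition of `f` with `n` disjoint copies of `g`. -/
noncomputable def comp (f : (Fin n → ℤˣ) → ℝ) (g : (Fin m → ℤˣ) → ℝ) :
    (Fin (n * m) → ℤˣ) → ℝ := fun x => f (fun i => toU (g (blk x i)))

theorem comp_expand (f : (Fin n → ℤˣ) → ℝ) (g : (Fin m → ℤˣ) → ℝ)
    (hg : ∀ y, g y = 1 ∨ g y = -1) (x : Fin (n * m) → ℤˣ) :
    comp f g x = ∑ S : Finset (Fin n), fourier f S *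
      ∏ i : Fin n, (if i ∈ S then g (blk x i) else 1) := by
  unfold comp
  rw [inversion f]
  refine Finset.sum_congr rfl (fun S _ => ?_)
  congr 1
  unfold chi
  rw [Finset.prod_ite_mem, Finset.univ_inter]
  refine Finset.prod_congr rfl (fun i _ => ?_)
  unfold xr
  exact toU_cast _ (hg _)

theorem sum_chi (V : Finset (Fin m)) :
    ∑ y : Fin m → ℤˣ, chi V y = if V = ∅ then (2 : ℝ) ^ m else 0 := by
  have h0 := sum_cube_prod (n := m)
    (fun (j : Fin m) (u : ℤˣ) => if j ∈ V then ((u : ℤ) : ℝ) else 1)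
  have h1 : ∀ y : Fin m → ℤˣ, chi V y
      = ∏ j : Fin m, (if j ∈ V then ((y j : ℤ) : ℝ) else 1) := by
    intro y
    unfold chi
    rw [Finset.prod_ite_mem, Finset.univ_inter]
    rfl
  rw [Finset.sum_congr rfl (fun y _ => h1 y), h0]
  split_ifs with hV
  · subst hV
    simp
    norm_num
  · obtain ⟨j, hj⟩ := Finset.nonempty_iff_ne_empty.mpr hV
    apply Finset.prod_eq_zero (Finset.mem_univ j)
    simp [hj]

/-- The Fourier coefficients of a composition. -/
theorem fourier_comp (f : (Fin n → ℤˣ) → ℝ) (g : (Fin m → ℤˣ) → ℝ)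
    (hg : ∀ y, g y = 1 ∨ g y = -1) (U : Finset (Fin (n * m))) :
    fourier (comp f g) U = ∑ S : Finset (Fin n), fourier f S *
      ∏ i : Fin n, (if i ∈ S then fourier g (fib U i) else (if fib U i = ∅ then 1 else 0)) := by
  have h2 : (2 : ℝ) ^ m ≠ 0 := by positivity
  rw [fourier_eq]
  have h1 : ∀ x : Fin (n * m) → ℤˣ, comp f g x * chi U x
      = ∑ S : Finset (Fin n), fourier f S *
          ∏ i : Fin n, ((if i ∈ S then g (blk x i) else 1) * chi (fib U i) (blk x i)) := by
    intro x
    rw [comp_expand f g hg, chi_blk, Finset.sum_mul]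
    refine Finset.sum_congr rfl (fun S _ => ?_)
    rw [Finset.prod_mul_distrib]
    ring
  simp_rw [h1]
  rw [Finset.sum_comm, Finset.sum_div]
  refine Finset.sum_congr rfl (fun S _ => ?_)
  rw [← Finset.mul_sum,
    sum_blk (fun i y => (if i ∈ S then g y else 1) * chi (fib U i) y), mul_div_assoc]
  congr 1
  have h3 : ∀ i : Fin n, ∑ y : Fin m → ℤˣ, (if i ∈ S then g y else 1) * chi (fib U i) y
      = 2 ^ m * (if i ∈ S then fourier g (fib U i) else (if fib U i = ∅ then 1 else 0)) := by
    intro i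
    by_cases hi : i ∈ S
    · simp only [hi, if_true]
      rw [fourier_eq]
      field_simp
    · simp only [hi, if_false, one_mul]
      rw [sum_chi]
      split_ifs <;> simp
  simp_rw [h3]
  rw [Finset.prod_mul_distrib, Finset.prod_const, Finset.card_univ, Fintype.card_fin, ← pow_mul,
    mul_comm m n]
  field_simp

theorem fib_empty (i : Fin n) : fib (∅ : Finset (Fin (n * m))) i = ∅ := by
  unfold fib
  simp

theorem fib_singleton (i0 : Fin n) (j0 : Fin m) (i : Fin n) :
    fib ({finProdFinEquiv (i0, j0)} : Finset (Fin (n * m))) i = if i = i0 then {j0} else ∅ := by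
  unfold fib
  ext j
  simp only [Finset.mem_filter, Finset.mem_univ, true_and, Finset.mem_singleton,
    EmbeddingLike.apply_eq_iff_eq, Prod.mk.injEq]
  split_ifs with h
  · simp [h]
  · simp [h]

theorem comp_empty (f : (Fin n → ℤˣ) → ℝ) (g : (Fin m → ℤˣ) → ℝ)
    (hg : ∀ y, g y = 1 ∨ g y = -1) (hg0 : fourier g ∅ = 0) :
    fourier (comp f g) ∅ = fourier f ∅ := by
  rw [fourier_comp f g hg, Finset.sum_eq_single ∅]
  · simp [fib_empty]
  · intro S _ hS
    obtain ⟨i, hi⟩ := Finset.nonempty_iff_ne_empty.mpr hS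
    rw [Finset.prod_eq_zero (Finset.mem_univ i), mul_zero]
    rw [if_pos hi, fib_empty, hg0]
  · intro h
    exact absurd (Finset.mem_univ _) h

theorem comp_singleton (f : (Fin n → ℤˣ) → ℝ) (g : (Fin m → ℤˣ) → ℝ)
    (hg : ∀ y, g y = 1 ∨ g y = -1) (hg0 : fourier g ∅ = 0) (i0 : Fin n) (j0 : Fin m) :
    fourier (comp f g) {finProdFinEquiv (i0, j0)} = fourier f {i0} * fourier g {j0} := by
  rw [fourier_comp f g hg, Finset.sum_eq_single {i0}]
  · congr 1
    rw [Finset.prod_eq_single i0]
    · simp [fib_singleton]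
    · intro i _ hi
      rw [fib_singleton, if_neg hi, if_neg (by simpa using hi)]
      simp
    · intro h
      exact absurd (Finset.mem_univ _) h
  · intro S _ hS
    by_cases hi0 : i0 ∈ S
    · have : ∃ i ∈ S, i ≠ i0 := by
        by_contra hcon
        push Not at hcon
        apply hS
        ext i
        constructor
        · intro hi
          rw [Finset.mem_singleton]
          exact hcon i hi
        · intro hi
          rw [Finset.mem_singleton] at hi
          rw [hi]
          exact hi0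
      obtain ⟨i, hi, hne⟩ := this
      rw [Finset.prod_eq_zero (Finset.mem_univ i), mul_zero]
      rw [if_pos hi, fib_singleton, if_neg hne, hg0]
    · rw [Finset.prod_eq_zero (Finset.mem_univ i0), mul_zero]
      rw [if_neg hi0, fib_singleton, if_pos rfl]
      simp
  · intro h
    exact absurd (Finset.mem_univ _) h

theorem comp_degree (f : (Fin n → ℤˣ) → ℝ) (g : (Fin m → ℤˣ) → ℝ)
    (hg : ∀ y, g y = 1 ∨ g y = -1) (a b : ℕ)
    (hdf : ∀ S : Finset (Fin n), a < S.card → fourier f S = 0)
    (hdg : ∀ V : Finset (Fin m), b < V.card → fourier g V = 0)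
    (U : Finset (Fin (n * m))) (hU : a * b < U.card) :
    fourier (comp f g) U = 0 := by
  rw [fourier_comp f g hg]
  refine Finset.sum_eq_zero (fun S _ => ?_)
  by_cases hS : a < S.card
  · rw [hdf S hS, zero_mul]
  · push Not at hS
    by_cases h1 : ∃ i, i ∉ S ∧ fib U i ≠ ∅
    · obtain ⟨i, hi, hne⟩ := h1
      rw [Finset.prod_eq_zero (Finset.mem_univ i), mul_zero]
      rw [if_neg hi, if_neg hne]
    · push Not at h1
      by_cases h2 : ∃ i, i ∈ S ∧ b < (fib U i).card
      · obtain ⟨i, hi, hb⟩ := h2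
        rw [Finset.prod_eq_zero (Finset.mem_univ i), mul_zero]
        rw [if_pos hi, hdg _ hb]
      · push Not at h2
        exfalso
        have hc : U.card ≤ a * b := by
          rw [card_fib]
          calc ∑ i : Fin n, (fib U i).card
              = ∑ i ∈ S, (fib U i).card := by
                symm
                apply Finset.sum_subset (Finset.subset_univ _)
                intro i _ hi
                rw [h1 i hi]
                rfl
            _ ≤ ∑ i ∈ S, b := Finset.sum_le_sum (fun i hi => h2 i hi)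
            _ = S.card * b := by rw [Finset.sum_const, smul_eq_mul]
            _ ≤ a * b := Nat.mul_le_mul_right b hS
        omega

theorem comp_level_one (f : (Fin n → ℤˣ) → ℝ) (g : (Fin m → ℤˣ) → ℝ)
    (hg : ∀ y, g y = 1 ∨ g y = -1) (hg0 : fourier g ∅ = 0) :
    ∑ k : Fin (n * m), fourier (comp f g) {k}
      = (∑ i : Fin n, fourier f {i}) * ∑ j : Fin m, fourier g {j} := by
  rw [← Equiv.sum_comp finProdFinEquiv, Fintype.sum_prod_type, Finset.sum_mul_sum]
  refine Finset.sum_congr rfl (fun i _ => Finset.sum_congr rfl (fun j _ => ?_))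
  exact comp_singleton f g hg hg0 i j


end Composition

section Oddization

variable {n : ℕ}


theorem sum_chi_chi (T U : Finset (Fin n)) :
    ∑ x : Fin n → ℤˣ, chi T x * chi U x = if T = U then (2 : ℝ) ^ n else 0 := by
  have h0 := sum_cube_prod (n := n)
    (fun (j : Fin n) (u : ℤˣ) => (if j ∈ T then ((u : ℤ) : ℝ) else 1)
      * (if j ∈ U then ((u : ℤ) : ℝ) else 1))
  have h1 : ∀ x : Fin n → ℤˣ, chi T x * chi U x
      = ∏ j : Fin n, ((if j ∈ T then ((x j : ℤ) : ℝ) else 1)
          * (if j ∈ U then ((x j : ℤ) : ℝ) else 1)) := by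
    intro x
    unfold chi
    rw [Finset.prod_mul_distrib, Finset.prod_ite_mem, Finset.prod_ite_mem, Finset.univ_inter,
      Finset.univ_inter]
    rfl
  rw [Finset.sum_congr rfl (fun x _ => h1 x), h0]
  split_ifs with hTU
  · subst hTU
    have : ∀ j : Fin n, ((if j ∈ T then (((1 : ℤˣ) : ℤ) : ℝ) else 1)
        * (if j ∈ T then (((1 : ℤˣ) : ℤ) : ℝ) else 1)
        + (if j ∈ T then (((-1 : ℤˣ) : ℤ) : ℝ) else 1)
        * (if j ∈ T then (((-1 : ℤˣ) : ℤ) : ℝ) else 1)) = 2 := by
      intro j
      split_ifs <;> norm_num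
    simp_rw [this]
    simp
  · have : ∃ j, ¬ (j ∈ T ↔ j ∈ U) := by
      by_contra hcon
      push Not at hcon
      exact hTU (Finset.ext hcon)
    obtain ⟨j, hj⟩ := this
    apply Finset.prod_eq_zero (Finset.mem_univ j)
    by_cases h1 : j ∈ T <;> by_cases h2 : j ∈ U
    · exact absurd (iff_of_true h1 h2) hj
    · simp [h1, h2]
    · simp [h1, h2]
    · exact absurd (iff_of_false h1 h2) hj

theorem fourier_chi (T U : Finset (Fin n)) :
    fourier (chi T) U = if T = U then 1 else 0 := by
  rw [fourier_eq, sum_chi_chi]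
  split_ifs
  · field_simp
  · simp

/-- The Fourier coefficients of a function given by an expansion in characters. -/
theorem fourier_of_expansion {k : ℕ} (c : Finset (Fin k) → ℝ)
    (φ : Finset (Fin k) → Finset (Fin n)) (F : (Fin n → ℤˣ) → ℝ)
    (hF : ∀ x, F x = ∑ S : Finset (Fin k), c S * chi (φ S) x) (U : Finset (Fin n)) :
    fourier F U = ∑ S : Finset (Fin k), c S * (if φ S = U then 1 else 0) := by
  rw [fourier_eq]
  have h1 : ∀ x : Fin n → ℤˣ, F x * chi U x
      = ∑ S : Finset (Fin k), c S * (chi (φ S) x * chi U x) := by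
    intro x
    rw [hF x, Finset.sum_mul]
    refine Finset.sum_congr rfl (fun S _ => ?_)
    ring
  simp_rw [h1]
  rw [Finset.sum_comm, Finset.sum_div]
  refine Finset.sum_congr rfl (fun S _ => ?_)
  rw [← Finset.mul_sum, sum_chi_chi, mul_div_assoc]
  congr 1
  split_ifs
  · field_simp
  · simp

/-! ### Oddization -/

/-- The oddization of `f`: the function `(x, y) ↦ (ε y) * f ((ε y) x)` of one more variable. -/
noncomputable def oddz (ε : ℤˣ) (f : (Fin n → ℤˣ) → ℝ) : (Fin (n + 1) → ℤˣ) → ℝ :=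
  fun x => (((ε * x (Fin.last n) : ℤˣ) : ℤ) : ℝ)
    * f (fun i => ε * x (Fin.last n) * x (Fin.castSucc i))

/-- The set of coordinates carrying the coefficient of `S` in the oddization. -/
def ophi (S : Finset (Fin n)) : Finset (Fin (n + 1)) :=
  if Even S.card then insert (Fin.last n) (S.map Fin.castSuccEmb) else S.map Fin.castSuccEmb

theorem last_notMem_map (S : Finset (Fin n)) : Fin.last n ∉ S.map Fin.castSuccEmb := by
  intro h
  rw [Finset.mem_map] at h
  obtain ⟨i, _, hi⟩ := h
  exact (Fin.castSucc_lt_last i).ne hi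

theorem chi_scale (w : ℤˣ) (S : Finset (Fin n)) (z : Fin n → ℤˣ) :
    chi S (fun i => w * z i) = ((w : ℤ) : ℝ) ^ S.card * chi S z := by
  unfold chi xr
  rw [← Finset.prod_const, ← Finset.prod_mul_distrib]
  refine Finset.prod_congr rfl (fun i _ => ?_)
  simp

theorem chi_ophi (S : Finset (Fin n)) (x : Fin (n + 1) → ℤˣ) :
    chi (ophi S) x = (if Even S.card then xr x (Fin.last n) else 1)
      * chi S (fun i => x (Fin.castSucc i)) := by
  unfold ophi
  split_ifs with h
  · unfold chi
    rw [Finset.prod_insert (last_notMem_map S), Finset.prod_map]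
    rfl
  · unfold chi
    rw [Finset.prod_map, one_mul]
    rfl

theorem unit_pow_succ (w : ℝ) (hw : w = 1 ∨ w = -1) (k : ℕ) :
    w ^ (k + 1) = if Even k then w else 1 := by
  split_ifs with h
  · rcases hw with rfl | rfl
    · simp
    · rw [pow_succ, Even.neg_one_pow h, one_mul]
  · rcases hw with rfl | rfl
    · simp
    · have : Even (k + 1) := by
        rcases Nat.even_or_odd k with h' | h'
        · exact absurd h' h
        · exact h'.add_one
      exact Even.neg_one_pow this

theorem oddz_expand (ε : ℤˣ) (f : (Fin n → ℤˣ) → ℝ) (x : Fin (n + 1) → ℤˣ) :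
    oddz ε f x = ∑ S : Finset (Fin n),
      (fourier f S * (if Even S.card then ((ε : ℤ) : ℝ) else 1)) * chi (ophi S) x := by
  unfold oddz
  rw [inversion f, Finset.mul_sum]
  refine Finset.sum_congr rfl (fun S _ => ?_)
  rw [chi_scale (ε * x (Fin.last n)) S (fun i => x (Fin.castSucc i)), chi_ophi]
  have hw : (((ε * x (Fin.last n) : ℤˣ) : ℤ) : ℝ) = 1 ∨ (((ε * x (Fin.last n) : ℤˣ) : ℤ) : ℝ) = -1 := by
    rcases Int.units_eq_one_or (ε * x (Fin.last n)) with h | h <;> simp [h]
  have e1 : (((ε * x (Fin.last n) : ℤˣ) : ℤ) : ℝ)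
      * (fourier f S * ((((ε * x (Fin.last n) : ℤˣ) : ℤ) : ℝ) ^ S.card
          * chi S (fun i => x (Fin.castSucc i))))
      = fourier f S * (((ε * x (Fin.last n) : ℤˣ) : ℤ) : ℝ) ^ (S.card + 1)
          * chi S (fun i => x (Fin.castSucc i)) := by ring
  rw [e1, unit_pow_succ _ hw]
  split_ifs with h
  · unfold xr
    push_cast
    ring
  · ring

theorem oddz_boolean (ε : ℤˣ) (f : (Fin n → ℤˣ) → ℝ) (hf : ∀ x, f x = 1 ∨ f x = -1)
    (x : Fin (n + 1) → ℤˣ) : oddz ε f x = 1 ∨ oddz ε f x = -1 := by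
  unfold oddz
  rcases hf (fun i => ε * x (Fin.last n) * x (Fin.castSucc i)) with h' | h' <;> rw [h'] <;>
    rcases Int.units_eq_one_or (ε * x (Fin.last n)) with h | h <;> rw [h] <;> norm_num

theorem fourier_oddz (ε : ℤˣ) (f : (Fin n → ℤˣ) → ℝ) (U : Finset (Fin (n + 1))) :
    fourier (oddz ε f) U = ∑ S : Finset (Fin n),
      (fourier f S * (if Even S.card then ((ε : ℤ) : ℝ) else 1)) * (if ophi S = U then 1 else 0) :=
  fourier_of_expansion _ ophi (oddz ε f) (oddz_expand ε f) U

theorem card_ophi (S : Finset (Fin n)) :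
    (ophi S).card = if Even S.card then S.card + 1 else S.card := by
  unfold ophi
  split_ifs with h
  · rw [Finset.card_insert_of_notMem (last_notMem_map S), Finset.card_map]
  · rw [Finset.card_map]

theorem ophi_ne_empty (S : Finset (Fin n)) : ophi S ≠ ∅ := by
  intro h
  have hc := card_ophi S
  rw [h, Finset.card_empty] at hc
  by_cases he : Even S.card
  · rw [if_pos he] at hc
    omega
  · rw [if_neg he] at hc
    rw [← hc] at he
    exact he (by decide)

theorem oddz_empty (ε : ℤˣ) (f : (Fin n → ℤˣ) → ℝ) : fourier (oddz ε f) ∅ = 0 := by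
  rw [fourier_oddz]
  refine Finset.sum_eq_zero (fun S _ => ?_)
  rw [if_neg (ophi_ne_empty S), mul_zero]

theorem oddz_degree (ε : ℤˣ) (f : (Fin n → ℤˣ) → ℝ) (d : ℕ)
    (hdeg : ∀ S : Finset (Fin n), d < S.card → fourier f S = 0)
    (U : Finset (Fin (n + 1))) (hU : d + 1 < U.card) : fourier (oddz ε f) U = 0 := by
  rw [fourier_oddz]
  refine Finset.sum_eq_zero (fun S _ => ?_)
  by_cases hS : d < S.card
  · rw [hdeg S hS]
    ring
  · have hne : ophi S ≠ U := by
      intro h
      have hc := card_ophi S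
      rw [h] at hc
      by_cases he : Even S.card
      · rw [if_pos he] at hc
        omega
      · rw [if_neg he] at hc
        omega
    rw [if_neg hne, mul_zero]

theorem oddz_degree_odd (ε : ℤˣ) (f : (Fin n → ℤˣ) → ℝ) (d : ℕ) (hd : Odd d)
    (hdeg : ∀ S : Finset (Fin n), d < S.card → fourier f S = 0)
    (U : Finset (Fin (n + 1))) (hU : d < U.card) : fourier (oddz ε f) U = 0 := by
  rw [fourier_oddz]
  refine Finset.sum_eq_zero (fun S _ => ?_)
  by_cases hS : d < S.card
  · rw [hdeg S hS]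
    ring
  · have hne : ophi S ≠ U := by
      intro h
      have hc := card_ophi S
      rw [h] at hc
      by_cases he : Even S.card
      · rw [if_pos he] at hc
        have : S.card ≠ d := by
          intro e
          rw [e] at he
          exact (Nat.not_even_iff_odd.mpr hd) he
        omega
      · rw [if_neg he] at hc
        omega
    rw [if_neg hne, mul_zero]

theorem oddz_last (ε : ℤˣ) (f : (Fin n → ℤˣ) → ℝ) :
    fourier (oddz ε f) {Fin.last n} = ((ε : ℤ) : ℝ) * fourier f ∅ := by
  rw [fourier_oddz, Finset.sum_eq_single ∅]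
  · have : ophi (∅ : Finset (Fin n)) = {Fin.last n} := by
      unfold ophi
      simp
    rw [this]
    simp
    ring
  · intro S _ hS
    have hne : ophi S ≠ {Fin.last n} := by
      intro h
      obtain ⟨i, hi⟩ := Finset.nonempty_iff_ne_empty.mpr hS
      have hmem : Fin.castSucc i ∈ ophi S := by
        unfold ophi
        split_ifs
        · exact Finset.mem_insert_of_mem (Finset.mem_map_of_mem Fin.castSuccEmb hi)
        · exact Finset.mem_map_of_mem Fin.castSuccEmb hi
      rw [h, Finset.mem_singleton] at hmem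
      exact (Fin.castSucc_lt_last i).ne hmem
    rw [if_neg hne, mul_zero]
  · intro h
    exact absurd (Finset.mem_univ _) h

theorem oddz_castSucc (ε : ℤˣ) (f : (Fin n → ℤˣ) → ℝ) (i : Fin n) :
    fourier (oddz ε f) {Fin.castSucc i} = fourier f {i} := by
  rw [fourier_oddz, Finset.sum_eq_single {i}]
  · have : ophi ({i} : Finset (Fin n)) = {Fin.castSucc i} := by
      unfold ophi
      simp
    rw [this]
    simp
  · intro S _ hS
    have hne : ophi S ≠ {Fin.castSucc i} := by
      intro h
      have hlast : Fin.last n ∉ ophi S := by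
        rw [h, Finset.mem_singleton]
        exact fun e => (Fin.castSucc_lt_last i).ne e.symm
      have hodd : ¬ Even S.card := by
        intro he
        apply hlast
        unfold ophi
        rw [if_pos he]
        exact Finset.mem_insert_self _ _
      have h2 : S.map Fin.castSuccEmb = ({i} : Finset (Fin n)).map Fin.castSuccEmb := by
        unfold ophi at h
        rw [if_neg hodd] at h
        rw [h, Finset.map_singleton]
        rfl
      exact hS (Finset.map_injective _ h2)
    rw [if_neg hne, mul_zero]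
  · intro h
    exact absurd (Finset.mem_univ _) h

theorem oddz_level_one (ε : ℤˣ) (f : (Fin n → ℤˣ) → ℝ) :
    ∑ k : Fin (n + 1), fourier (oddz ε f) {k}
      = ∑ i : Fin n, fourier f {i} + ((ε : ℤ) : ℝ) * fourier f ∅ := by
  rw [Fin.sum_univ_castSucc, oddz_last]
  congr 1
  exact Finset.sum_congr rfl (fun i _ => oddz_castSucc ε f i)


end Oddization

section Amplification

variable {n : ℕ}

/-- Iterated self-composition of a balanced Boolean function. -/
theorem pow_family (d : ℕ) (f : (Fin n → ℤˣ) → ℝ) (hf : ∀ x, f x = 1 ∨ f x = -1)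
    (hf0 : fourier f ∅ = 0) (hdeg : ∀ S : Finset (Fin n), d < S.card → fourier f S = 0)
    (k : ℕ) :
    ∃ (N : ℕ) (F : (Fin N → ℤˣ) → ℝ), (∀ x, F x = 1 ∨ F x = -1) ∧ fourier F ∅ = 0 ∧
      (∀ S : Finset (Fin N), d ^ (2 ^ k) < S.card → fourier F S = 0) ∧
      ∑ i : Fin N, fourier F {i} = (∑ i : Fin n, fourier f {i}) ^ (2 ^ k) := by
  induction k with
  | zero =>
    refine ⟨n, f, hf, hf0, ?_, ?_⟩
    · simpa using hdeg
    · simp
  | succ k ih =>
    obtain ⟨N, F, hF, hF0, hFdeg, hFsum⟩ := ih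
    refine ⟨N * N, comp F F, fun x => hF _, ?_, ?_, ?_⟩
    · rw [comp_empty F F hF hF0, hF0]
    · intro S hS
      apply comp_degree F F hF (d ^ (2 ^ k)) (d ^ (2 ^ k)) hFdeg hFdeg S
      have e : d ^ (2 ^ (k + 1)) = d ^ (2 ^ k) * d ^ (2 ^ k) := by
        rw [← pow_add, pow_succ]
        congr 1
        ring
      rw [← e]
      exact hS
    · rw [comp_level_one F F hF hF0, hFsum, ← pow_add, pow_succ]
      congr 1
      ring

theorem sqrt_natCast_pow (d m : ℕ) :
    Real.sqrt ((d ^ m : ℕ) : ℝ) = Real.sqrt (d : ℝ) ^ m := by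
  rw [Real.sqrt_eq_iff_eq_sq (by positivity) (by positivity), ← pow_mul, mul_comm, pow_mul,
    Real.sq_sqrt (by positivity)]
  push_cast
  rfl

/-- The self-improvement for balanced functions. -/
theorem balanced_bound (C : ℝ)
    (hweak : ∀ (N D : ℕ) (F : (Fin N → ℤˣ) → ℝ), (∀ x, F x = 1 ∨ F x = -1) →
      (∀ S : Finset (Fin N), D < S.card → fourier F S = 0) →
      ∑ i : Fin N, fourier F {i} ≤ C * Real.sqrt D)
    (d : ℕ) (f : (Fin n → ℤˣ) → ℝ) (hf : ∀ x, f x = 1 ∨ f x = -1)
    (hf0 : fourier f ∅ = 0) (hdeg : ∀ S : Finset (Fin n), d < S.card → fourier f S = 0) :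
    ∑ i : Fin n, fourier f {i} ≤ Real.sqrt d := by
  by_contra hcon
  push Not at hcon
  have hs0 : 0 ≤ Real.sqrt (d : ℝ) := Real.sqrt_nonneg _
  by_cases hd : d = 0
  · subst hd
    have : ∑ i : Fin n, fourier f {i} = 0 :=
      Finset.sum_eq_zero (fun i _ => hdeg {i} (by simp))
    rw [this] at hcon
    simp at hcon
  have hs1 : 1 ≤ Real.sqrt (d : ℝ) := by
    rw [Real.one_le_sqrt]
    exact_mod_cast Nat.one_le_iff_ne_zero.mpr hd
  have hspos : 0 < Real.sqrt (d : ℝ) := by linarith
  set A := ∑ i : Fin n, fourier f {i} with hA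
  set ρ := A / Real.sqrt (d : ℝ) with hρ
  have hρ1 : 1 < ρ := by
    rw [hρ, lt_div_iff₀ hspos]
    linarith
  have key : ∀ k : ℕ, ρ ^ (2 ^ k) ≤ C := by
    intro k
    obtain ⟨N, F, hF, hF0, hFdeg, hFsum⟩ := pow_family d f hf hf0 hdeg k
    have h1 := hweak N (d ^ (2 ^ k)) F hF hFdeg
    rw [hFsum, sqrt_natCast_pow] at h1
    rw [hρ, div_pow, div_le_iff₀ (pow_pos hspos _)]
    exact h1
  obtain ⟨k, hk⟩ := exists_nat_gt (C / (ρ - 1))
  have h2 : C < (k : ℝ) * (ρ - 1) := by
    rw [div_lt_iff₀ (by linarith)] at hk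
    exact hk
  have h3 : 1 + ((2 ^ k : ℕ) : ℝ) * (ρ - 1) ≤ (1 + (ρ - 1)) ^ (2 ^ k) :=
    one_add_mul_le_pow (by linarith) _
  have h4 : (k : ℝ) ≤ ((2 ^ k : ℕ) : ℝ) := by
    exact_mod_cast (Nat.lt_two_pow_self).le
  have h5 : (k : ℝ) * (ρ - 1) ≤ ((2 ^ k : ℕ) : ℝ) * (ρ - 1) :=
    mul_le_mul_of_nonneg_right h4 (by linarith)
  have h6 := key k
  have h7 : (1 + (ρ - 1)) ^ (2 ^ k) = ρ ^ (2 ^ k) := by ring_nf
  linarith

/-- Reorienting the coordinates so that all level-one coefficients are nonnegative. -/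
theorem exists_orient (f : (Fin n → ℤˣ) → ℝ) (hf : ∀ x, f x = 1 ∨ f x = -1) :
    ∃ g : (Fin n → ℤˣ) → ℝ, (∀ x, g x = 1 ∨ g x = -1) ∧
      (∀ S : Finset (Fin n), |fourier g S| = |fourier f S|) ∧ fourier g ∅ = fourier f ∅ ∧
      ∀ i : Fin n, fourier g {i} = |fourier f {i}| := by
  classical
  let s : Fin n → ℤˣ := fun i => if 0 ≤ fourier f {i} then 1 else -1
  refine ⟨fun z => f (s * z), fun x => hf _, ?_, ?_, ?_⟩
  · intro S
    rw [fourier_tw, abs_mul, abs_prod_units, one_mul]
  · rw [fourier_tw]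
    simp
  · intro i
    rw [fourier_tw, Finset.prod_singleton]
    by_cases h : 0 ≤ fourier f {i}
    · have hs : s i = 1 := if_pos h
      rw [hs, abs_of_nonneg h]
      simp
    · have hs : s i = -1 := if_neg h
      rw [hs, abs_of_neg (not_le.mp h)]
      simp

/-- The self-improvement of a square-root bound on the level-one sum. -/
theorem weak_implies_strong (C : ℝ)
    (hweak : ∀ (N D : ℕ) (F : (Fin N → ℤˣ) → ℝ), (∀ x, F x = 1 ∨ F x = -1) →
      (∀ S : Finset (Fin N), D < S.card → fourier F S = 0) →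
      ∑ i : Fin N, fourier F {i} ≤ C * Real.sqrt D)
    (d : ℕ) (f : (Fin n → ℤˣ) → ℝ) (hf : ∀ x, f x = 1 ∨ f x = -1)
    (hdeg : ∀ S : Finset (Fin n), d < S.card → fourier f S = 0) :
    (∑ i : Fin n, |fourier f {i}| + |fourier f ∅| ≤ Real.sqrt ((d : ℝ) + 1)) ∧
    (Odd d → ∑ i : Fin n, |fourier f {i}| + |fourier f ∅| ≤ Real.sqrt d) ∧
    (fourier f ∅ = 0 → ∑ i : Fin n, |fourier f {i}| ≤ Real.sqrt d) := by
  obtain ⟨g, hg, hgabs, hg0, hg1⟩ := exists_orient f hf
  have hgdeg : ∀ S : Finset (Fin n), d < S.card → fourier g S = 0 := by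
    intro S hS
    have := hgabs S
    rw [hdeg S hS, abs_zero] at this
    exact abs_eq_zero.mp this
  have hsum : ∑ i : Fin n, |fourier f {i}| = ∑ i : Fin n, fourier g {i} :=
    Finset.sum_congr rfl (fun i _ => (hg1 i).symm)
  rw [hsum, ← hg0]
  -- the sign of the mean
  obtain ⟨ε, hε⟩ : ∃ ε : ℤˣ, ((ε : ℤ) : ℝ) * fourier g ∅ = |fourier g ∅| := by
    by_cases h : 0 ≤ fourier g ∅
    · exact ⟨1, by rw [abs_of_nonneg h]; simp⟩
    · exact ⟨-1, by rw [abs_of_neg (not_le.mp h)]; simp⟩
  have hlev : ∑ k : Fin (n + 1), fourier (oddz ε g) {k}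
      = ∑ i : Fin n, fourier g {i} + |fourier g ∅| := by
    rw [oddz_level_one, hε]
  refine ⟨?_, ?_, ?_⟩
  · have h := balanced_bound C hweak (d + 1) (oddz ε g) (oddz_boolean ε g hg) (oddz_empty ε g)
      (oddz_degree ε g d hgdeg)
    rw [hlev] at h
    have e : (((d + 1 : ℕ)) : ℝ) = (d : ℝ) + 1 := by push_cast; ring
    rw [e] at h
    exact h
  · intro hodd
    have h := balanced_bound C hweak d (oddz ε g) (oddz_boolean ε g hg) (oddz_empty ε g)
      (oddz_degree_odd ε g d hodd hgdeg)
    rw [hlev] at h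
    exact h
  · intro h0
    exact balanced_bound C hweak d g hg h0 hgdeg

end Amplification

end Vale.Agent.Helper18.Cube
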