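import Mathlib

/-!
Stand-alone analytic inequality used for P254 (vertex-truncated simplices, Step 3 of
helper13's proof of the merging inequality): a combination of hyperbolic sines with
polynomial coefficients is nonnegative for nonnegative arguments, because all its Taylor
coefficients are.
-/

namespace Vale.Agent.Helper18.WnD

open Real

/-- The exponential sum `f_m(a)`; `4 d_m(k) = f_m (2 + 2 k)`. -/
noncomputable def f (a : ℝ) (m : ℕ) : ℝ :=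
  (2 * a + 10) ^ m - 3 * (a + 8) ^ m + (a + 4) ^ m - 4 * a ^ m + (a + 2) * 6 ^ m
    - (a + 1) * 2 ^ m

theorem pow_ge_six (a : ℝ) (ha : 2 ≤ a) (j : ℕ) :
    2 * (a + 2) * 6 ^ (j + 3) ≤ (2 * a + 10) ^ (j + 3) := by
  have h1 : (6 : ℝ) ^ j ≤ (2 * a + 10) ^ j := pow_le_pow_left₀ (by norm_num) (by linarith) j
  have h2 : 2 * (a + 2) * 6 ^ 3 ≤ (2 * a + 10) ^ 3 := by
    have e : (2 * a + 10) ^ 3 - 2 * (a + 2) * 6 ^ 3 = 8 * a ^ 3 + 120 * a ^ 2 + 168 * a + 136 := by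
      ring
    have : 0 ≤ 8 * a ^ 3 + 120 * a ^ 2 + 168 * a + 136 := by
      have ha0 : 0 ≤ a := by linarith
      positivity
    linarith
  have h6 : (0 : ℝ) ≤ 6 ^ j := by positivity
  have h3 : (0 : ℝ) ≤ 2 * (a + 2) * 6 ^ 3 := by
    have : 0 ≤ a + 2 := by linarith
    positivity
  calc 2 * (a + 2) * 6 ^ (j + 3) = 6 ^ j * (2 * (a + 2) * 6 ^ 3) := by ring
    _ ≤ (2 * a + 10) ^ j * (2 * a + 10) ^ 3 :=
        mul_le_mul h1 h2 h3 (h6.trans h1)
    _ = (2 * a + 10) ^ (j + 3) := by ring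

theorem pow_ge_four (a : ℝ) (ha : 2 ≤ a) (j : ℕ) :
    8 * (a + 4) ^ (j + 3) ≤ (2 * a + 10) ^ (j + 3) := by
  have h1 : (a + 4) ^ (j + 3) ≤ (a + 5) ^ (j + 3) :=
    pow_le_pow_left₀ (by linarith) (by linarith) (j + 3)
  have h2 : (8 : ℝ) ≤ 2 ^ (j + 3) := by
    calc (8 : ℝ) = 2 ^ 3 := by norm_num
      _ ≤ 2 ^ (j + 3) := pow_le_pow_right₀ (by norm_num) (by omega)
  have h3 : (0 : ℝ) ≤ (a + 4) ^ (j + 3) := by
    have : 0 ≤ a + 4 := by linarith
    positivity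
  calc 8 * (a + 4) ^ (j + 3) ≤ 2 ^ (j + 3) * (a + 5) ^ (j + 3) :=
        mul_le_mul h2 h1 h3 (by positivity)
    _ = (2 * a + 10) ^ (j + 3) := by rw [← mul_pow]; ring_nf

theorem f_nonneg (a : ℝ) (ha : 2 ≤ a) (j : ℕ) : 0 ≤ f a (j + 3) := by
  induction j with
  | zero =>
    have e : f a (0 + 3) = 2 * a ^ 3 + 60 * a ^ 2 + 280 * a - 48 := by
      simp only [f]; ring
    rw [e]
    have ha0 : 0 ≤ a := by linarith
    have h1 : 0 ≤ 2 * a ^ 3 + 60 * a ^ 2 := by positivity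
    linarith
  | succ j ih =>
    have key : f a (j + 1 + 3) = (a + 8) * f a (j + 3)
        + ((a + 2) * (2 * a + 10) ^ (j + 3) - (a + 2) ^ 2 * 6 ^ (j + 3) - 4 * (a + 4) ^ (j + 3))
        + 32 * a ^ (j + 3) + (a + 1) * (a + 6) * 2 ^ (j + 3) := by
      simp only [f]; ring
    rw [key]
    have h6 := pow_ge_six a ha j
    have h4 := pow_ge_four a ha j
    have ha2 : 0 ≤ a + 2 := by linarith
    have hp4 : (0 : ℝ) ≤ (a + 4) ^ (j + 3) := by
      have : 0 ≤ a + 4 := by linarith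
      positivity
    have t1 : 0 ≤ (a + 8) * f a (j + 3) := mul_nonneg (by linarith) ih
    have t2 : 0 ≤ (a + 2) * (2 * a + 10) ^ (j + 3) - (a + 2) ^ 2 * 6 ^ (j + 3)
        - 4 * (a + 4) ^ (j + 3) := by
      have m1 : (a + 2) / 2 * (2 * (a + 2) * 6 ^ (j + 3)) ≤ (a + 2) / 2 * (2 * a + 10) ^ (j + 3) :=
        mul_le_mul_of_nonneg_left h6 (by linarith)
      have m2 : (a + 2) / 2 * (8 * (a + 4) ^ (j + 3)) ≤ (a + 2) / 2 * (2 * a + 10) ^ (j + 3) :=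
        mul_le_mul_of_nonneg_left h4 (by linarith)
      have m3 : 4 * (a + 4) ^ (j + 3) ≤ (a + 2) / 2 * (8 * (a + 4) ^ (j + 3)) := by
        have : (1 : ℝ) * (4 * (a + 4) ^ (j + 3)) ≤ (a + 2) * (4 * (a + 4) ^ (j + 3)) :=
          mul_le_mul_of_nonneg_right (by linarith) (by linarith)
        linarith
      nlinarith [m1, m2, m3]
    have t3 : 0 ≤ 32 * a ^ (j + 3) := by
      have ha0 : 0 ≤ a := by linarith
      positivity
    have t4 : 0 ≤ (a + 1) * (a + 6) * 2 ^ (j + 3) := by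
      have h1 : 0 ≤ a + 1 := by linarith
      have h2 : 0 ≤ a + 6 := by linarith
      positivity
    linarith

/-- Taylor coefficient (times `m!`) of the function `D`. -/
noncomputable def dcoef (k : ℝ) (m : ℕ) : ℝ :=
  1 / 4 * (14 + 4 * k) ^ m - 3 / 4 * (10 + 2 * k) ^ m + 1 / 4 * (6 + 2 * k) ^ m
    - (2 + 2 * k) ^ m + (1 + k / 2) * 6 ^ m - (3 / 4 + k / 2) * 2 ^ m

theorem dcoef_eq (k : ℝ) (m : ℕ) : dcoef k m = f (2 + 2 * k) m / 4 := by
  simp only [dcoef, f]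
  have e1 : (2 * (2 + 2 * k) + 10 : ℝ) = 14 + 4 * k := by ring
  have e2 : (2 + 2 * k + 8 : ℝ) = 10 + 2 * k := by ring
  have e3 : (2 + 2 * k + 4 : ℝ) = 6 + 2 * k := by ring
  rw [e1, e2, e3]
  ring

theorem dcoef_odd_nonneg (k : ℝ) (hk : 0 ≤ k) (n : ℕ) : 0 ≤ dcoef k (2 * n + 1) := by
  rcases Nat.eq_zero_or_pos n with h0 | hpos
  · subst h0
    have : dcoef k (2 * 0 + 1) = 0 := by
      simp only [dcoef]; ring
    rw [this]
  · obtain ⟨j, rfl⟩ : ∃ j, n = j + 1 := ⟨n - 1, by omega⟩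
    have e : 2 * (j + 1) + 1 = 2 * j + 3 := by ring
    rw [e, dcoef_eq]
    have := f_nonneg (2 + 2 * k) (by linarith) (2 * j)
    positivity

theorem D_hasSum (k t : ℝ) :
    HasSum (fun n : ℕ => dcoef k (2 * n + 1) * (t ^ (2 * n + 1) / ((2 * n + 1).factorial : ℝ)))
      (1 / 4 * sinh ((14 + 4 * k) * t) - 3 / 4 * sinh ((10 + 2 * k) * t)
        + 1 / 4 * sinh ((6 + 2 * k) * t) - sinh ((2 + 2 * k) * t)
        + (1 + k / 2) * sinh (6 * t) - (3 / 4 + k / 2) * sinh (2 * t)) := by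
  have h14 := Real.hasSum_sinh ((14 + 4 * k) * t)
  have h10 := Real.hasSum_sinh ((10 + 2 * k) * t)
  have h6k := Real.hasSum_sinh ((6 + 2 * k) * t)
  have h2k := Real.hasSum_sinh ((2 + 2 * k) * t)
  have h6 := Real.hasSum_sinh (6 * t)
  have h2 := Real.hasSum_sinh (2 * t)
  have hs := (((((h14.mul_left (1 / 4)).sub (h10.mul_left (3 / 4))).add
    (h6k.mul_left (1 / 4))).sub h2k).add (h6.mul_left (1 + k / 2))).sub
    (h2.mul_left (3 / 4 + k / 2))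
  have hfun : ∀ n : ℕ,
      dcoef k (2 * n + 1) * (t ^ (2 * n + 1) / ((2 * n + 1).factorial : ℝ))
      = 1 / 4 * (((14 + 4 * k) * t) ^ (2 * n + 1) / ((2 * n + 1).factorial : ℝ))
        - 3 / 4 * (((10 + 2 * k) * t) ^ (2 * n + 1) / ((2 * n + 1).factorial : ℝ))
        + 1 / 4 * (((6 + 2 * k) * t) ^ (2 * n + 1) / ((2 * n + 1).factorial : ℝ))
        - ((2 + 2 * k) * t) ^ (2 * n + 1) / ((2 * n + 1).factorial : ℝ)
        + (1 + k / 2) * ((6 * t) ^ (2 * n + 1) / ((2 * n + 1).factorial : ℝ))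
        - (3 / 4 + k / 2) * ((2 * t) ^ (2 * n + 1) / ((2 * n + 1).factorial : ℝ)) := by
    intro n
    simp only [dcoef, mul_pow]
    ring
  simp only [hfun]
  exact hs

/-- Step 3: `D(k,t) ≥ 0` for `k, t ≥ 0`. -/
theorem D_nonneg (k t : ℝ) (hk : 0 ≤ k) (ht : 0 ≤ t) :
    0 ≤ 1 / 4 * sinh ((14 + 4 * k) * t) - 3 / 4 * sinh ((10 + 2 * k) * t)
        + 1 / 4 * sinh ((6 + 2 * k) * t) - sinh ((2 + 2 * k) * t)
        + (1 + k / 2) * sinh (6 * t) - (3 / 4 + k / 2) * sinh (2 * t) := by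
  refine (D_hasSum k t).nonneg ?_
  intro n
  apply mul_nonneg (dcoef_odd_nonneg k hk n)
  positivity

end Vale.Agent.Helper18.WnD
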