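import Mathlib

/-!
Determinant of a diagonal matrix plus a symmetric rank-two update spanned by two vectors
(`u` and `w`), for P254 (covariance matrix of a vertex-truncated simplex in any dimension).
-/

namespace Vale.Agent.Helper18.WnDet

open Matrix Finset

variable {ι : Type*} [Fintype ι] [DecidableEq ι]

/-- If `M i j = d_i δ_ij + al u_i u_j + be (u_i w_j + w_i u_j) + ga w_i w_j` with all `d_i ≠ 0`,
then `det M = (∏ d_i) ((1 + al A + be B)(1 + be B + ga C) - (al B + be C)(be A + ga B))`,
where `A = ∑ u_i^2/d_i`, `B = ∑ u_i w_i/d_i`, `C = ∑ w_i^2/d_i`. -/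
theorem det_diag_rank_two (M : Matrix ι ι ℝ) (d u w : ι → ℝ) (hd : ∀ i, d i ≠ 0)
    (al be ga : ℝ)
    (hM : ∀ i j, M i j = (if i = j then d i else 0) + al * (u i * u j)
      + be * (u i * w j + w i * u j) + ga * (w i * w j))
    (A B C : ℝ) (hA : A = ∑ i, u i ^ 2 / d i) (hB : B = ∑ i, u i * w i / d i)
    (hC : C = ∑ i, w i ^ 2 / d i) :
    M.det = (∏ i, d i) * ((1 + al * A + be * B) * (1 + be * B + ga * C)
      - (al * B + be * C) * (be * A + ga * B)) := by
  classical
  let U : Matrix ι (Fin 2) ℝ := Matrix.of fun i a => if a = 0 then u i else w i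
  let K : Matrix (Fin 2) (Fin 2) ℝ := Matrix.of fun a b =>
    if a = 0 then (if b = 0 then al else be) else (if b = 0 then be else ga)
  let Di : Matrix ι ι ℝ := Matrix.diagonal fun i => (d i)⁻¹
  have hDU0 : ∀ i, (Di * U) i 0 = (d i)⁻¹ * u i := by
    intro i
    simp [Di, U, Matrix.diagonal_mul]
  have hDU1 : ∀ i, (Di * U) i 1 = (d i)⁻¹ * w i := by
    intro i
    simp [Di, U, Matrix.diagonal_mul]
  have hKU0 : ∀ j, (K * Uᵀ) 0 j = al * u j + be * w j := by
    intro j
    simp [K, U, Matrix.mul_apply, Fin.sum_univ_two]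
  have hKU1 : ∀ j, (K * Uᵀ) 1 j = be * u j + ga * w j := by
    intro j
    simp [K, U, Matrix.mul_apply, Fin.sum_univ_two]
  have hfac : M = Matrix.diagonal d * (1 + (Di * U) * (K * Uᵀ)) := by
    ext i j
    rw [hM i j, Matrix.diagonal_mul, Matrix.add_apply, Matrix.mul_apply, Fin.sum_univ_two,
      hDU0, hDU1, hKU0, hKU1, Matrix.one_apply]
    have hdi := hd i
    by_cases hij : i = j
    · subst hij
      simp only [if_true]
      field_simp
      ring
    · simp only [hij, if_false]
      field_simp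
      ring
  rw [hfac, Matrix.det_mul, Matrix.det_diagonal, Matrix.det_one_add_mul_comm, Matrix.det_fin_two]
  congr 1
  have e00 : ((1 : Matrix (Fin 2) (Fin 2) ℝ) + K * Uᵀ * (Di * U)) 0 0 = 1 + al * A + be * B := by
    rw [Matrix.add_apply, Matrix.mul_apply, hA, hB, Finset.mul_sum, Finset.mul_sum, add_assoc,
      ← Finset.sum_add_distrib, Matrix.one_apply_eq]
    congr 1
    apply Finset.sum_congr rfl
    intro i _
    have hdi := hd i
    rw [hDU0, hKU0]
    field_simp
  have e01 : ((1 : Matrix (Fin 2) (Fin 2) ℝ) + K * Uᵀ * (Di * U)) 0 1 = al * B + be * C := by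
    rw [Matrix.add_apply, Matrix.mul_apply, hB, hC, Finset.mul_sum, Finset.mul_sum,
      ← Finset.sum_add_distrib, Matrix.one_apply_ne (by decide : (0 : Fin 2) ≠ 1), zero_add]
    apply Finset.sum_congr rfl
    intro i _
    have hdi := hd i
    rw [hDU1, hKU0]
    field_simp
  have e10 : ((1 : Matrix (Fin 2) (Fin 2) ℝ) + K * Uᵀ * (Di * U)) 1 0 = be * A + ga * B := by
    rw [Matrix.add_apply, Matrix.mul_apply, hA, hB, Finset.mul_sum, Finset.mul_sum,
      ← Finset.sum_add_distrib, Matrix.one_apply_ne (by decide : (1 : Fin 2) ≠ 0), zero_add]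
    apply Finset.sum_congr rfl
    intro i _
    have hdi := hd i
    rw [hDU0, hKU1]
    field_simp
  have e11 : ((1 : Matrix (Fin 2) (Fin 2) ℝ) + K * Uᵀ * (Di * U)) 1 1 = 1 + be * B + ga * C := by
    rw [Matrix.add_apply, Matrix.mul_apply, hB, hC, Finset.mul_sum, Finset.mul_sum, add_assoc,
      ← Finset.sum_add_distrib, Matrix.one_apply_eq]
    congr 1
    apply Finset.sum_congr rfl
    intro i _
    have hdi := hd i
    rw [hDU1, hKU1]
    field_simp
  rw [e00, e01, e10, e11]

end Vale.Agent.Helper18.WnDet
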