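import Mathlib

/-!
Stand-alone analytic inequality used for P254 (vertex-truncated simplices, Step 4 of
helper13's proof of the merging inequality): a combination of hyperbolic cosines with
polynomial coefficients is nonnegative, because all its Taylor coefficients are.
-/

namespace Vale.Agent.Helper18.WnE

open Real

theorem four_mul_four_pow_le (n : ℕ) (hn : 4 ≤ n) : (4 : ℝ) * 4 ^ n ≤ 6 ^ n := by
  induction n, hn using Nat.le_induction with
  | base => norm_num
  | succ n hn ih =>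
    have h6 : (0 : ℝ) ≤ 6 ^ n := by positivity
    calc (4 : ℝ) * 4 ^ (n + 1) = 4 * (4 * 4 ^ n) := by ring
      _ ≤ 4 * 6 ^ n := by linarith
      _ ≤ 6 ^ (n + 1) := by rw [pow_succ]; linarith

/-- `P_n(N) = N[(8+N)^n - (6+N)^n] - 8[(4+N)^n - 4^n] ≥ 0` for `n ≥ 4`, `N ≥ 0`. -/
theorem P_nonneg (N : ℝ) (hN : 0 ≤ N) (n : ℕ) (hn : 4 ≤ n) :
    0 ≤ N * ((8 + N) ^ n - (6 + N) ^ n) - 8 * ((4 + N) ^ n - 4 ^ n) := by
  induction n, hn using Nat.le_induction with
  | base =>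
    have h : N * ((8 + N) ^ 4 - (6 + N) ^ 4) - 8 * ((4 + N) ^ 4 - 4 ^ 4)
        = 752 * N + 416 * N ^ 2 + 40 * N ^ 3 := by ring
    rw [h]; positivity
  | succ n hn ih =>
    have h1 : (6 + N) ^ n ≤ (8 + N) ^ n :=
      pow_le_pow_left₀ (by linarith) (by linarith) n
    have h2 : (4 : ℝ) * 4 ^ n ≤ (6 + N) ^ n :=
      (four_mul_four_pow_le n hn).trans (pow_le_pow_left₀ (by norm_num) (by linarith) n)
    have key : N * ((8 + N) ^ (n + 1) - (6 + N) ^ (n + 1)) - 8 * ((4 + N) ^ (n + 1) - 4 ^ (n + 1))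
        = (4 + N) * (N * ((8 + N) ^ n - (6 + N) ^ n) - 8 * ((4 + N) ^ n - 4 ^ n))
          + 4 * N * ((8 + N) ^ n - (6 + N) ^ n) + 2 * N * ((6 + N) ^ n - 4 * 4 ^ n) := by ring
    rw [key]
    have a1 : 0 ≤ (4 + N) * (N * ((8 + N) ^ n - (6 + N) ^ n) - 8 * ((4 + N) ^ n - 4 ^ n)) :=
      mul_nonneg (by linarith) ih
    have a2 : 0 ≤ 4 * N * ((8 + N) ^ n - (6 + N) ^ n) := mul_nonneg (by linarith) (by linarith)
    have a3 : 0 ≤ 2 * N * ((6 + N) ^ n - 4 * 4 ^ n) := mul_nonneg (by linarith) (by linarith)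
    linarith

/-- The `n`-th Taylor coefficient (times `n!`) of the function `E`. -/
noncomputable def coef (N : ℝ) (n : ℕ) : ℝ :=
  N / 8 * ((8 + N) ^ n - (6 + N) ^ n) - (4 + N) ^ n + 4 ^ n + N / 8 * (2 ^ n - 0 ^ n)
    + N * (8 + N) / 16 * (4 ^ n - 2 * 2 ^ n + 0 ^ n)

theorem coef_even_nonneg (N : ℝ) (hN : 0 ≤ N) (j : ℕ) : 0 ≤ coef N (2 * j) := by
  rcases Nat.lt_or_ge j 2 with hj | hj
  · interval_cases j
    · have h : coef N (2 * 0) = 0 := by
        simp only [coef]; norm_num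
      rw [h]
    · have h : coef N (2 * 1) = 0 := by
        simp only [coef]; norm_num; ring
      rw [h]
  · have hn : 4 ≤ 2 * j := by omega
    have hP := P_nonneg N hN (2 * j) hn
    have h0 : (0 : ℝ) ^ (2 * j) = 0 := by
      apply zero_pow; omega
    have h4 : (4 : ℝ) ^ (2 * j) = 2 ^ (2 * j) * 2 ^ (2 * j) := by
      rw [← mul_pow]; norm_num
    have h2 : (2 : ℝ) ≤ 2 ^ (2 * j) := by
      calc (2 : ℝ) = 2 ^ 1 := by norm_num
        _ ≤ 2 ^ (2 * j) := pow_le_pow_right₀ (by norm_num) (by omega)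
    have h2' : (0 : ℝ) ≤ 2 ^ (2 * j) := by positivity
    have e : coef N (2 * j) = (N * ((8 + N) ^ (2 * j) - (6 + N) ^ (2 * j))
          - 8 * ((4 + N) ^ (2 * j) - 4 ^ (2 * j))) / 8 + N / 8 * 2 ^ (2 * j)
          + N * (8 + N) / 16 * (2 ^ (2 * j) * (2 ^ (2 * j) - 2)) := by
      simp only [coef, h0]; rw [h4]; ring
    rw [e]
    have b1 : 0 ≤ N / 8 * 2 ^ (2 * j) := by positivity
    have b2 : 0 ≤ N * (8 + N) / 16 * (2 ^ (2 * j) * (2 ^ (2 * j) - 2)) := by
      apply mul_nonneg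
      · have : 0 ≤ N * (8 + N) := mul_nonneg hN (by linarith)
        linarith
      · exact mul_nonneg h2' (by linarith)
    linarith

theorem E_hasSum (N m : ℝ) :
    HasSum (fun j : ℕ => coef N (2 * j) * (m ^ (2 * j) / ((2 * j).factorial : ℝ)))
      (N / 8 * (cosh ((8 + N) * m) - cosh ((6 + N) * m)) - cosh ((4 + N) * m) + cosh (4 * m)
        + N / 8 * (cosh (2 * m) - 1)
        + N * (8 + N) / 16 * (cosh (4 * m) - 2 * cosh (2 * m) + 1)) := by
  have h8 := Real.hasSum_cosh ((8 + N) * m)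
  have h6 := Real.hasSum_cosh ((6 + N) * m)
  have h4N := Real.hasSum_cosh ((4 + N) * m)
  have h4 := Real.hasSum_cosh (4 * m)
  have h2 := Real.hasSum_cosh (2 * m)
  have h0 := Real.hasSum_cosh (0 * m)
  have hs := (((((h8.sub h6).mul_left (N / 8)).sub h4N).add h4).add
    ((h2.sub h0).mul_left (N / 8))).add
    (((h4.sub (h2.mul_left 2)).add h0).mul_left (N * (8 + N) / 16))
  have hfun : ∀ j : ℕ, coef N (2 * j) * (m ^ (2 * j) / ((2 * j).factorial : ℝ))
      = N / 8 * (((8 + N) * m) ^ (2 * j) / ((2 * j).factorial : ℝ)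
            - ((6 + N) * m) ^ (2 * j) / ((2 * j).factorial : ℝ))
          - ((4 + N) * m) ^ (2 * j) / ((2 * j).factorial : ℝ)
          + (4 * m) ^ (2 * j) / ((2 * j).factorial : ℝ)
          + N / 8 * ((2 * m) ^ (2 * j) / ((2 * j).factorial : ℝ)
            - (0 * m) ^ (2 * j) / ((2 * j).factorial : ℝ))
          + N * (8 + N) / 16 * ((4 * m) ^ (2 * j) / ((2 * j).factorial : ℝ)
            - 2 * ((2 * m) ^ (2 * j) / ((2 * j).factorial : ℝ))
            + (0 * m) ^ (2 * j) / ((2 * j).factorial : ℝ)) := by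
    intro j
    simp only [coef, mul_pow]
    ring
  have hval : N / 8 * (cosh ((8 + N) * m) - cosh ((6 + N) * m)) - cosh ((4 + N) * m) + cosh (4 * m)
        + N / 8 * (cosh (2 * m) - 1)
        + N * (8 + N) / 16 * (cosh (4 * m) - 2 * cosh (2 * m) + 1)
      = N / 8 * (cosh ((8 + N) * m) - cosh ((6 + N) * m)) - cosh ((4 + N) * m) + cosh (4 * m)
        + N / 8 * (cosh (2 * m) - cosh (0 * m))
        + N * (8 + N) / 16 * (cosh (4 * m) - 2 * cosh (2 * m) + cosh (0 * m)) := by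
    rw [zero_mul, Real.cosh_zero]
  rw [hval]
  simp only [hfun]
  exact hs

/-- Step 4: the extremal-family function is nonnegative (no sign condition on `m`). -/
theorem E_nonneg (N m : ℝ) (hN : 0 ≤ N) :
    0 ≤ N / 8 * (cosh ((8 + N) * m) - cosh ((6 + N) * m)) - cosh ((4 + N) * m) + cosh (4 * m)
        + N / 8 * (cosh (2 * m) - 1)
        + N * (8 + N) / 16 * (cosh (4 * m) - 2 * cosh (2 * m) + 1) := by
  refine (E_hasSum N m).nonneg ?_
  intro j
  apply mul_nonneg (coef_even_nonneg N hN j)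
  apply div_nonneg
  · rw [pow_mul]; positivity
  · positivity

end Vale.Agent.Helper18.WnE
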